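import Crest.Agent.N111.E.Api

/-! # Row 111: triple operator integrals and scale averages (fill the proofs IN PLACE). -/

set_option autoImplicit false
set_option linter.unusedSectionVars false
set_option linter.unusedVariables false

namespace Crest.Agent.N111

open MeasureTheory Topology Filter Matrix
open scoped InnerProductSpace

variable {K : Type} [NormedAddCommGroup K] [InnerProductSpace ℂ K] [CompleteSpace K]

/-! ### two library lemmas -/
section lib
variable {Ω : Type} [TopologicalSpace Ω] [SecondCountableTopology Ω] [MeasurableSpace Ω]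
  [OpensMeasurableSpace Ω] {m : Measure Ω} {c : Ω → ℂ}

theorem SCont.comp {Ω Ω' : Type} [TopologicalSpace Ω] [TopologicalSpace Ω'] {F : Ω → K →L[ℂ] K}
    (h : SCont F) {φ : Ω' → Ω} (hφ : Continuous φ) : SCont fun w => F (φ w) :=
  ⟨fun η => (h.1 η).comp hφ, h.2.imp fun _ hC w => hC (φ w)⟩

theorem POVM.sInt_E {Y : Type} [MeasurableSpace Y] [TopologicalSpace.MetrizableSpace Ω]
    [BorelSpace Ω] [SFinite m] (P : POVM Y K) (hc : Integrable c m) {g : Ω → Y → ℂ}
    (hm : ∀ w, Measurable (g w)) {C : ℝ} (hb : ∀ w y, ‖g w y‖ ≤ C)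
    (hcont : ∀ y, Continuous fun w => g w y) :
    BM (fun y => ∫ w, c w * g w y ∂m) ∧
      sInt m c (fun w => P.E (g w)) = P.E fun y => ∫ w, c w * g w y ∂m := by
  have hg : Measurable (Function.uncurry g) :=
    measurable_uncurry_of_continuous_of_measurable hcont hm
  have hB : BM fun y => ∫ w, c w * g w y ∂m := by
    refine BM.of_le ?_ (C := (∫ w, ‖c w‖ ∂m) * C) fun y => ?_
    · have h1 := hc.aestronglyMeasurable
      have e : (fun y => ∫ w, c w * g w y ∂m) = fun y => ∫ w, h1.mk c w * g w y ∂m :=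
        funext fun y => integral_congr_ae (h1.ae_eq_mk.mono fun w hw => by simp only [hw])
      rw [e]
      exact (StronglyMeasurable.integral_prod_left (f := fun w y => h1.mk c w * g w y)
        ((h1.measurable_mk.comp measurable_fst).mul hg).stronglyMeasurable).measurable
    · rw [← integral_mul_const]
      refine norm_integral_le_of_norm_le (hc.norm.mul_const C) (Eventually.of_forall fun w => ?_)
      rw [norm_mul]
      exact mul_le_mul_of_nonneg_left (hb w y) (norm_nonneg _)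
  refine ⟨hB, op_ext fun η => ?_⟩
  rw [inner_sInt hc (P.sCont_E hm hb hcont), P.inner_E _ hB,
    ← integral_integral_swap (f := fun w y => c w * g w y) ((hc.comp_fst (P.ν η)).mul_bdd (c := C)
      hg.aestronglyMeasurable (Eventually.of_forall fun p => hb p.1 p.2))]
  refine integral_congr_ae (Eventually.of_forall fun w => ?_)
  simp only [P.inner_E _ (BM.of_le (hm w) (hb w)), integral_const_mul]

theorem WTends.integral {α : Type} {l : Filter α} {X : α → K →L[ℂ] K} {X₀ : K →L[ℂ] K}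
    (h : WTends l X X₀) {C : ℝ} (hX : ∀ k, ‖X k‖ ≤ C) (hc : Integrable c m) {ζ η : Ω → K}
    (hζ : Continuous ζ) (hη : Continuous η) {D : ℝ} (hζ' : ∀ w, ‖ζ w‖ ≤ D) (hη' : ∀ w, ‖η w‖ ≤ D) :
    Tendsto (fun k => ∫ w, c w * ⟪ζ w, X k (η w)⟫_ℂ ∂m) l (𝓝 (∫ w, c w * ⟪ζ w, X₀ (η w)⟫_ℂ ∂m)) := by
  obtain ⟨s, hs, hd⟩ := TopologicalSpace.exists_countable_dense Ω
  have := hs.to_subtype
  have key : ∀ k (a b : K), ‖⟪a, X k b⟫_ℂ‖ ≤ ‖a‖ * (C * ‖b‖) := fun k a b =>
    (norm_inner_le_norm _ _).trans (mul_le_mul_of_nonneg_left (((X k).le_opNorm b).trans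
      (mul_le_mul_of_nonneg_right (hX k) (norm_nonneg _))) (norm_nonneg _))
  have hC : ∀ k : α, 0 ≤ C := fun k => (norm_nonneg _).trans (hX k)
  have hcont : ∀ T : K →L[ℂ] K, Continuous fun w => ⟪ζ w, T (η w)⟫_ℂ := fun T => by fun_prop
  have heq : Equicontinuous fun k w => ⟪ζ w, X k (η w)⟫_ℂ := fun w₀ => by
    refine Metric.equicontinuousAt_of_continuity_modulus
      (fun w => ‖ζ w₀ - ζ w‖ * (C * D) + D * (C * ‖η w₀ - η w‖)) ?_ _
      (Eventually.of_forall fun w k => ?_)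
    · exact Continuous.tendsto' (by fun_prop) _ _ (by simp)
    · have e : ⟪ζ w₀, X k (η w₀)⟫_ℂ - ⟪ζ w, X k (η w)⟫_ℂ
          = ⟪ζ w₀ - ζ w, X k (η w₀)⟫_ℂ + ⟪ζ w, X k (η w₀ - η w)⟫_ℂ := by
        rw [inner_sub_left, map_sub, inner_sub_right]; ring
      rw [dist_eq_norm, e]
      refine (norm_add_le _ _).trans (add_le_add ((key _ _ _).trans ?_) ((key _ _ _).trans ?_))
      · gcongr
        exacts [hC k, hη' w₀]
      · exact mul_le_mul_of_nonneg_right (hζ' w) (mul_nonneg (hC k) (norm_nonneg _))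
  let l' : Filter α := ⨅ d : s, comap (fun k => ⟪ζ d, X k (η d)⟫_ℂ) (𝓝 ⟪ζ d, X₀ (η d)⟫_ℂ)
  have hl : l ≤ l' := le_iInf fun d => (h _ _).le_comap
  have hp : ∀ w, Tendsto (fun k => ⟪ζ w, X k (η w)⟫_ℂ) l' (𝓝 ⟪ζ w, X₀ (η w)⟫_ℂ) := fun w =>
    (heq.isClosed_setOfPred_tendsto (l := l') (hcont X₀)).closure_subset_iff.2
      (fun d hd => tendsto_iff_comap.2 (iInf_le _ (⟨d, hd⟩ : s))) (hd w)
  refine (tendsto_integral_filter_of_dominated_convergence (fun w => ‖c w‖ * (D * (C * D)))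
    (Eventually.of_forall fun k => hc.aestronglyMeasurable.mul (hcont _).aestronglyMeasurable)
    (Eventually.of_forall fun k => Eventually.of_forall fun w => ?_) (hc.norm.mul_const _)
    (Eventually.of_forall fun w => (hp w).const_mul _)).mono_left hl
  rw [Pi.mul_apply, norm_mul]
  refine mul_le_mul_of_nonneg_left ((key _ _ _).trans ?_) (norm_nonneg _)
  exact mul_le_mul (hζ' w) (mul_le_mul_of_nonneg_left (hη' w) (hC k))
    (mul_nonneg (hC k) (norm_nonneg _)) ((norm_nonneg _).trans (hζ' w))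

theorem sCont_sInt {Ω' : Type} [TopologicalSpace Ω'] [FirstCountableTopology Ω']
    (hc : Integrable c m) {F : Ω' → Ω → K →L[ℂ] K} (hF : SCont fun p : Ω' × Ω => F p.1 p.2) :
    SCont fun w' => sInt m c (F w') := by
  obtain ⟨C, hC⟩ := hF.2
  have h1 : ∀ w', SCont (F w') := fun w' => hF.comp (Continuous.prodMk_right w')
  refine ⟨fun η => ?_, (∫ w, ‖c w‖ ∂m) * max C 0, fun w' =>
    norm_sInt_le hc (h1 w') (le_max_right _ _) fun w => (hC (w', w)).trans (le_max_left _ _)⟩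
  simp only [sInt_apply hc (h1 _)]
  refine continuous_of_dominated (bound := fun w => ‖c w‖ * (C * ‖η‖))
    (fun w' => ((h1 w').integrable hc η).aestronglyMeasurable)
    (fun w' => Eventually.of_forall fun w => ?_) (hc.norm.mul_const _)
    (Eventually.of_forall fun w => ((hF.1 η).comp (Continuous.prodMk_left w)).const_smul _)
  rw [norm_smul]
  exact mul_le_mul_of_nonneg_left (((F w' w).le_opNorm _).trans
    (mul_le_mul_of_nonneg_right (hC (w', w)) (norm_nonneg _))) (norm_nonneg _)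

/-- Fubini for strong integrals -/
theorem sInt_swap {Ω' : Type} [TopologicalSpace Ω'] [SecondCountableTopology Ω'] [MeasurableSpace Ω']
    [OpensMeasurableSpace Ω'] {m' : Measure Ω'} {c' : Ω' → ℂ} [SFinite m] [SFinite m']
    (hc : Integrable c m) (hc' : Integrable c' m') {F : Ω → Ω' → K →L[ℂ] K}
    (hF : SCont fun p : Ω × Ω' => F p.1 p.2) :
    sInt m c (fun w => sInt m' c' (F w)) = sInt m' c' fun w' => sInt m c fun w => F w w' := by
  have hF' : SCont fun p : Ω' × Ω => F p.2 p.1 := hF.comp continuous_swap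
  have h1 : ∀ w, SCont (F w) := fun w => hF.comp (Continuous.prodMk_right w)
  have h2 : ∀ w', SCont fun w => F w w' := fun w' => hF.comp (Continuous.prodMk_left w')
  refine ContinuousLinearMap.ext fun η => ?_
  rw [sInt_apply hc (sCont_sInt hc' hF), sInt_apply hc' (sCont_sInt (F := fun w' w => F w w') hc hF')]
  simp only [sInt_apply hc' (h1 _), sInt_apply hc (h2 _), ← integral_smul, smul_smul]
  rw [integral_integral_swap (f := fun w w' => (c w * c' w') • F w w' η)
    (hF.integrable (hc.mul_prod hc') η)]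
  simp only [mul_comm]
end lib

/-! ### triple operator integrals -/

/-- the three phases -/
noncomputable def ph (l : ℝ) (w : ℝ × ℝ) : Fin 3 → ℝ → ℂ :=
  ![fun t => ex (-(w.1 * l * t)), fun t => ex (w.2 * l * t), fun t => ex ((w.1 - w.2) * l * t)]

/-- the operator with kernel `K2 c (l (t₂ - t₀), l (t₁ - t₂))` -/
noncomputable def toi (W : (Fin 3 → ℝ → ℂ) → K →L[ℂ] K) (c : ℝ × ℝ → ℂ) (l : ℝ) : K →L[ℂ] K :=
  sInt volume c fun w => W (ph l w)

theorem norm_ph (l : ℝ) (w : ℝ × ℝ) (k : Fin 3) (t : ℝ) : ‖ph l w k t‖ = 1 := by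
  fin_cases k <;> exact norm_ex _
theorem continuous_ph (k : Fin 3) :
    Continuous fun p : ℝ × (ℝ × ℝ) × ℝ => ph p.1 p.2.1 k p.2.2 := by
  fin_cases k <;> exact continuous_ex.comp (by fun_prop)
theorem continuous_ph_t (l : ℝ) (w : ℝ × ℝ) (k : Fin 3) : Continuous (ph l w k) :=
  (continuous_ph k).comp (f := fun t : ℝ => (l, w, t)) (by fun_prop)
theorem bm_ph (l : ℝ) (w : ℝ × ℝ) (k : Fin 3) : BM (ph l w k) :=
  BM.of_le (continuous_ph_t l w k).measurable fun t => (norm_ph l w k t).le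
theorem integral_ph (c : ℝ × ℝ → ℂ) (l : ℝ) (z : Fin 3 → ℝ) :
    ∫ w, c w * ∏ k, ph l w k (z k) = K2 c (l * (z 2 - z 0), l * (z 1 - z 2)) := by
  refine integral_congr_ae (Eventually.of_forall fun w => ?_)
  change c w * _ = c w * _
  rw [Fin.prod_univ_three]
  change c w * (ex _ * ex _ * ex _) = _
  rw [← ex_add, ← ex_add]
  congr 2
  ring
theorem ph_smul (r l : ℝ) (w : ℝ × ℝ) : ph l (r • w) = ph (r * l) w := by
  funext k t
  fin_cases k <;> exact congrArg ex (by simp only [Prod.smul_fst, Prod.smul_snd, smul_eq_mul]; ring)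
theorem kRep_ph {c : ℝ × ℝ → ℂ} (hc : Integrable c) (l : ℝ) :
    KRep (ℝ × ℝ) volume c (ph l) fun _ => Set.univ :=
  ⟨hc, fun w k => (bm_ph l w k).1, fun w k t => (norm_ph l w k t).le,
    fun k t => (continuous_ph k).comp (f := fun w : ℝ × ℝ => (l, w, t)) (by fun_prop),
    fun w k => (continuous_ph_t l w k).continuousOn⟩

variable {W W' : (Fin 3 → ℝ → ℂ) → K →L[ℂ] K} {c c' : ℝ × ℝ → ℂ}

theorem sCont_ph₂ (hW : IsPoly W) : SCont fun p : ℝ × ℝ × ℝ => W (ph p.1 p.2) :=
  hW.sCont (fun p k => (bm_ph p.1 p.2 k).1) (fun p k t => (norm_ph p.1 p.2 k t).le)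
    fun k t => (continuous_ph k).comp (f := fun p : ℝ × ℝ × ℝ => (p.1, p.2, t)) (by fun_prop)
theorem sCont_ph (hW : IsPoly W) (l : ℝ) : SCont fun w => W (ph l w) :=
  (sCont_ph₂ hW).comp (Continuous.prodMk_right l)
theorem sCont_toi (hW : IsPoly W) (hc : Integrable c) : SCont (toi W c) :=
  sCont_sInt (F := fun l w => W (ph l w)) hc (sCont_ph₂ hW)
theorem norm_toi_le (hW : IsPoly W) (hc : Integrable c) {C : ℝ} (hC : 0 ≤ C)
    (h : ∀ f, (∀ k, Measurable (f k)) → (∀ k y, ‖f k y‖ ≤ 1) → ‖W f‖ ≤ C) (l : ℝ) :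
    ‖toi W c l‖ ≤ (∫ w, ‖c w‖) * C :=
  norm_sInt_le hc (sCont_ph hW l) hC fun w =>
    h _ (fun k => (bm_ph l w k).1) fun k t => (norm_ph l w k t).le
theorem toi_add (hW : IsPoly W) (hc : Integrable c) (hc' : Integrable c') (l : ℝ) :
    toi W (fun w => c w + c' w) l = toi W c l + toi W c' l := sInt_add_left hc hc' (sCont_ph hW l)
theorem toi_smul (hW : IsPoly W) (hc : Integrable c) (z : ℂ) (l : ℝ) :
    toi W (fun w => z * c w) l = z • toi W c l := sInt_smul_left z hc (sCont_ph hW l)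
theorem toi_sub (hW : IsPoly W) (hc : Integrable c) (hc' : Integrable c') (l : ℝ) :
    toi W (fun w => c w - c' w) l = toi W c l - toi W c' l := by
  rw [eq_sub_iff_add_eq, ← toi_add (c := fun w => c w - c' w) hW (hc.sub hc') hc']
  simp only [sub_add_cancel]
theorem toi_dil (hW : IsPoly W) (hc : Integrable c) {r : ℝ} (hr : r ≠ 0) (l : ℝ) :
    toi W (dil r c) l = toi W c (r * l) := by
  refine ContinuousLinearMap.ext fun η => ?_
  rw [toi, toi, sInt_apply (integrable_dil hc hr) (sCont_ph hW l), sInt_apply hc (sCont_ph hW _),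
    integral_dil c hr fun w => W (ph l w) η]
  simp only [ph_smul]
theorem toi_neg (hW : IsPoly W) (hc : Integrable c) (he : Ev c) (l : ℝ) :
    toi W c (-l) = toi W c l := by
  rw [← neg_one_mul, ← toi_dil hW hc (by norm_num)]
  congr 1
  funext w
  simp [dil, he w]
theorem toi_mul (hW : IsPoly W) (hc : Integrable c) (S T : K →L[ℂ] K) (l : ℝ) :
    S * toi W c l * T = toi (fun f => S * W f * T) c l := by
  rw [toi, mul_sInt hc (sCont_ph hW l), sInt_mul hc ((SCont.const S).mul (sCont_ph hW l))]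
  rfl
theorem toi_sub_W (hW : IsPoly W) (hW' : IsPoly W') (hc : Integrable c) (l : ℝ) :
    toi W c l - toi W' c l = toi (fun f => W f - W' f) c l :=
  (sInt_sub hc (sCont_ph hW l) (sCont_ph hW' l)).symm
theorem toi_congr (h : ∀ f, (∀ k, BM (f k)) → W f = W' f) (l : ℝ) : toi W c l = toi W' c l := by
  simp only [toi, h _ (bm_ph l _)]
/-- only the kernel near the support matters -/
theorem toi_eq_of_near (hW : IsPoly W) (hc : Integrable c) (hc' : Integrable c') {l l' : ℝ}
    {O : Set (Fin 3 → ℝ)} (hO : IsOpen O) (hs : supp W ⊆ O)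
    (h : ∀ z ∈ O, K2 c (l * (z 2 - z 0), l * (z 1 - z 2))
      = K2 c' (l' * (z 2 - z 0), l' * (z 1 - z 2))) : toi W c l = toi W c' l' :=
  hW.wd (fun _ => isOpen_univ) (fun f _ => by simp) (kRep_ph hc l) (kRep_ph hc' l') hO
    (fun z hz _ => hs hz) fun z hz _ => by rw [integral_ph, integral_ph, h z hz]
theorem toi_eq_zero (hW : IsPoly W) (hc : Integrable c) {R l : ℝ}
    (hK : ∀ p : ℝ × ℝ, R < ‖p‖ → K2 c p = 0)
    (hs : ∀ z ∈ supp W, R < ‖((l * (z 2 - z 0), l * (z 1 - z 2)) : ℝ × ℝ)‖) : toi W c l = 0 := by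
  have := hW.wd_const (fun _ => isOpen_univ) (fun f _ => by simp) (kRep_ph hc l)
    (O := {z | R < ‖((l * (z 2 - z 0), l * (z 1 - z 2)) : ℝ × ℝ)‖})
    (isOpen_lt continuous_const (by fun_prop)) (fun z hz _ => hs z hz) 0
    fun z hz _ => by rw [integral_ph, hK _ hz]
  rwa [zero_smul] at this

/-! ### scale averages -/

/-- weak convergence of the logarithmic scale averages -/
def AvT (l : Filter ℕ) (D : ℝ → K →L[ℂ] K) (T : K →L[ℂ] K) : Prop :=
  ∀ ζ η, Tendsto (fun n => avg n fun u => ⟪ζ, D (Real.exp u) η⟫_ℂ) l (𝓝 ⟪ζ, T η⟫_ℂ)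

variable {l : Filter ℕ} {D D' : ℝ → K →L[ℂ] K} {T T' : K →L[ℂ] K}

theorem avg_add (n : ℕ) {F G : ℝ → ℂ} (hF : Continuous F) (hG : Continuous G) :
    avg n (fun u => F u + G u) = avg n F + avg n G := by
  rw [avg, avg, avg, intervalIntegral.integral_add (hF.intervalIntegrable _ _)
    (hG.intervalIntegrable _ _), mul_add]
theorem avg_const_mul (n : ℕ) (z : ℂ) (F : ℝ → ℂ) : avg n (fun u => z * F u) = z * avg n F := by
  rw [avg, avg, intervalIntegral.integral_const_mul, mul_left_comm]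
theorem avg_congr (n : ℕ) {F G : ℝ → ℂ} (h : ∀ u, (n + 1 : ℝ) ≤ u → F u = G u) :
    avg n F = avg n G := by
  have hn : (0 : ℝ) < n + 1 := by positivity
  rw [avg, avg, intervalIntegral.integral_congr fun u hu => h u ?_]
  rw [Set.uIcc_of_le (by linarith)] at hu
  exact hu.1
theorem avg_re (n : ℕ) {F : ℝ → ℂ} (hF : Continuous F) :
    avg n (fun u => ((F u).re : ℂ)) = ((avg n F).re : ℂ) := by
  have h := Complex.reCLM.intervalIntegral_comp_comm (μ := volume)
    (hF.intervalIntegrable (n + 1 : ℝ) (2 * (n + 1)))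
  simp only [Complex.reCLM_apply] at h
  rw [avg, avg, intervalIntegral.integral_ofReal, h, ← Complex.ofReal_inv, Complex.re_ofReal_mul,
    Complex.ofReal_mul]
theorem SCont.continuous_exp (hD : SCont D) (ζ η : K) :
    Continuous fun u => ⟪ζ, D (Real.exp u) η⟫_ℂ :=
  continuous_const.inner ((hD.1 η).comp Real.continuous_exp)
theorem norm_inner_apply_le {S : K →L[ℂ] K} {C : ℝ} (h : ‖S‖ ≤ C) (ζ η : K) :
    ‖⟪ζ, S η⟫_ℂ‖ ≤ ‖ζ‖ * (C * ‖η‖) :=
  (norm_inner_le_norm _ _).trans (mul_le_mul_of_nonneg_left (S.le_of_opNorm_le h η) (norm_nonneg _))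
theorem eventually_exp {p : ℝ → Prop} (h : ∀ᶠ r in atTop, p r) :
    ∀ᶠ n : ℕ in atTop, ∀ u, (n + 1 : ℝ) ≤ u → p (Real.exp u) := by
  obtain ⟨R, hR⟩ := eventually_atTop.1 (Real.tendsto_exp_atTop.eventually h)
  filter_upwards [tendsto_natCast_atTop_atTop.eventually_ge_atTop R] with n hn u hu
  exact hR u (by linarith)

theorem SCont.sub {Ω : Type} [TopologicalSpace Ω] {F F' : Ω → K →L[ℂ] K} (h : SCont F)
    (h' : SCont F') : SCont fun w => F w - F' w := by
  obtain ⟨C, hC⟩ := h.2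
  obtain ⟨C', hC'⟩ := h'.2
  exact ⟨fun η => (h.1 η).sub (h'.1 η), C + C', fun ω =>
    (norm_sub_le _ _).trans (add_le_add (hC ω) (hC' ω))⟩
theorem SCont.add {Ω : Type} [TopologicalSpace Ω] {F F' : Ω → K →L[ℂ] K} (h : SCont F)
    (h' : SCont F') : SCont fun w => F w + F' w := by
  obtain ⟨C, hC⟩ := h.2
  obtain ⟨C', hC'⟩ := h'.2
  exact ⟨fun η => (h.1 η).add (h'.1 η), C + C', fun ω =>
    (norm_add_le _ _).trans (add_le_add (hC ω) (hC' ω))⟩
theorem SCont.sum {Ω : Type} [TopologicalSpace Ω] {α : Type*} (s : Finset α)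
    {F : α → Ω → K →L[ℂ] K} (h : ∀ a ∈ s, SCont (F a)) : SCont fun w => ∑ a ∈ s, F a w := by
  classical
  induction s using Finset.induction_on with
  | empty => exact ⟨fun _ => by simpa using continuous_const, 0, fun _ => by simp⟩
  | insert a s ha ih =>
    simp only [Finset.sum_insert ha]
    exact (h a (Finset.mem_insert_self _ _)).add (ih fun b hb => h b (Finset.mem_insert_of_mem hb))
theorem exists_avT (l : Ultrafilter ℕ) (hD : SCont D) : ∃ T, AvT l D T := by
  obtain ⟨C, hC⟩ := hD.2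
  have hC0 : 0 ≤ C := (norm_nonneg _).trans (hC 0)
  have hE : SCont fun u => D (Real.exp u) :=
    ⟨fun η => (hD.1 η).comp Real.continuous_exp, C, fun u => hC _⟩
  have hi : ∀ n : ℕ, Integrable (fun _ : ℝ => ((n + 1 : ℝ) : ℂ)⁻¹)
      (volume.restrict (Set.Ioc (n + 1 : ℝ) (2 * (n + 1)))) := fun n => integrable_const _
  have e : ∀ (n : ℕ) ζ η, ⟪ζ, sInt (volume.restrict (Set.Ioc (n + 1 : ℝ) (2 * (n + 1))))
      (fun _ : ℝ => ((n + 1 : ℝ) : ℂ)⁻¹) (fun u => D (Real.exp u)) η⟫_ℂ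
      = avg n fun u => ⟪ζ, D (Real.exp u) η⟫_ℂ := fun n ζ η => by
    have hn : (0 : ℝ) < n + 1 := by positivity
    rw [inner_sInt (hi n) hE, avg, intervalIntegral.integral_of_le (by linarith),
      integral_const_mul]
  obtain ⟨T, -, hT⟩ := exists_wtends l (C := C) (T := fun n : ℕ =>
    sInt (volume.restrict (Set.Ioc (n + 1 : ℝ) (2 * (n + 1))))
      (fun _ : ℝ => ((n + 1 : ℝ) : ℂ)⁻¹) fun u => D (Real.exp u))
    (Eventually.of_forall fun n => ContinuousLinearMap.opNorm_le_bound _ hC0 fun η => by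
      set S := sInt (volume.restrict (Set.Ioc (n + 1 : ℝ) (2 * (n + 1))))
        (fun _ : ℝ => ((n + 1 : ℝ) : ℂ)⁻¹) fun u => D (Real.exp u)
      have h1 : ‖⟪S η, S η⟫_ℂ‖ ≤ ‖S η‖ * (C * ‖η‖) := by
        rw [e]
        exact norm_avg_le n fun u _ => norm_inner_apply_le (hC _) _ _
      rw [inner_self_eq_norm_sq_to_K, norm_pow, RCLike.norm_ofReal, abs_norm, sq] at h1
      rcases (norm_nonneg (S η)).eq_or_lt with h0 | h0
      · rw [← h0]; positivity
      · exact le_of_mul_le_mul_left h1 h0)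
  exact ⟨T, fun ζ η => (hT ζ η).congr fun n => e n ζ η⟩
theorem AvT.unique [l.NeBot] (h : AvT l D T) (h' : AvT l D T') : T = T' :=
  ContinuousLinearMap.ext fun η => ext_inner_left ℂ fun ζ => tendsto_nhds_unique (h ζ η) (h' ζ η)
theorem AvT.norm_le [l.NeBot] (h : AvT l D T) {C : ℝ} (hC : 0 ≤ C) (hD : ∀ r, ‖D r‖ ≤ C) :
    ‖T‖ ≤ C := by
  refine ContinuousLinearMap.opNorm_le_bound _ hC fun η => ?_
  have h1 : ‖⟪T η, T η⟫_ℂ‖ ≤ ‖T η‖ * (C * ‖η‖) :=
    le_of_tendsto' (h (T η) η).norm fun n =>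
      norm_avg_le n fun u _ => norm_inner_apply_le (hD _) _ _
  rw [inner_self_eq_norm_sq_to_K, norm_pow, RCLike.norm_ofReal, abs_norm, sq] at h1
  rcases (norm_nonneg (T η)).eq_or_lt with h0 | h0
  · rw [← h0]; positivity
  · exact le_of_mul_le_mul_left h1 h0
theorem AvT.mono {l' : Filter ℕ} (h : AvT l D T) (hl : l' ≤ l) : AvT l' D T :=
  fun ζ η => (h ζ η).mono_left hl
theorem AvT.mul (h : AvT l D T) (S S' : K →L[ℂ] K) : AvT l (fun r => S * D r * S') (S * T * S') :=
  fun ζ η => by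
    simpa only [mul_apply_eq_comp, ← ContinuousLinearMap.adjoint_inner_left]
      using h (ContinuousLinearMap.adjoint S ζ) (S' η)
theorem AvT.add (h : AvT l D T) (h' : AvT l D' T') (hD : SCont D) (hD' : SCont D') :
    AvT l (fun r => D r + D' r) (T + T') := fun ζ η => by
  simp only [_root_.add_apply, inner_add_right,
    avg_add _ (hD.continuous_exp ζ η) (hD'.continuous_exp ζ η)]
  exact (h ζ η).add (h' ζ η)
theorem AvT.sub (h : AvT l D T) (h' : AvT l D' T') (hD : SCont D) (hD' : SCont D') :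
    AvT l (fun r => D r - D' r) (T - T') := fun ζ η => by
  simp only [_root_.sub_apply, inner_sub_right,
    avg_sub _ (hD.continuous_exp ζ η) (hD'.continuous_exp ζ η)]
  exact (h ζ η).sub (h' ζ η)
theorem AvT.smul (h : AvT l D T) (z : ℂ) : AvT l (fun r => z • D r) (z • T) := fun ζ η => by
  simp only [_root_.smul_apply, inner_smul_right, avg_const_mul]
  exact (h ζ η).const_mul z
theorem avT_const (l : Filter ℕ) (T : K →L[ℂ] K) : AvT l (fun _ => T) T := fun ζ η => by
  simp only [avg_const]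
  exact tendsto_const_nhds
theorem AvT.sum {α : Type*} (s : Finset α) {D : α → ℝ → K →L[ℂ] K} {T : α → K →L[ℂ] K}
    (h : ∀ a ∈ s, AvT l (D a) (T a)) (hD : ∀ a ∈ s, SCont (D a)) :
    AvT l (fun r => ∑ a ∈ s, D a r) (∑ a ∈ s, T a) := by
  classical
  induction s using Finset.induction_on with
  | empty => simpa using avT_const l (0 : K →L[ℂ] K)
  | insert a s ha ih =>
    simp only [Finset.sum_insert ha]
    exact (h a (Finset.mem_insert_self _ _)).add
      (ih (fun b hb => h b (Finset.mem_insert_of_mem hb))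
        fun b hb => hD b (Finset.mem_insert_of_mem hb)) (hD a (Finset.mem_insert_self _ _))
      (SCont.sum s fun b hb => hD b (Finset.mem_insert_of_mem hb))
theorem AvT.congr (h : AvT l D T) (hl : l ≤ atTop) (e : ∀ᶠ r in atTop, D r = D' r) : AvT l D' T :=
  fun ζ η => (h ζ η).congr' ((eventually_exp e).filter_mono hl |>.mono fun n hn =>
    avg_congr n fun u hu => by rw [hn u hu])
theorem avT_shift (hD : SCont D) {r : ℝ} (hr : 0 < r) :
    AvT atTop (fun s => D (r * s) - D s) 0 := fun ζ η => by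
  obtain ⟨C, hC⟩ := hD.2
  have h := tendsto_avg_shift (hD.continuous_exp ζ η)
    (fun u => norm_inner_apply_le (hC _) ζ η) (Real.log r)
  rw [_root_.zero_apply, inner_zero_right]
  refine h.congr fun n => ?_
  rw [← avg_sub n (F := fun u => ⟪ζ, D (Real.exp (u + Real.log r)) η⟫_ℂ)
    ((hD.continuous_exp ζ η).comp (continuous_add_const _)) (hD.continuous_exp ζ η)]
  simp only [_root_.sub_apply, inner_sub_right, Real.exp_add,
    Real.exp_log hr, mul_comm r]
theorem avT_of_tendsto (hD : SCont D) (h : ∀ η, Tendsto (fun r => D r η) atTop (𝓝 (T η))) :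
    AvT atTop D T := fun ζ η => tendsto_avg_of_tendsto (hD.continuous_exp ζ η)
  (tendsto_const_nhds.inner ((h η).comp Real.tendsto_exp_atTop))
theorem avT_of_ultra (h : ∀ l : Ultrafilter ℕ, (l : Filter ℕ) ≤ atTop → AvT l D T) :
    AvT atTop D T := fun ζ η => (tendsto_iff_ultrafilter _ _ _).2 fun l hl => h l hl ζ η
theorem tendsto_zero_of_approx {α : Type*} {l : Filter α} {a : α → ℂ}
    (h : ∀ ε > (0 : ℝ), ∃ b : α → ℂ, Tendsto b l (𝓝 0) ∧ ∀ᶠ n in l, ‖a n - b n‖ ≤ ε) :
    Tendsto a l (𝓝 0) := by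
  refine Metric.tendsto_nhds.2 fun ε hε => ?_
  obtain ⟨b, hb, hab⟩ := h (ε / 2) (half_pos hε)
  filter_upwards [hab, Metric.tendsto_nhds.1 hb _ (half_pos hε)] with n h1 h2
  rw [dist_zero_right] at h2 ⊢
  linarith [norm_le_norm_add_norm_sub' (a n) (b n), norm_sub_rev (a n) (b n)]
/-- approximation in norm -/
theorem avT_of_approx (hl : l ≤ atTop) (hD : SCont D) (h : ∀ ε > 0, ∃ D', SCont D' ∧ AvT l D' 0 ∧
    ∀ᶠ r in atTop, ‖D r - D' r‖ ≤ ε) : AvT l D 0 := fun ζ η => by
  rw [_root_.zero_apply, inner_zero_right]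
  refine tendsto_zero_of_approx fun ε hε => ?_
  obtain ⟨D', hD', h0, h1⟩ := h (ε / (‖ζ‖ * ‖η‖ + 1)) (by positivity)
  refine ⟨_, by simpa using h0 ζ η, ((eventually_exp h1).filter_mono hl).mono fun n hn => ?_⟩
  rw [← avg_sub n (hD.continuous_exp ζ η) (hD'.continuous_exp ζ η)]
  refine norm_avg_le n fun u hu => ?_
  rw [← inner_sub_right, ← _root_.sub_apply]
  refine (norm_inner_apply_le (hn u hu) ζ η).trans ?_
  rw [mul_left_comm, div_mul_eq_mul_div, div_le_iff₀ (by positivity)]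
  nlinarith
/-- strong approximation of a right factor -/
theorem avT_of_strong (hD : SCont D) {E : ℕ → K →L[ℂ] K} {E₀ : K →L[ℂ] K}
    (hE : ∀ η, Tendsto (fun n => E n η) atTop (𝓝 (E₀ η))) (h : ∀ n, AvT l (fun r => D r * E n) 0) :
    AvT l (fun r => D r * E₀) 0 := fun ζ η => by
  obtain ⟨C, hC⟩ := hD.2
  rw [_root_.zero_apply, inner_zero_right]
  refine tendsto_zero_of_approx fun ε hε => ?_
  have h1 : Tendsto (fun n => ‖ζ‖ * (C * ‖E₀ η - E n η‖)) atTop (𝓝 0) := by
    simpa using (((tendsto_const_nhds (x := E₀ η)).sub (hE η)).norm.const_mul C).const_mul ‖ζ‖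
  obtain ⟨m, hm⟩ := (h1.eventually (ge_mem_nhds hε)).exists
  refine ⟨_, by simpa using h m ζ η, Eventually.of_forall fun n => ?_⟩
  simp only [mul_apply_eq_comp]
  rw [← avg_sub n (hD.continuous_exp ζ _) (hD.continuous_exp ζ _)]
  refine norm_avg_le n fun u hu => ?_
  rw [← inner_sub_right, ← map_sub]
  exact (norm_inner_apply_le (hC _) ζ _).trans hm
/-- reduction to smooth compactly supported kernels -/
theorem avT_toi_of_smooth (hW : IsPoly W) (hW' : IsPoly W') (hl : l ≤ atTop)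
    (h : ∀ c, Integrable c → Ev c → ContDiff ℝ (⊤ : ℕ∞) (K2 c) → HasCompactSupport (K2 c) →
      AvT l (fun r => toi W c r - toi W' c r) 0) (hc : Integrable c) (he : Ev c) :
    AvT l (fun r => toi W c r - toi W' c r) 0 := by
  obtain ⟨C, hC⟩ := (hW.sub hW').bdd
  refine avT_of_approx hl ((sCont_toi hW hc).sub (sCont_toi hW' hc)) fun ε hε => ?_
  obtain ⟨c', h1, h2, h3, h4, h5⟩ := exists_smooth_near hc he (ε := ε / (|C| + 1)) (by positivity)
  refine ⟨_, (sCont_toi hW h1).sub (sCont_toi hW' h1), h c' h1 h2 h3 h4,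
    Eventually.of_forall fun r => ?_⟩
  rw [toi_sub_W hW hW' hc, toi_sub_W hW hW' h1, ← toi_sub (hW.sub hW') hc h1]
  refine (norm_toi_le (hW.sub hW') (hc.sub h1) (abs_nonneg C)
    (fun f hf hb => (hC f hf hb).trans (le_abs_self C)) r).trans ?_
  refine (mul_le_mul_of_nonneg_right h5 (abs_nonneg C)).trans ?_
  rw [div_mul_eq_mul_div, div_le_iff₀ (by positivity)]
  nlinarith
theorem AvT.commute [l.NeBot] (h : AvT l D T) {S : K →L[ℂ] K} (hS : ∀ r, Commute S (D r)) :
    Commute S T := by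
  have h1 := h.mul S 1
  have h2 := h.mul 1 S
  simp only [mul_one, one_mul, (hS _).eq] at h1 h2
  exact h1.unique h2
theorem AvT.frequently_lt (h : AvT atTop D 0) (hD : SCont D) (η : K)
    (h0 : ∀ r, 0 < r → 0 ≤ (⟪η, D r η⟫_ℂ).re) {ε : ℝ} (hε : 0 < ε) :
    ∃ᶠ u in atTop, (⟪η, D (Real.exp u) η⟫_ℂ).re < ε := by
  refine frequently_lt_of_avg (Complex.continuous_re.comp (hD.continuous_exp η η))
    (fun u => h0 _ (Real.exp_pos u)) ?_ hε
  simp only [Function.comp_apply, avg_re _ (hD.continuous_exp η η)]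
  simpa [Function.comp_def] using (Complex.continuous_ofReal.tendsto _).comp
    ((Complex.continuous_re.tendsto _).comp (h η η))

end Crest.Agent.N111
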