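import Crest.Agent.N111.F.Ker
import Crest.Agent.N111.F.Toi

/-! # Row 111: affine changes of chart, junk removal, the positive kernels (fill the proofs IN PLACE). -/

set_option autoImplicit false
set_option linter.unusedSectionVars false
set_option linter.unusedVariables false

namespace Crest.Agent.N111

open MeasureTheory Topology Filter Matrix
open scoped InnerProductSpace

variable {K : Type} [NormedAddCommGroup K] [InnerProductSpace ℂ K] [CompleteSpace K]

namespace Af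

variable {Y Z : Type} [MeasurableSpace Y] [MeasurableSpace Z]

theorem word3 (Q : Fin 3 → POVM Y K) (g : Fin 3 → Y → ℂ) :
    word Q g = (Q 0).E (g 0) * (Q 1).E (g 1) * (Q 2).E (g 2) := by
  simp [word, List.ofFn_succ, mul_assoc]

theorem ph_mul (l a : ℝ) (w : ℝ × ℝ) (k : Fin 3) (t : ℝ) :
    ph l w k (a * t) = ph (a * l) w k t := by
  fin_cases k <;> simp only [ph, Fin.zero_eta, Fin.mk_one, Fin.reduceFinMk, cons_val_zero,
    cons_val_one, cons_val] <;> congr 1 <;> ring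

theorem ph_add (l : ℝ) (w : ℝ × ℝ) (k : Fin 3) (s t : ℝ) :
    ph l w k (s + t) = ph l w k s * ph l w k t := by
  fin_cases k <;> simp only [ph, Fin.zero_eta, Fin.mk_one, Fin.reduceFinMk, cons_val_zero,
    cons_val_one, cons_val, ← ex_add] <;> congr 1 <;> ring

theorem ph_prod (l : ℝ) (w : ℝ × ℝ) (s : ℝ) : ph l w 0 s * ph l w 1 s * ph l w 2 s = 1 := by
  simp only [ph, cons_val_zero, cons_val_one, cons_val, ← ex_add]
  rw [← ex_zero]
  congr 1
  ring

variable {c : ℝ × ℝ → ℂ} {W W' : (Fin 3 → ℝ → ℂ) → K →L[ℂ] K}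

theorem toi_ext (hW : IsPoly W) (hW' : IsPoly W') (hc : Integrable c) {l l' : ℝ} {T : K →L[ℂ] K}
    (h : ∀ w, W (ph l w) * T = W' (ph l' w) * T) : toi W c l * T = toi W' c l' * T := by
  rw [toi, toi, sInt_mul hc (sCont_ph hW l), sInt_mul hc (sCont_ph hW' l'), funext h]

/-- uniform continuity in the logarithm of the scale -/
theorem modulus (hW : IsPoly W) (hc : Integrable c) {ε : ℝ} (hε : 0 < ε) :
    ∃ δ > (0 : ℝ), ∀ a a' l : ℝ, |a - a'| < δ * |a'| →
      ‖toi W c (a * l) - toi W c (a' * l)‖ ≤ ε := by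
  obtain ⟨C, hC⟩ := hW.bdd
  have hC' : 0 < max C 1 := lt_max_of_lt_right one_pos
  obtain ⟨δ, hδ, h⟩ := Metric.eventually_nhds_iff.1 (((tendsto_dil hc one_ne_zero).eventually
    (gt_mem_nhds (div_pos hε hC'))).and (eventually_ne_nhds one_ne_zero))
  refine ⟨δ, hδ, fun a a' l ha => ?_⟩
  have h0 : a' ≠ 0 := fun h0 => by
    rw [h0, abs_zero, mul_zero] at ha
    exact (abs_nonneg _).not_gt ha
  obtain ⟨h1, h2⟩ := h (y := a / a') (by
    rw [Real.dist_eq, div_sub_one h0, abs_div, div_lt_iff₀ (abs_pos.2 h0)]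
    exact ha)
  have e : a * l = a / a' * (a' * l) := by field_simp
  rw [e, ← toi_dil hW hc h2, ← one_mul (a' * l), ← toi_dil hW hc one_ne_zero, one_mul,
    ← toi_sub hW (integrable_dil hc h2) (integrable_dil hc one_ne_zero)]
  refine (norm_toi_le hW ((integrable_dil hc h2).sub (integrable_dil hc one_ne_zero)) hC'.le
    (fun f hm hf => (hC f hm hf).trans (le_max_left _ _)) _).trans ?_
  exact ((lt_div_iff₀ hC').1 h1).le

theorem part (Ψ : POVM Z K) {α : Type} {φ : Z → α} (hφ : ∀ a, MeasurableSet (φ ⁻¹' {a}))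
    {s : Finset α} (hs : ∀ b, φ b ∈ s) : ∑ a ∈ s, Ψ.E (ic (φ ⁻¹' {a})) = 1 := by
  classical
  rw [← Ψ.E_sum s fun a _ => BM.ic (hφ a), ← Ψ.E_one]
  congr 1
  funext b
  simp [ic_apply, hs b]

/-- block diagonal operators -/
theorem blk {Ψ : POVM Z K} (hΨ : Ψ.IsPVM) {α : Type} {φ : Z → α}
    (hφ : ∀ a, MeasurableSet (φ ⁻¹' {a})) {s : Finset α} (hs : ∀ b, φ b ∈ s) {X : K →L[ℂ] K}
    (hX : ∀ h, BM h → Commute (Ψ.E h) X) {ε : ℝ} (hε : 0 ≤ ε)
    (h : ∀ a ∈ s, ‖X * Ψ.E (ic (φ ⁻¹' {a}))‖ ≤ ε) : ‖X‖ ≤ ε := by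
  classical
  have hb : ∀ a ∈ s, BM (ic (φ ⁻¹' {a})) := fun a _ => BM.ic (hφ a)
  have h1 : ∀ y, ∑ a ∈ s, ‖ic (φ ⁻¹' {a}) y‖ ^ 2 ≤ 1 := fun y => by
    simp [ic_apply, apply_ite, hs y]
  refine ContinuousLinearMap.opNorm_le_bound _ hε fun η => ?_
  have e : X η = ∑ a ∈ s, Ψ.E (ic (φ ⁻¹' {a})) ((X * Ψ.E (ic (φ ⁻¹' {a})))
      (Ψ.E (ic (φ ⁻¹' {a})) η)) := by
    conv_lhs => rw [← mul_one X, ← part Ψ hφ hs, Finset.mul_sum, _root_.sum_apply]
    refine Finset.sum_congr rfl fun a ha => ?_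
    rw [← mul_apply_eq_comp, ← mul_apply_eq_comp, ← mul_assoc, (hX _ (hb a ha)).eq, mul_assoc X,
      hΨ.ic_idem (hφ a), mul_assoc, hΨ.ic_idem (hφ a)]
  refine abs_le_of_sq_le_sq' ?_ (by positivity) |>.2
  rw [e]
  refine (Ψ.norm_sum_E_sq_le s hb zero_le_one h1 _).trans ?_
  rw [one_mul, mul_pow]
  refine le_trans (Finset.sum_le_sum fun a ha => pow_le_pow_left₀ (norm_nonneg _)
    ((ContinuousLinearMap.le_opNorm _ _).trans
      (mul_le_mul_of_nonneg_right (h a ha) (norm_nonneg _))) 2) ?_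
  simp only [mul_pow, ← Finset.mul_sum]
  exact mul_le_mul_of_nonneg_left ((Ψ.sum_norm_E_sq_le s hb h1 η).trans_eq (one_mul _))
    (sq_nonneg _)

/-- three PVMs fibred over a common one -/
structure Fib (Q : Fin 3 → POVM (Y × Z) K) (Ψ : POVM Z K) : Prop where
  pvm : ∀ i, (Q i).IsPVM
  eq : ∀ i h, BM h → (Q i).E (fun z => h z.2) = Ψ.E h

variable {Q : Fin 3 → POVM (Y × Z) K} {Ψ : POVM Z K}

theorem Fib.pvm' (H : Fib Q Ψ) : Ψ.IsPVM := fun f g hf hg => by
  rw [← H.eq 0 _ (hf.mul hg), H.pvm 0 _ _ (hf.comp measurable_snd) (hg.comp measurable_snd),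
    H.eq 0 f hf, H.eq 0 g hg]

theorem Fib.comm (H : Fib Q Ψ) {h : Z → ℂ} (hh : BM h) {g : Fin 3 → Y × Z → ℂ}
    (hg : ∀ k, BM (g k)) : Commute (Ψ.E h) (word Q g) := by
  have : ∀ k, Commute (Ψ.E h) ((Q k).E (g k)) := fun k =>
    H.eq k h hh ▸ (H.pvm k).commute (hh.comp measurable_snd) (hg k)
  rw [word3]
  exact ((this 0).mul_right (this 1)).mul_right (this 2)

theorem Fib.word_mul (H : Fib Q Ψ) {h : Fin 3 → Z → ℂ} (hh : ∀ k, BM (h k))
    {g : Fin 3 → Y × Z → ℂ} (hg : ∀ k, BM (g k)) :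
    word Q (fun k z => g k z * h k z.2) = word Q g * Ψ.E fun b => h 0 b * h 1 b * h 2 b := by
  have e : ∀ k, (Q k).E (fun z => g k z * h k z.2) = (Q k).E (g k) * Ψ.E (h k) := fun k => by
    rw [H.pvm k _ _ (hg k) ((hh k).comp measurable_snd), H.eq k _ (hh k)]
  have m : ∀ i k, Commute (Ψ.E (h i)) ((Q k).E (g k)) := fun i k =>
    H.eq k _ (hh i) ▸ (H.pvm k).commute ((hh i).comp measurable_snd) (hg k)
  rw [word3, word3, e, e, e, H.pvm' _ _ ((hh 0).mul (hh 1)) (hh 2), H.pvm' _ _ (hh 0) (hh 1)]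
  simp only [mul_assoc]
  rw [(m 1 2).left_comm, (m 0 1).left_comm, (m 0 2).left_comm]

theorem ic3 (A : Set Z) : (fun b => ic A b * ic A b * ic A b) = ic A := by
  funext b
  by_cases h : b ∈ A <;> simp [h]

theorem Fib.cut (H : Fib Q Ψ) {A : Set Z} (hA : MeasurableSet A) {g g' : Fin 3 → Y × Z → ℂ}
    (hg : ∀ k, BM (g k)) (hg' : ∀ k, BM (g' k)) (e : ∀ k z, z.2 ∈ A → g k z = g' k z) :
    word Q g * Ψ.E (ic A) = word Q g' * Ψ.E (ic A) := by
  rw [← ic3 A, ← H.word_mul (h := fun _ => ic A) (fun _ => BM.ic hA) hg,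
    ← H.word_mul (h := fun _ => ic A) (fun _ => BM.ic hA) hg']
  congr 1
  funext k z
  by_cases h : z.2 ∈ A
  · rw [e k z h]
  · simp [h]

/-- the word with a fibrewise dilation -/
noncomputable def Wd (Q : Fin 3 → POVM (Y × Z) K) (u : Fin 3 → Y → ℂ) (t : Y → ℝ) (ρ : Z → ℝ)
    (f : Fin 3 → ℝ → ℂ) : K →L[ℂ] K := word Q fun k z => u k z.1 * f k (ρ z.2 * t z.1)

variable {u : Fin 3 → Y → ℂ} {t : Y → ℝ} {ρ ρ' : Z → ℝ}

theorem meas (ht : Measurable t) (hρ : Measurable ρ) : Measurable fun z : Y × Z => ρ z.2 * t z.1 :=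
  (hρ.comp measurable_snd).mul (ht.comp measurable_fst)

theorem bm (hu : ∀ i, BM (u i)) (ht : Measurable t) (hρ : Measurable ρ) (l : ℝ) (w : ℝ × ℝ)
    (k : Fin 3) : BM fun z : Y × Z => u k z.1 * ph l w k (ρ z.2 * t z.1) :=
  ((hu k).comp measurable_fst).mul ((bm_ph l w k).comp (meas ht hρ))

theorem isPoly_Wd (hu : ∀ i, BM (u i)) (ht : Measurable t) (hρ : Measurable ρ) :
    IsPoly (Wd Q u t ρ) :=
  (isPoly_word Q).comp (fun _ => meas ht hρ) fun k => (hu k).comp measurable_fst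

theorem Fib.toi_cut (H : Fib Q Ψ) (hu : ∀ i, BM (u i)) (ht : Measurable t) (hρ : Measurable ρ)
    (hρ' : Measurable ρ') (hc : Integrable c) {A : Set Z} (hA : MeasurableSet A) {a : ℝ}
    (e : ∀ b ∈ A, ρ b = a * ρ' b) (l : ℝ) :
    toi (Wd Q u t ρ) c l * Ψ.E (ic A) = toi (Wd Q u t ρ') c (a * l) * Ψ.E (ic A) :=
  toi_ext (isPoly_Wd hu ht hρ) (isPoly_Wd hu ht hρ') hc fun w =>
    H.cut hA (bm hu ht hρ _ w) (bm hu ht hρ' _ w) fun k z hz => by
      rw [e _ hz, mul_assoc, ph_mul]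

theorem Fib.comm_toi (H : Fib Q Ψ) (hu : ∀ i, BM (u i)) (ht : Measurable t) (hρ : Measurable ρ)
    (hc : Integrable c) (l : ℝ) {h : Z → ℂ} (hh : BM h) :
    Commute (Ψ.E h) (toi (Wd Q u t ρ) c l) :=
  commute_sInt hc (sCont_ph (isPoly_Wd hu ht hρ) l) fun w => H.comm hh (bm hu ht hρ l w)

theorem tendsto_toi (hu : ∀ i, BM (u i)) (ht : Measurable t) (hρ : Measurable ρ)
    (hc : Integrable c) {σ : ℕ → Z → ℝ} (hσ : ∀ n, Measurable (σ n))
    (h : ∀ b, Tendsto (fun n => σ n b) atTop (𝓝 (ρ b))) (l : ℝ) (η : K) :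
    Tendsto (fun n => toi (Wd Q u t (σ n)) c l η) atTop (𝓝 (toi (Wd Q u t ρ) c l η)) := by
  obtain ⟨B, hB0, hB⟩ := exists_bound_pi hu
  obtain ⟨C, hC0, hC⟩ := (isPoly_word Q).norm_le
  have hb : ∀ w k a s, ‖u k a * ph l w k s‖ ≤ B := fun w k a s => by
    rw [norm_mul, norm_ph, mul_one]
    exact hB k a
  simp only [toi, sInt_apply hc (sCont_ph (isPoly_Wd hu ht hρ) l),
    fun n => sInt_apply hc (sCont_ph (isPoly_Wd (Q := Q) hu ht (hσ n)) l)]
  refine tendsto_integral_of_dominated_convergence (fun w => ‖c w‖ * (C * (∏ _k : Fin 3, B) * ‖η‖))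
    (fun n => ((sCont_ph (isPoly_Wd hu ht (hσ n)) l).integrable hc η).1) (hc.norm.mul_const _)
    (fun n => Eventually.of_forall fun w => ?_) (Eventually.of_forall fun w => ?_)
  · rw [norm_smul]
    exact mul_le_mul_of_nonneg_left ((ContinuousLinearMap.le_opNorm _ _).trans
      (mul_le_mul_of_nonneg_right (hC _ _ (fun k => (bm hu ht (hσ n) l w k).meas) (fun _ => hB0)
        fun k z => hb w k _ _) (norm_nonneg _))) (norm_nonneg _)
  · refine Tendsto.const_smul ((isPoly_word Q).lim _ _ B (fun n k => (bm hu ht (hσ n) l w k).meas)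
      (fun n k z => hb w k _ _) (fun k z => Tendsto.const_mul _ ?_) η) _
    have : Continuous (ph l w k) :=
      (continuous_ph k).comp (by fun_prop : Continuous fun s : ℝ => (l, w, s))
    exact (this.tendsto _).comp ((h z.2).mul_const _)

/-- the core: dilation factors bounded above and below -/
theorem Fib.core (H : Fib Q Ψ) (hu : ∀ i, BM (u i)) (ht : Measurable t) (hρ : Measurable ρ)
    (hc : Integrable c) (he : Ev c) {m M : ℝ} (hm : 0 < m) (hL : ∀ b, |ρ b| ∈ Set.Icc m M) :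
    AvT atTop (fun l => toi (Wd Q u t ρ) c l - toi (Wd Q u t fun _ => 1) c l) 0 := by
  have h1 : Measurable fun _ : Z => (1 : ℝ) := measurable_const
  have p1 := isPoly_Wd (Q := Q) hu ht h1
  have s1 := sCont_toi p1 hc
  have hLc : IsCompact {x : ℝ | |x| ∈ Set.Icc m M} :=
    (isCompact_closedBall (0 : ℝ) M).of_isClosed_subset (isClosed_Icc.preimage continuous_abs)
      fun x hx => by simpa using hx.2
  refine avT_of_approx le_rfl ((sCont_toi (isPoly_Wd hu ht hρ) hc).sub s1) fun ε hε => ?_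
  obtain ⟨δ, hδ, hmod⟩ := modulus p1 hc hε
  obtain ⟨s, q, hq, hs, hqs⟩ := exists_quant hLc (δ := δ * m / 2) (by positivity)
  have hqρ : Measurable fun b => q (ρ b) := hq.comp hρ
  have hfib : ∀ a, MeasurableSet ((fun b => q (ρ b)) ⁻¹' {a}) := fun a =>
    hqρ (measurableSet_singleton a)
  refine ⟨fun l => toi (Wd Q u t fun b => q (ρ b)) c l - toi (Wd Q u t fun _ => 1) c l,
    (sCont_toi (isPoly_Wd hu ht hqρ) hc).sub s1, ?_, Eventually.of_forall fun l => ?_⟩
  · have ha : ∀ a ∈ s, 0 < |a| := fun a ha => hm.trans_le (hs ha).1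
    have := AvT.sum s (fun a h => (avT_shift s1 (ha a h)).mul 1
      (Ψ.E (ic ((fun b => q (ρ b)) ⁻¹' {a})))) fun a h => ((SCont.const 1).mul
        (SCont.sub ⟨fun η => (s1.1 η).comp (continuous_const_mul |a|),
          s1.2.imp fun C hC r => hC _⟩ s1)).mul (SCont.const _)
    simp only [mul_zero, zero_mul, Finset.sum_const_zero, one_mul] at this
    refine this.congr le_rfl (Eventually.of_forall fun l => ?_)
    conv_rhs => rw [← mul_one (_ - _), ← part Ψ hfib fun b => (hqs _ (hL b)).1, Finset.mul_sum]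
    refine Finset.sum_congr rfl fun a _ => ?_
    rw [sub_mul, sub_mul, H.toi_cut hu ht hqρ h1 hc (hfib a) (a := a) fun b hb => by
      rw [mul_one]; exact hb]
    rcases abs_choice a with e | e <;> rw [e]
    rw [neg_mul, toi_neg p1 hc he]
  · rw [sub_sub_sub_cancel_right]
    choose s' q' hq' hs' hqs' using fun n : ℕ => exists_quant hLc (δ := 1 / ((n : ℝ) + 1))
      Nat.one_div_pos_of_nat
    have hσ : ∀ n, Measurable fun b => q' n (ρ b) := fun n => (hq' n).comp hρ
    refine ContinuousLinearMap.opNorm_le_bound _ hε.le fun η => ?_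
    have lim := ((tendsto_toi (Q := Q) hu ht hρ hc hσ (fun b => tendsto_iff_dist_tendsto_zero.2
      (squeeze_zero (fun _ => dist_nonneg) (fun n => (hqs' n _ (hL b)).2.le)
        tendsto_one_div_add_atTop_nhds_zero_nat)) l η).sub_const
        (toi (Wd Q u t fun b => q (ρ b)) c l η)).norm
    refine le_of_tendsto lim (((tendsto_one_div_add_atTop_nhds_zero_nat (𝕜 := ℝ)).eventually
      (gt_mem_nhds (show 0 < δ * m / 2 by positivity))).mono fun n hn => ?_)
    rw [← _root_.sub_apply]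
    refine (ContinuousLinearMap.le_opNorm _ _).trans (mul_le_mul_of_nonneg_right ?_ (norm_nonneg _))
    have hf2 : ∀ a : ℝ × ℝ, MeasurableSet ((fun b => (q' n (ρ b), q (ρ b))) ⁻¹' {a}) := fun a =>
      ((hσ n).prodMk hqρ) (measurableSet_singleton a)
    refine blk H.pvm' hf2 (s := s' n ×ˢ s)
      (fun b => Finset.mem_product.2 ⟨(hqs' n _ (hL b)).1, (hqs _ (hL b)).1⟩)
      (fun h hh => (H.comm_toi hu ht (hσ n) hc l hh).sub_right (H.comm_toi hu ht hqρ hc l hh))
      hε.le fun a ha => ?_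
    rcases Set.eq_empty_or_nonempty ((fun b => (q' n (ρ b), q (ρ b))) ⁻¹' {a}) with e | ⟨b, hb⟩
    · rw [e, ic_empty, Ψ.E_zero, mul_zero, norm_zero]
      exact hε.le
    rw [sub_mul, H.toi_cut hu ht (hσ n) h1 hc (hf2 a) (a := a.1) fun b hb => by
        rw [mul_one]; exact congrArg Prod.fst hb,
      H.toi_cut hu ht hqρ h1 hc (hf2 a) (a := a.2) fun b hb => by
        rw [mul_one]; exact congrArg Prod.snd hb, ← sub_mul]
    refine (norm_mul_le _ _).trans ((mul_le_mul (hmod _ _ l ?_) (Ψ.norm_E_le (BM.ic (hf2 a)).meas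
      zero_le_one (norm_ic_le _)) (norm_nonneg _) hε.le).trans_eq (mul_one _))
    have e1 := (hqs' n _ (hL b)).2
    have e2 := (hqs _ (hL b)).2
    have e3 := mul_le_mul_of_nonneg_left (hs (Finset.mem_product.1 ha).2).1 hδ.le
    rw [show q' n (ρ b) = a.1 from congrArg Prod.fst hb] at e1
    rw [show q (ρ b) = a.2 from congrArg Prod.snd hb] at e2
    have e4 := dist_triangle_right a.1 a.2 (ρ b)
    rw [← Real.dist_eq]
    linarith

end Af

open Af in
/-- **AFF** -/
theorem toi_aff {Y Z : Type} [MeasurableSpace Y] [MeasurableSpace Z] {Q : Fin 3 → POVM (Y × Z) K}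
    {Ψ : POVM Z K} (hQ : ∀ i, (Q i).IsPVM)
    (hΨ : ∀ i h, BM h → (Q i).E (fun z => h z.2) = Ψ.E h) {t t' : Y → ℝ} (ht : Measurable t)
    (ht' : Measurable t') {p r : Z → ℝ} (hp : Measurable p) (hr : Measurable r)
    {u : Fin 3 → Y → ℂ} (hu : ∀ i, BM (u i)) {S : Set Z} (hS : MeasurableSet S)
    (hr0 : ∀ b ∈ S, r b ≠ 0)
    (hrel : ∀ i, (Q i).E (ic {z | z.2 ∈ S ∧ u i z.1 ≠ 0 ∧ t' z.1 ≠ p z.2 + r z.2 * t z.1}) = 0)
    {c : ℝ × ℝ → ℂ} (hc : Integrable c) (he : Ev c) :
    AvT atTop (fun l => (toi (fun f => word Q fun k z => u k z.1 * f k (t' z.1)) c l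
      - toi (fun f => word Q fun k z => u k z.1 * f k (t z.1)) c l) * Ψ.E (ic S)) 0 := by
  classical
  have H : Fib Q Ψ := ⟨hQ, hΨ⟩
  have h1 : Measurable fun _ : Z => (1 : ℝ) := measurable_const
  have e0 : ∀ t : Y → ℝ, (fun f : Fin 3 → ℝ → ℂ => word Q fun k z => u k z.1 * f k (t z.1)) =
      Wd Q u t fun _ => 1 := fun t => by
    funext f
    simp only [Wd, one_mul]
  have bS := BM.ic hS
  have e1 : ∀ l, toi (Wd Q u t' fun _ => 1) c l * Ψ.E (ic S) =
      toi (Wd Q u t r) c l * Ψ.E (ic S) := fun l =>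
    toi_ext (isPoly_Wd hu ht' h1) (isPoly_Wd hu ht hr) hc fun w => by
      have b1 : ∀ k, BM fun b => ic S b * ph l w k (p b) := fun k => bS.mul ((bm_ph l w k).comp hp)
      have a1 := H.word_mul b1 (bm hu ht hr l w)
      have a2 := H.word_mul (h := fun _ => ic S) (fun _ => bS) (bm hu ht' h1 l w)
      have a3 : (fun b => ic S b * ph l w 0 (p b) * (ic S b * ph l w 1 (p b)) *
          (ic S b * ph l w 2 (p b))) = ic S := by
        funext b
        by_cases hb : b ∈ S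
        · simp only [ic_of_mem hb, one_mul, ph_prod]
        · simp [hb]
      rw [ic3] at a2
      rw [a3] at a1
      rw [Wd, Wd, ← a1, ← a2, word, word]
      congr 2
      funext k
      refine (Q k).E_congr_of_null ((measurable_snd hS).inter (((measurableSet_eq_fun
        ((hu k).meas.comp measurable_fst) measurable_const).compl).inter (measurableSet_eq_fun
        (ht'.comp measurable_fst) ((hp.comp measurable_snd).add (meas ht hr))).compl)) (hrel k)
        ((bm hu ht' h1 l w k).mul (bS.comp measurable_snd))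
        ((bm hu ht hr l w k).mul ((b1 k).comp measurable_snd)) fun z hz => ?_
      by_cases hb : z.2 ∈ S
      · by_cases h0 : u k z.1 = 0
        · simp [h0]
        · have : t' z.1 = p z.2 + r z.2 * t z.1 := by
            by_contra h
            exact hz ⟨hb, h0, h⟩
          rw [one_mul, this, ph_add]
          ring
      · simp [hb]
  simp only [e0, sub_mul, e1]
  simp only [← sub_mul]
  let A : ℕ → Set Z := fun n => S ∩ {b | |r b| ∈ Set.Icc (1 / ((n : ℝ) + 1)) (n + 1)}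
  have hA : ∀ n, MeasurableSet (A n) := fun n => hS.inter (hr.abs measurableSet_Icc)
  refine avT_of_strong (E := fun n => Ψ.E (ic (A n)))
    ((sCont_toi (isPoly_Wd hu ht hr) hc).sub (sCont_toi (isPoly_Wd hu ht h1) hc))
    (Ψ.tendsto_E (fun n => (BM.ic (hA n)).meas) (fun n => norm_ic_le _) fun b => ?_) fun n => ?_
  · by_cases hb : b ∈ S
    · rw [ic_of_mem hb]
      refine tendsto_const_nhds.congr' ?_
      filter_upwards [(tendsto_one_div_add_atTop_nhds_zero_nat (𝕜 := ℝ)).eventually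
        (ge_mem_nhds (abs_pos.2 (hr0 b hb))), tendsto_natCast_atTop_atTop.eventually_ge_atTop |r b|]
        with n h2 h3
      exact (ic_of_mem (show b ∈ A n from ⟨hb, h2, by linarith⟩)).symm
    · have : ∀ n, ic (A n) b = 0 := fun n => ic_of_notMem fun h => hb h.1
      simp [this, hb]
  · have hρ : Measurable ((A n).piecewise r fun _ => 1) := hr.piecewise (hA n) h1
    have hn : (0 : ℝ) ≤ n := n.cast_nonneg
    have := (H.core hu ht hρ hc he (m := 1 / ((n : ℝ) + 1)) (M := n + 1) Nat.one_div_pos_of_nat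
      fun b => by
        by_cases hb : b ∈ A n
        · rw [Set.piecewise_eq_of_mem _ _ _ hb]
          exact hb.2
        · rw [Set.piecewise_eq_of_notMem _ _ _ hb, abs_one]
          exact ⟨(div_le_one (by positivity)).2 (by linarith), by linarith⟩).mul 1 (Ψ.E (ic (A n)))
    simp only [one_mul, zero_mul, sub_mul] at this ⊢
    refine this.congr le_rfl (Eventually.of_forall fun l => ?_)
    rw [H.toi_cut hu ht hρ hr hc (hA n) (a := 1) fun b hb => by
      rw [Set.piecewise_eq_of_mem _ _ _ hb, one_mul], one_mul]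

theorem Af.toi_null {Y : Type} [MeasurableSpace Y] {P : Fin 3 → POVM Y K} {t : Y → ℝ}
    (ht : Measurable t) {g : Fin 3 → Y → ℂ} (hg : ∀ k, BM (g k)) {c : ℝ × ℝ → ℂ}
    (hc : Integrable c) {R m l : ℝ} (hK : ∀ p : ℝ × ℝ, R < ‖p‖ → K2 c p = 0) (hl0 : 0 ≤ l)
    (hl : R < l * m) {i : Fin 3} (hi : i = 0 ∨ i = 1) (h0 : ∀ a, g i a ≠ 0 → t a = 0)
    (h2 : ∀ a, g 2 a ≠ 0 → m ≤ |t a|) :
    toi (fun f => word P fun k a => g k a * f k (t a)) c l = 0 := by
  refine toi_eq_zero ((isPoly_word P).comp (fun _ => ht) hg) hc hK fun z hz => ?_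
  have key : ∀ (j : Fin 3) (B : Set ℝ), IsClosed B → (∀ a, g j a ≠ 0 → t a ∈ B) → z j ∈ B := by
    intro j B hB h
    have := mem_of_mem_supp (Z := Function.update (fun _ => Set.univ) j B) (fun k => ?_)
      (fun f hf k hk => (isPoly_word P).eq_zero_of_slot
        (fun k => (hg k).mul ((hf k).comp ht)) (i := k) fun a => ?_) hz j
    · rwa [Function.update_self] at this
    · rcases eq_or_ne k j with rfl | e
      · rwa [Function.update_self]
      · rw [Function.update_of_ne e]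
        exact isClosed_univ
    · by_cases ha : g k a = 0
      · rw [ha, zero_mul]
      rw [hk, mul_zero]
      rcases eq_or_ne k j with rfl | e
      · rw [Function.update_self]
        exact h a ha
      · rw [Function.update_of_ne e]
        trivial
  have k0 : z i = 0 := key i {0} isClosed_singleton h0
  have k2 : m ≤ |z 2| := key 2 {s | m ≤ |s|} (isClosed_le continuous_const continuous_abs) h2
  have k3 := hl.trans_le (mul_le_mul_of_nonneg_left k2 hl0)
  rcases hi with rfl | rfl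
  · refine k3.trans_le (le_trans (le_of_eq ?_) (norm_fst_le _))
    simp [k0, abs_of_nonneg hl0]
  · refine k3.trans_le (le_trans (le_of_eq ?_) (norm_snd_le _))
    simp [k0, abs_of_nonneg hl0]

open Af in
/-- **CLEAN**: the junk value `t = 0` off `A` does not matter -/
theorem toi_clean {Y : Type} [MeasurableSpace Y] {P : Fin 3 → POVM Y K} (hP : (P 2).IsPVM)
    {t : Y → ℝ} (ht : Measurable t) {A : Set Y} (hA : MeasurableSet A) (h0 : ∀ a, a ∉ A → t a = 0)
    {c : ℝ × ℝ → ℂ} (hc : Integrable c) (he : Ev c) :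
    AvT atTop (fun l => (toi (fun f => word P fun k a => f k (t a)) c l
      - toi (fun f => word P fun k a => ic A a * f k (t a)) c l)
        * (P 2).E (ic {a | t a ≠ 0})) 0 := by
  have bA := BM.ic hA
  have p1 : IsPoly fun f : Fin 3 → ℝ → ℂ => word P fun k a => f k (t a) := by
    have := (isPoly_word P).comp (fun _ => ht) fun _ => BM.const 1
    simpa only [one_mul] using this
  have p2 : IsPoly fun f : Fin 3 → ℝ → ℂ => word P fun k a => ic A a * f k (t a) :=
    (isPoly_word P).comp (fun _ => ht) fun _ => bA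
  let B : ℕ → Set Y := fun n => {a | 1 / ((n : ℝ) + 1) ≤ |t a|}
  have hB : ∀ n, MeasurableSet (B n) := fun n => measurableSet_le measurable_const ht.abs
  refine avT_of_strong (E := fun n => (P 2).E (ic (B n)))
    ((sCont_toi p1 hc).sub (sCont_toi p2 hc))
    ((P 2).tendsto_E (fun n => (BM.ic (hB n)).meas) (fun n => norm_ic_le _) fun a => ?_) fun n => ?_
  · by_cases ha : t a = 0
    · have : ∀ n, ic (B n) a = 0 := fun n => ic_of_notMem fun h =>
        (Nat.one_div_pos_of_nat.trans_le (show 1 / ((n : ℝ) + 1) ≤ |t a| from h)).ne'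
          (by rw [ha, abs_zero])
      simp [this, ha]
    · rw [ic_of_mem (show a ∈ {a | t a ≠ 0} from ha)]
      refine tendsto_const_nhds.congr' ?_
      filter_upwards [(tendsto_one_div_add_atTop_nhds_zero_nat (𝕜 := ℝ)).eventually
        (ge_mem_nhds (abs_pos.2 ha))] with n h2
      exact (ic_of_mem (show a ∈ B n from h2)).symm
  have bB := BM.ic (hB n)
  have bA' := BM.ic hA.compl
  have q1 := p1.mul 1 ((P 2).E (ic (B n)))
  have q2 := p2.mul 1 ((P 2).E (ic (B n)))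
  have := avT_toi_of_smooth q1 q2 le_rfl (fun c hc he _ hs => ?_) hc he
  · refine this.congr le_rfl (Eventually.of_forall fun l => ?_)
    rw [← toi_mul p1 hc, ← toi_mul p2 hc, one_mul, one_mul, sub_mul]
  obtain ⟨R, -, hK⟩ := Fou.exists_radius hs
  refine (avT_const atTop 0).congr le_rfl ?_
  have hm : (0 : ℝ) < 1 / ((n : ℝ) + 1) := Nat.one_div_pos_of_nat
  filter_upwards [eventually_ge_atTop 0, (tendsto_id.atTop_mul_const hm).eventually_gt_atTop R]
    with l hl0 hl
  have hn : ∀ {O : Set Y} {a : Y}, ic O a ≠ 0 → a ∈ O := fun h => by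
    by_contra h'
    exact h (ic_of_notMem h')
  have g1 : ∀ k, BM (![ic Aᶜ, fun _ => 1, ic (B n)] k) := fun k => by
    fin_cases k
    exacts [bA', BM.const 1, bB]
  have g2 : ∀ k, BM (![ic A, ic Aᶜ, ic (B n)] k) := fun k => by
    fin_cases k
    exacts [bA, bA', bB]
  have z1 := toi_null (P := P) ht g1 hc hK hl0 hl (Or.inl rfl) (fun a ha => h0 a (hn ha))
    fun a ha => hn (O := B n) ha
  have z2 := toi_null (P := P) ht g2 hc hK hl0 hl (Or.inr rfl) (fun a ha => h0 a (hn ha))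
    fun a ha => hn (O := B n) ha
  rw [toi_sub_W q1 q2 hc, ← sub_zero (toi _ c l), ← z1,
    toi_sub_W (q1.sub q2) ((isPoly_word P).comp (fun _ => ht) g1) hc, z1, ← z2]
  refine toi_congr (fun f hf => ?_) l
  have b := fun k => (hf k).comp ht
  have e1 : ∀ k, (P k).E (fun a => ic Aᶜ a * f k (t a)) =
      (P k).E (fun a => f k (t a)) - (P k).E fun a => ic A a * f k (t a) := fun k => by
    rw [← (P k).E_sub (b k) (bA.mul (b k))]
    simp only [ic_compl, sub_mul, one_mul]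
  have e2 : (P 2).E (fun a => f 2 (t a)) * (P 2).E (ic (B n)) =
      (P 2).E fun a => ic (B n) a * f 2 (t a) := by
    rw [← hP _ _ (b 2) bB]
    simp only [mul_comm]
  have e3 : (P 2).E (fun a => ic A a * f 2 (t a)) * (P 2).E (ic (B n)) =
      (P 2).E fun a => ic (B n) a * f 2 (t a) := by
    rw [← hP _ _ (bA.mul (b 2)) bB]
    congr 1
    funext a
    by_cases ha : a ∈ B n
    · have : a ∈ A := by
        by_contra h
        exact (hm.trans_le ha).ne' (by rw [h0 a h, abs_zero])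
      simp [ha, this]
    · simp [ha]
  simp only [word3, one_mul, cons_val_zero, cons_val_one, cons_val, mul_assoc, e1, e2, e3]
  noncomm_ring

/-- **KER**: the positive even kernels -/
theorem exists_ker {χ N : ℝ → ℝ} (hχ : ContDiff ℝ (⊤ : ℕ∞) χ) (hχ' : HasCompactSupport χ)
    (hN : ContDiff ℝ (⊤ : ℕ∞) N) (hN' : HasCompactSupport N) :
    ∃ c : ℝ × ℝ → ℂ, Integrable c ∧ Ev c ∧ ∀ (K : Type) [NormedAddCommGroup K]
      [InnerProductSpace ℂ K] [CompleteSpace K] (P P' : POVM ℝ K), P.IsPVM → P'.IsPVM →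
      ∀ l : ℝ, 0 < l → ∀ (T : ℝ) (η : K), P.E (ic (Set.Icc (-T) T)) η = η →
      Integrable (fun x : ℝ => ‖P'.E (fun t => (N (l * t - x) : ℂ))
        (P.E (fun t => (χ (l * t - x) : ℂ)) η)‖ ^ 2) ∧
      ∫ x : ℝ, ‖P'.E (fun t => (N (l * t - x) : ℂ)) (P.E (fun t => (χ (l * t - x) : ℂ)) η)‖ ^ 2
        ≤ (⟪η, toi (word ![P, P', P]) c l η⟫_ℂ).re :=
  Ker.exists_ker hχ hχ' hN hN'

end Crest.Agent.N111
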