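import Crest.Agent.N111.F.S8

/-! # Row 111: opposite pairs: Borel form and the level (fill the proofs IN PLACE). -/

set_option autoImplicit false
set_option linter.unusedSectionVars false
set_option linter.unusedVariables false

namespace Crest.Agent.N111

open MeasureTheory Topology Filter Matrix
open scoped InnerProductSpace

variable {K : Type} [NormedAddCommGroup K] [InnerProductSpace ℂ K] [CompleteSpace K]

variable {I I' : Ind K} {L : ℕ → ℝ} {Φ Ψ A B : V → POVM V K} {sc sc' : ℝ → ℝ}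


namespace S8c

/-- the identity of `S8` for the pair `(P, Q)` -/
def Idt (P Q : POVM V K) (t : ℝ) (z : ℂ) : Prop :=
  ∀ θ > (0 : ℝ), ∀ c φ ψ, PRep θ t c φ ψ → ∀ g f : V → ℂ, BM g →
    BM f → (∀ b a, g b ≠ 0 → f a ≠ 0 → 2 * θ * (‖b‖ * ‖a‖) ≤ |b ⬝ᵥ a|) →
    sInt volume c (fun w => P.E (fun b => g b * lg t b * φ w b)
      * Q.E fun a => f a * lg t a * ψ w a) = z • (P.E g * Q.E f)

theorem bm_tw {g : V → ℂ} (hg : BM g) (t : ℝ) {φ : V → ℂ} (hm : Measurable φ)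
    (hb : ∀ a, ‖φ a‖ ≤ 1) : BM fun b => g b * lg t b * φ b :=
  (hg.mul (bm_lg t)).mul ⟨hm, 1, hb⟩

theorem sCont_tw (P : POVM V K) {g : V → ℂ} (hg : BM g) (t : ℝ) {φ : (Fin 18 → ℝ) → V → ℂ}
    (hm : ∀ w, Measurable (φ w)) (hb : ∀ w a, ‖φ w a‖ ≤ 1) (hc : ∀ a, Continuous fun w => φ w a) :
    SCont fun w => P.E fun b => g b * lg t b * φ w b := by
  obtain ⟨C, hC0, hC⟩ := hg.exists_nonneg
  refine P.sCont_E (C := C) (fun w => (bm_tw hg t (hm w) (hb w)).meas) (fun w a => ?_)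
    fun a => continuous_const.mul (hc a)
  rw [norm_mul, norm_mul, norm_lg, mul_one]
  exact (mul_le_of_le_one_right (norm_nonneg _) (hb w a)).trans (hC a)

theorem dot_nrm (b : V) {a : V} (ha : a ≠ 0) : |b ⬝ᵥ a| = |b ⬝ᵥ nrm a| * ‖a‖ := by
  rw [nrm, dotProduct_smul, smul_eq_mul, abs_mul, abs_inv, abs_norm, mul_right_comm,
    inv_mul_cancel₀ (norm_ne_zero_iff.2 ha), one_mul]

/-- projective majorants of a non-incident pair -/
theorem exists_major {θ : ℝ} (hθ : 0 < θ) (f : V → ℂ) : ∃ g' f' : V → ℂ, BM g' ∧ Hom0 g' ∧ BM f' ∧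
    Hom0 f' ∧ ContinuousOn f' {0}ᶜ ∧ (∀ b a, g' b ≠ 0 → f' a ≠ 0 → θ * (‖b‖ * ‖a‖) ≤ |b ⬝ᵥ a|) ∧
    (∀ b, (∀ a, f a ≠ 0 → 2 * θ * (‖b‖ * ‖a‖) ≤ |b ⬝ᵥ a|) → g' b = 1) ∧
    ∀ a, a ≠ 0 → f a ≠ 0 → f' a = 1 := by
  let G : Set V := {b | ∀ a, f a ≠ 0 → 2 * θ * (‖b‖ * ‖a‖) ≤ |b ⬝ᵥ a|}
  have hG : IsClosed G := by
    simp only [G, Set.ofPred_forall]
    exact isClosed_iInter fun a => isClosed_iInter fun _ => isClosed_le (by fun_prop) (by fun_prop)
  have sG : ∀ z : ℝ, ∀ b ∈ G, z • b ∈ G := fun z b hb a ha => by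
    rw [norm_smul, smul_dotProduct, smul_eq_mul, abs_mul, Real.norm_eq_abs, mul_assoc |z|,
      mul_left_comm]
    exact mul_le_mul_of_nonneg_left (hb a ha) (abs_nonneg z)
  let S : Set V := {a | ∀ b ∈ G, 2 * θ * ‖b‖ ≤ |b ⬝ᵥ a|}
  have hδ : 0 < θ / 3 := by positivity
  let T : V → ℂ := fun a => ((thickenedIndicator hδ S a : ℝ) : ℂ)
  have cT : Continuous T := by fun_prop
  have bT : BM T := BM.of_continuous cT (C := 1) fun a => by
    simpa [T] using thickenedIndicator_le_one hδ S a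
  have T1 : ∀ a ∈ S, T a = 1 := fun a ha => by
    simp only [T, thickenedIndicator_one hδ S ha, NNReal.coe_one, Complex.ofReal_one]
  refine ⟨ic G, fun a => T (nrm a) * T (-nrm a), BM.ic hG.measurableSet, fun z hz b => ?_,
    (bT.comp measurable_nrm).mul (bT.comp measurable_nrm.neg),
    Ev.hom0_nrm (f := fun a => T a * T (-a)) fun a => by simp only [neg_neg, mul_comm],
    (cT.comp_continuousOn continuousOn_nrm).mul (cT.comp_continuousOn continuousOn_nrm.neg),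
    fun b a hb ha => ?_, fun b hb => ic_of_mem hb, fun a h0 ha => ?_⟩
  · by_cases hb : b ∈ G
    · rw [ic_of_mem hb, ic_of_mem (sG z b hb)]
    · rw [ic_of_notMem hb, ic_of_notMem fun h' => hb ?_]
      simpa only [smul_smul, inv_mul_cancel₀ hz, one_smul] using sG z⁻¹ _ h'
  · rcases eq_or_ne a 0 with rfl | h0
    · simp
    have hbG : b ∈ G := by_contra fun h' => hb (ic_of_notMem h')
    obtain ⟨a', ha', hd⟩ := Metric.mem_thickening_iff.1 (by_contra fun h' => ha (by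
      simp only [T, thickenedIndicator_zero hδ S h', NNReal.coe_zero, Complex.ofReal_zero,
        zero_mul]) : nrm a ∈ Metric.thickening (θ / 3) S)
    have h1 := ha' b hbG
    have h2 : |b ⬝ᵥ (nrm a - a')| ≤ 3 * ‖b‖ * (θ / 3) := (abs_dot_le _ _).trans
      (mul_le_mul_of_nonneg_left (dist_eq_norm (nrm a) a' ▸ hd.le) (by positivity))
    rw [dotProduct_sub] at h2
    have h3 := abs_sub_abs_le_abs_sub (b ⬝ᵥ a') (b ⬝ᵥ nrm a)
    rw [abs_sub_comm] at h3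
    rw [dot_nrm b h0, ← mul_assoc]
    exact mul_le_mul_of_nonneg_right (by linarith) (norm_nonneg _)
  · have : nrm a ∈ S := fun b hb => le_of_mul_le_mul_right
      (by rw [← dot_nrm b h0, mul_assoc]; exact hb a ha) (norm_pos_iff.2 h0)
    beta_reduce
    rw [T1 _ this, T1 _ fun b hb => by rw [dotProduct_neg, abs_neg]; exact this b hb, mul_one]

theorem idt_base (h : Geo I I' L Φ Ψ A B sc sc') {t : ℝ} {z : ℂ}
    (H : ∀ θ > (0 : ℝ), ∀ c φ ψ, PRep θ t c φ ψ → ∀ g f : V → ℂ, BM g → Hom0 g → BM f → Hom0 f →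
      ContinuousOn f {0}ᶜ → (∀ b a, g b ≠ 0 → f a ≠ 0 → θ * (‖b‖ * ‖a‖) ≤ |b ⬝ᵥ a|) →
      sInt volume c (fun w => (B (ev 0)).E (fun b => g b * lg t b * φ w b)
        * (A (ev 0)).E fun a => f a * lg t a * ψ w a) = z • ((Ψ (ev 0)).E g * (Φ (ev 0)).E f)) :
    Idt (B (ev 0)) (A (ev 0)) t z := by
  intro θ hθ c φ ψ hr g f hg hf hni
  obtain ⟨g', f', bg, hg', bf, hf', cf, ni, g1, f1⟩ := exists_major hθ f
  have e := congrArg (fun X => (B (ev 0)).E g * X * (A (ev 0)).E f)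
    (H θ hθ c φ ψ hr g' f' bg hg' bf hf' cf ni)
  have eB : ∀ u, BM u → (B (ev 0)).E g * (B (ev 0)).E (fun b => g' b * u b) =
      (B (ev 0)).E fun b => g b * u b := fun u hu => by
    rw [← h.lift'.pvm _ _ _ hg (bg.mul hu)]
    congr 1
    funext b
    by_cases hb : g b = 0
    · rw [hb, zero_mul, zero_mul]
    · rw [g1 b fun a => hni b a hb, one_mul]
  have eA : ∀ u, BM u → (A (ev 0)).E (fun a => f' a * u a) * (A (ev 0)).E f =
      (A (ev 0)).E fun a => f a * u a := fun u hu => by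
    rw [← h.lift.pvm _ _ _ (bf.mul hu) hf]
    refine POVM.E_congr_of_null _ (measurableSet_singleton 0) (h.lift.zero _)
      ((bf.mul hu).mul hf) (hf.mul hu) fun a ha => ?_
    by_cases hb : f a = 0
    · rw [hb, zero_mul, mul_zero]
    · rw [f1 a ha hb, one_mul, mul_comm]
  have sc := (sCont_tw (B (ev 0)) bg t hr.measφ hr.bdφ hr.contφ).mul
    (sCont_tw (A (ev 0)) bf t hr.measψ hr.bdψ hr.contψ)
  rw [mul_sInt hr.int sc, sInt_mul hr.int ((SCont.const _).mul sc),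
    ← h.lift'.hom0 (ev_ne_zero 0) bg hg', ← h.lift.hom0 (ev_ne_zero 0) bf hf'] at e
  have e1 := eB _ BM.one
  have e2 := eA _ BM.one
  simp only [mul_one] at e1 e2
  rw [mul_smul_comm, smul_mul_assoc, ← mul_assoc, e1, mul_assoc, e2] at e
  rw [← e]
  congr 1
  funext w
  simp only [mul_assoc]
  rw [eA _ ((bm_lg t).mul ⟨hr.measψ w, 1, hr.bdψ w⟩), ← mul_assoc ((B (ev 0)).E g),
    eB _ ((bm_lg t).mul ⟨hr.measφ w, 1, hr.bdφ w⟩)]

theorem Idt.conj {P Q P' Q' : POVM V K} {t : ℝ} {z : ℂ} (H : Idt P Q t z) {u v : K →L[ℂ] K}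
    (huv : v * u = 1) (hP : ∀ f, BM f → u * P.E f * v = P'.E f)
    (hQ : ∀ f, BM f → u * Q.E f * v = Q'.E f) : Idt P' Q' t z := by
  intro θ hθ c φ ψ hr g f hg hf hni
  have key : ∀ g f, BM g → BM f → u * (P.E g * Q.E f) * v = P'.E g * Q'.E f := fun g f hg hf => by
    rw [← hP g hg, ← hQ f hf]
    simp only [mul_assoc]
    rw [← mul_assoc v u, huv, one_mul]
  have sc := (sCont_tw P hg t hr.measφ hr.bdφ hr.contφ).mul
    (sCont_tw Q hf t hr.measψ hr.bdψ hr.contψ)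
  have e := congrArg (fun X => u * X * v) (H θ hθ c φ ψ hr g f hg hf hni)
  rw [mul_sInt hr.int sc, sInt_mul hr.int ((SCont.const _).mul sc), mul_smul_comm,
    smul_mul_assoc, key g f hg hf] at e
  rw [← e]
  congr 1
  funext w
  rw [key _ _ (bm_tw hg t (hr.measφ w) (hr.bdφ w)) (bm_tw hf t (hr.measψ w) (hr.bdψ w))]

theorem exists_idt (h : Geo I I' L Φ Ψ A B sc sc') : ∃ t₀ > (0 : ℝ), ∀ t, |t| < t₀ → ∃ z : ℂ,
    ∀ x y : V, x ⬝ᵥ y = 1 → Idt (B y) (A x) t z := by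
  obtain ⟨t₀, ht₀, H⟩ := h.s8_core
  refine ⟨t₀, ht₀, fun t ht => ?_⟩
  obtain ⟨z, hz⟩ := H t ht
  refine ⟨z, fun x y hxy => ?_⟩
  obtain ⟨g, rfl, rfl⟩ := exists_ac_opp hxy
  exact (idt_base h hz).conj (I.U.inv_mul_self g) (fun f hf => h.covB (ev_ne_zero 0) hf g)
    fun f hf => h.lift.covU _ (ev_ne_zero 0) f hf g

theorem equi {Ω : Type} [TopologicalSpace Ω] {φ : Ω → V → ℂ}
    (hφ : ContinuousOn (fun p : Ω × V => φ p.1 p.2) {p | p.2 ≠ 0}) (t : ℝ) {b : V} (hb : b ≠ 0)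
    {ε : ℝ} (hε : 0 < ε) {M : Set Ω} (hM : IsCompact M) :
    ∀ᶠ y in 𝓝 b, ∀ ω ∈ M, ‖lg t y * φ ω y - lg t b * φ ω b‖ ≤ ε := by
  refine hM.eventually_forall_of_forall_eventually fun ω _ => ?_
  have c0 : ContinuousAt (fun p : Ω × V => φ p.1 p.2) (ω, b) :=
    hφ.continuousAt ((isOpen_ne_fun continuous_snd continuous_const).mem_nhds hb)
  have c1 : ContinuousAt (fun p : V × Ω => φ p.2 p.1) (b, ω) :=
    ContinuousAt.comp (f := fun p : V × Ω => (p.2, p.1)) (x := (b, ω)) c0 (by fun_prop)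
  have c2 : ContinuousAt (fun p : V × Ω => φ p.2 b) (b, ω) :=
    ContinuousAt.comp (f := fun p : V × Ω => (p.2, b)) (x := (b, ω)) c0 (by fun_prop)
  have c3 : ContinuousAt (fun p : V × Ω => lg t p.1) (b, ω) :=
    continuous_ex.continuousAt.comp (continuousAt_const.mul
      (continuous_fst.norm.continuousAt.log (norm_ne_zero_iff.2 hb)))
  exact ((c3.mul c1).sub (continuousAt_const.mul c2)).norm.eventually (ge_mem_nhds (by simpa))

/-- the kernel is constant on the non-incident part of the support -/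
theorem Idt.ker {P Q : POVM V K} {t : ℝ} {z : ℂ} (H : Idt P Q t z) {p : Fin 2 → V}
    (hp : p ∈ supp (word ![P, Q])) (hne : p 0 ⬝ᵥ p 1 ≠ 0) : ex (t * Real.log |p 0 ⬝ᵥ p 1|) = z := by
  by_contra hz
  obtain ⟨θ, hθ, O, hO, O', hO', hni⟩ := exists_ni hne
  obtain ⟨c, φ, ψ, hr⟩ := exists_pRep (half_pos hθ) t
  have h0 : p 0 ≠ 0 := fun e => hne (by rw [e, zero_dotProduct])
  have h1 : p 1 ≠ 0 := fun e => hne (by rw [e, dotProduct_zero])
  refine (isPoly_word ![P, Q]).not_mem_supp_of_sInt hr.int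
    (φ := fun w => ![fun b => lg t b * φ w b, fun a => lg t a * ψ w a])
    (fun w => Fin.forall_fin_two.2 ⟨(bm_lg t).meas.mul (hr.measφ w), (bm_lg t).meas.mul (hr.measψ w)⟩)
    (fun w => Fin.forall_fin_two.2 ⟨fun b => ?_, fun b => ?_⟩)
    (Fin.forall_fin_two.2 ⟨fun b => continuous_const.mul (hr.contφ b),
      fun b => continuous_const.mul (hr.contψ b)⟩)
    (Fin.forall_fin_two.2 ⟨fun ε hε M hM => equi hr.jointφ t h0 hε hM,
      fun ε hε M hM => equi hr.jointψ t h1 hε hM⟩) z ?_ (O := ![O, O'])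
    (Fin.forall_fin_two.2 ⟨hO, hO'⟩) (fun f hf hs => ?_) hp
  · simpa [norm_lg] using hr.bdφ w b
  · simpa [norm_lg] using hr.bdψ w b
  · have k := hr.ker _ _ h0 h1 (le_trans (mul_le_mul_of_nonneg_right (half_le_self hθ.le)
      (by positivity)) (hni _ (subset_cone _ (mem_of_mem_nhds hO)) _
        (subset_cone _ (mem_of_mem_nhds hO'))))
    have e : ∀ w, c w * ∏ k, ![fun b => lg t b * φ w b, fun a => lg t a * ψ w a] k (p k) =
        lg t (p 0) * lg t (p 1) * (c w * (φ w (p 0) * ψ w (p 1))) := fun w => by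
      simp only [Fin.prod_univ_two, cons_val_zero, cons_val_one]
      ring
    simp only [e]
    rw [integral_const_mul, k, lg, lg, ← ex_add, ← ex_add]
    convert hz using 2
    ring
  · have := H _ (half_pos hθ) c φ ψ hr (f 0) (f 1) (hf 0) (hf 1) fun b a hb ha => by
      rw [mul_div_cancel₀ _ two_ne_zero]
      exact hni b (subset_cone _ (by_contra fun h' => hb (hs 0 b h'))) a
        (subset_cone _ (by_contra fun h' => ha (hs 1 a h')))
    rw [sub_eq_zero, word_two, ← this]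
    congr 1
    funext w
    simp only [word_two, cons_val_zero, cons_val_one, mul_assoc, mul_comm _ (f _ _)]

theorem exists_ni_supp (h : Geo I I' L Φ Ψ A B sc sc') :
    ∃ p ∈ supp (word ![B (ev 0), A (ev 0)]), p 0 ⬝ᵥ p 1 ≠ 0 := by
  by_contra hc
  push Not at hc
  refine h.pro.not_inc h.dual h.pro' h.inc (Inc.symm (inc_of_ni (h.pro'.proj _) (h.pro.proj _)
    fun g f bg hg cg bf hf cf θ hθ ni => ?_))
  have hO : ∀ {f : V → ℂ}, ContinuousOn f {0}ᶜ → IsOpen ({0}ᶜ ∩ f ⁻¹' {0}ᶜ) := fun hf =>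
    hf.isOpen_inter_preimage isOpen_compl_singleton isOpen_compl_singleton
  have := (isPoly_word ![B (ev 0), A (ev 0)]).nullOn_of_disjoint
    (O := ![{0}ᶜ ∩ g ⁻¹' {0}ᶜ, {0}ᶜ ∩ f ⁻¹' {0}ᶜ])
    (Fin.forall_fin_two.2 ⟨isSigmaCompact_of_isOpen (hO cg), isSigmaCompact_of_isOpen (hO cf)⟩)
    (fun p hp hs => by
      have h1 := ni _ _ (hp 0).2 (hp 1).2
      rw [hc p hs, abs_zero] at h1
      exact absurd h1 (not_le.2 (mul_pos hθ
        (mul_pos (norm_pos_iff.2 (hp 0).1) (norm_pos_iff.2 (hp 1).1)))))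
    ![fun a => ic {0}ᶜ a * g a, fun a => ic {0}ᶜ a * f a]
    (Fin.forall_fin_two.2 ⟨Cv1.bm_cut bg, Cv1.bm_cut bf⟩)
    (Fin.forall_fin_two.2 ⟨fun a ha => by by_cases h0 : a = 0 <;> simp_all,
      fun a ha => by by_cases h0 : a = 0 <;> simp_all⟩)
  rw [← h.lift'.hom0 (ev_ne_zero 0) bg hg, ← h.lift.hom0 (ev_ne_zero 0) bf hf,
    (h.lift'.sym _).cut bg, (h.lift.sym _).cut bf]
  simpa using this

theorem eq_of_ex {a b t₀ : ℝ} (ht₀ : 0 < t₀) (h : ∀ t, |t| < t₀ → ex (t * a) = ex (t * b)) :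
    a = b := by
  by_contra hne
  have hd : 0 < |a - b| := abs_pos.2 (sub_ne_zero.2 hne)
  obtain ⟨t, ht0, ht1, ht2⟩ : ∃ t : ℝ, 0 < t ∧ t < t₀ ∧ t * |a - b| ≤ 1 :=
    ⟨min (t₀ / 2) |a - b|⁻¹, by positivity, (min_le_left _ _).trans_lt (half_lt_self ht₀),
      (mul_le_mul_of_nonneg_right (min_le_right _ _) hd.le).trans_eq (inv_mul_cancel₀ hd.ne')⟩
  have e : ex (t * (a - b)) = 1 := by
    rw [mul_sub, sub_eq_add_neg, ex_add, h t (by rwa [abs_of_pos ht0]), ← ex_add, add_neg_cancel,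
      ex_zero]
  have e' : Real.cos (t * (a - b)) = 1 := by
    rw [← Complex.exp_ofReal_mul_I_re, mul_comm _ Complex.I, ← ex, e, Complex.one_re]
  have hb : |t * (a - b)| ≤ 1 := by rwa [abs_mul, abs_of_pos ht0]
  rw [abs_le] at hb
  have := (Real.cos_eq_one_iff_of_lt_of_lt (by linarith [Real.pi_gt_three])
    (by linarith [Real.pi_gt_three])).1 e'
  exact mul_ne_zero ht0.ne' (sub_ne_zero.2 hne) this

theorem ev_dot_self : ev 0 ⬝ᵥ ev 0 = 1 := by simp [ev_dot_ev]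

end S8c

/-- **S8** for all opposite pairs and Borel functions -/
theorem Geo.s8 (h : Geo I I' L Φ Ψ A B sc sc') : ∃ t₀ > (0 : ℝ), ∀ t, |t| < t₀ → ∃ z : ℂ, z ≠ 0 ∧
    ∀ x y : V, x ⬝ᵥ y = 1 → ∀ θ > (0 : ℝ), ∀ c φ ψ, PRep θ t c φ ψ → ∀ g f : V → ℂ, BM g →
      BM f → (∀ b a, g b ≠ 0 → f a ≠ 0 → 2 * θ * (‖b‖ * ‖a‖) ≤ |b ⬝ᵥ a|) →
      sInt volume c (fun w => (B y).E (fun b => g b * lg t b * φ w b)
        * (A x).E fun a => f a * lg t a * ψ w a) = z • ((B y).E g * (A x).E f) := by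
  obtain ⟨t₀, ht₀, H⟩ := S8c.exists_idt h
  obtain ⟨p, hp, hne⟩ := S8c.exists_ni_supp h
  refine ⟨t₀, ht₀, fun t ht => ?_⟩
  obtain ⟨z, hz⟩ := H t ht
  refine ⟨z, fun e => ?_, hz⟩
  have := congrArg norm ((hz _ _ S8c.ev_dot_self).ker hp hne)
  rw [norm_ex, e, norm_zero] at this
  exact one_ne_zero this

/-- the non-incident part of the support lies on one level -/
theorem Geo.level (h : Geo I I' L Φ Ψ A B sc sc') : ∃ κ > (0 : ℝ), ∀ x y : V, x ⬝ᵥ y = 1 →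
    ∀ z ∈ supp (word ![B y, A x]), z 0 ⬝ᵥ z 1 ≠ 0 → |z 0 ⬝ᵥ z 1| = κ := by
  obtain ⟨t₀, ht₀, H⟩ := S8c.exists_idt h
  obtain ⟨p, hp, hne⟩ := S8c.exists_ni_supp h
  refine ⟨_, abs_pos.2 hne, fun x y hxy q hq hq' => ?_⟩
  refine Real.log_injOn_pos (abs_pos.2 hq') (abs_pos.2 hne) (S8c.eq_of_ex ht₀ fun t ht => ?_)
  obtain ⟨z, hz⟩ := H t ht
  rw [(hz _ _ hxy).ker hq hq', (hz _ _ S8c.ev_dot_self).ker hp hne]

end Crest.Agent.N111
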