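import Crest.Agent.N111.F.S7
import Crest.Agent.N111.F.S8b

/-! # Row 111: no commutation phase on flags. -/

set_option autoImplicit false
set_option linter.unusedSectionVars false
set_option linter.unusedVariables false

namespace Crest.Agent.N111

open MeasureTheory Topology Filter Matrix
open scoped InnerProductSpace

variable {K : Type} [NormedAddCommGroup K] [InnerProductSpace ℂ K] [CompleteSpace K]

variable {I I' : Ind K} {L : ℕ → ℝ} {Φ Ψ A B : V → POVM V K} {sc sc' : ℝ → ℝ}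


/-- the five letter word -/
noncomputable def W5 (A B : V → POVM V K) : (Fin 5 → V → ℂ) → K →L[ℂ] K :=
  word ![A (ev 0), B (ev 2), A (ev 1), B (ev 0), A (ev 2)]

namespace Ccr

/-- `P` refines the projective PVM `Φ` and commutes with `Ψ` on flags -/
structure Ref (P Φ Ψ : V → POVM V K) : Prop where
  pvm : ∀ x, (P x).IsPVM
  hom : ∀ x, x ≠ 0 → ∀ u, BM u → Hom0 u → (P x).E u = (Φ x).E u
  comm : ∀ x y, x ≠ 0 → y ≠ 0 → x ⬝ᵥ y = 0 → ∀ f g, BM f → BM g →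
    Commute ((P x).E f) ((Ψ y).E g)

variable {P R : V → POVM V K}

theorem Ref.right (h : Ref P Φ Ψ) (i : Fin 3) {f u : V → ℂ} (hf : BM f) (hu : BM u ∧ Hom0 u) :
    (P (ev i)).E (fun a => f a * u a) = (P (ev i)).E f * (Φ (ev i)).E u := by
  rw [h.pvm _ f u hf hu.1, h.hom _ (ev_ne_zero i) u hu.1 hu.2]

theorem Ref.left (h : Ref P Φ Ψ) (i : Fin 3) {f u : V → ℂ} (hf : BM f) (hu : BM u ∧ Hom0 u) :
    (P (ev i)).E (fun a => f a * u a) = (Φ (ev i)).E u * (P (ev i)).E f := by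
  rw [← h.hom _ (ev_ne_zero i) u hu.1 hu.2, ← h.pvm _ u f hu.1 hf]
  simp only [mul_comm]

theorem dot_ne {i k : Fin 3} (h : i ≠ k) : ev i ⬝ᵥ ev k = 0 := by rw [ev_dot_ev, if_neg h]

theorem Ref.swap (h : Ref P Φ Ψ) {i k : Fin 3} (hik : i ≠ k) {f g : V → ℂ} (hf : BM f)
    (hg : BM g) (X : K →L[ℂ] K) :
    (Ψ (ev k)).E g * ((P (ev i)).E f * X) = (P (ev i)).E f * ((Ψ (ev k)).E g * X) := by
  rw [← mul_assoc, ← mul_assoc,
    (h.comm _ _ (ev_ne_zero i) (ev_ne_zero k) (dot_ne hik) f g hf hg).eq]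

theorem refA (h : Geo I I' L Φ Ψ A B sc sc') : Ref A Φ Ψ :=
  ⟨h.lift.pvm, fun x hx u hu h0 => h.lift.hom0 hx hu h0, h.AΨ⟩

theorem refΦ (h : Geo I I' L Φ Ψ A B sc sc') : Ref Φ Φ Ψ :=
  ⟨h.pro.pvm, fun _ _ _ _ _ => rfl, h.inc.comm⟩

theorem step {X : Type} [TopologicalSpace X] {S U C : Set X} (hU : IsOpen U)
    (h : S ∩ U ⊆ closure (S ∩ C)) : S ∩ U ⊆ closure (S ∩ (U ∩ C)) := fun z hz =>
  closure_mono (Set.inter_left_comm U S C).subset (hU.inter_closure ⟨hz.2, h hz⟩)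

theorem isOpen_cross (i k : Fin 5) : IsOpen {z : Fin 5 → V | z i ⨯₃ z k ≠ 0} := by
  refine isOpen_ne_fun (continuous_pi fun j => ?_) continuous_const
  fin_cases j <;> simp [cross_apply] <;> fun_prop

theorem ev20 : ev 2 ⨯₃ ev 0 ≠ 0 := fun h => by
  simpa [cross_apply, ev] using congrFun h 1

theorem nd5 (h : Geo I I' L Φ Ψ A B sc sc') (hP : Ref P Φ Ψ) (hR : Ref R Ψ Φ) {z : Fin 5 → V}
    (hz : z ∈ supp (W5 P R)) (h0 : ∀ i, z i ≠ 0) :
    z ∈ closure {z' ∈ supp (W5 P R) | (∀ i, z' i ≠ 0) ∧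
      z' 0 ⨯₃ z' 2 ≠ 0 ∧ z' 2 ⨯₃ z' 4 ≠ 0 ∧ z' 1 ⨯₃ z' 3 ≠ 0} := by
  have hW : IsPoly (W5 P R) := isPoly_word _
  have hU : IsOpen {z : Fin 5 → V | ∀ i, z i ≠ 0} := by
    rw [Set.ofPred_forall]
    exact isOpen_iInter_of_finite fun i => isOpen_ne_fun (continuous_apply i) continuous_const
  have n1 : ∀ z ∈ supp (W5 P R), (∀ i, z i ≠ 0) →
      z ∈ closure (supp (W5 P R) ∩ {z | z 0 ⨯₃ z 2 ≠ 0}) := fun z hz h0 =>
    h.nd (x := ev 0) (x' := ev 1) (y := ev 2) (Geo2.ev01 ▸ ev_ne_zero 2) (ev_ne_zero 2)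
      (dot_ne (by decide)) (dot_ne (by decide)) hW (i := 0) (l := 1) (k := 2) (by decide)
      (by decide) (by decide) (fun f hf => ⟨(P (ev 0)).E (f 0) * (R (ev 2)).E (f 1),
        (P (ev 1)).E (f 2) * (R (ev 0)).E (f 3) * (P (ev 2)).E (f 4), fun u hu h1 => by
        simp only [W5, word_five, h1 3 (by decide) (by decide) (by decide),
          h1 4 (by decide) (by decide) (by decide), mul_one, hP.right 0 (hf 0) (hu 0),
          hR.right 2 (hf 1) (hu 1), hP.left 1 (hf 2) (hu 2), mul_assoc,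
          hR.swap (i := 2) (k := 0) (by decide) (hf 1) (hu 0).1]⟩) hz (h0 0) (h0 1) (h0 2)
  have n2 : ∀ z ∈ supp (W5 P R), (∀ i, z i ≠ 0) →
      z ∈ closure (supp (W5 P R) ∩ {z | z 2 ⨯₃ z 4 ≠ 0}) := fun z hz h0 =>
    h.nd (x := ev 1) (x' := ev 2) (y := ev 0) (Geo2.ev12 ▸ ev_ne_zero 0) (ev_ne_zero 0)
      (dot_ne (by decide)) (dot_ne (by decide)) hW (i := 2) (l := 3) (k := 4) (by decide)
      (by decide) (by decide) (fun f hf => ⟨(P (ev 0)).E (f 0) * (R (ev 2)).E (f 1) *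
        (P (ev 1)).E (f 2) * (R (ev 0)).E (f 3), (P (ev 2)).E (f 4), fun u hu h1 => by
        simp only [W5, word_five, h1 0 (by decide) (by decide) (by decide),
          h1 1 (by decide) (by decide) (by decide), mul_one, hP.right 1 (hf 2) (hu 2),
          hR.right 0 (hf 3) (hu 3), hP.left 2 (hf 4) (hu 4), mul_assoc,
          hR.swap (i := 0) (k := 1) (by decide) (hf 3) (hu 2).1]⟩) hz (h0 2) (h0 3) (h0 4)
  have n3 : ∀ z ∈ supp (W5 P R), (∀ i, z i ≠ 0) →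
      z ∈ closure (supp (W5 P R) ∩ {z | z 1 ⨯₃ z 3 ≠ 0}) := fun z hz h0 =>
    h.symm.nd (x := ev 2) (x' := ev 0) (y := ev 1) ev20 (ev_ne_zero 1)
      (dot_ne (by decide)) (dot_ne (by decide)) hW (i := 1) (l := 2) (k := 3) (by decide)
      (by decide) (by decide) (fun f hf => ⟨(P (ev 0)).E (f 0) * (R (ev 2)).E (f 1) *
        (P (ev 1)).E (f 2), (R (ev 0)).E (f 3) * (P (ev 2)).E (f 4), fun u hu h1 => by
        simp only [W5, word_five, h1 0 (by decide) (by decide) (by decide),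
          h1 4 (by decide) (by decide) (by decide), mul_one, hR.right 2 (hf 1) (hu 1),
          hP.right 1 (hf 2) (hu 2), hR.left 0 (hf 3) (hu 3), mul_assoc,
          hP.swap (i := 1) (k := 2) (by decide) (hf 2) (hu 1).1]⟩) hz (h0 1) (h0 2) (h0 3)
  have hU1 := hU.inter (isOpen_cross 0 2)
  have hU2 := hU1.inter (isOpen_cross 2 4)
  have s1 := step hU fun z hz => n1 z hz.1 hz.2
  have s2 := step hU1 fun z hz => n2 z hz.1 hz.2.1
  have s3 := step hU2 fun z hz => n3 z hz.1 hz.2.1.1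
  refine closure_mono (fun w hw => ?_) (closure_minimal s3 isClosed_closure
    (closure_minimal s2 isClosed_closure (s1 ⟨hz, h0⟩)))
  exact ⟨hw.1, hw.2.1.1.1, hw.2.1.1.2, hw.2.1.2, hw.2.2⟩

/-- the line through two points is unique -/
theorem cross_eq_zero {a a' b b' : V} (h : a ⨯₃ a' ≠ 0) (h1 : a ⬝ᵥ b = 0) (h2 : a' ⬝ᵥ b = 0)
    (h3 : a ⬝ᵥ b' = 0) (h4 : a' ⬝ᵥ b' = 0) : b ⨯₃ b' = 0 := by
  have key : ∀ c : V, a ⬝ᵥ c = 0 → a' ⬝ᵥ c = 0 → ∃ s : ℝ, c = s • (a ⨯₃ a') := fun c e e' =>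
    exists_smul_of_cross_eq_zero h (by
      rw [cross_cross_eq_smul_sub_smul, dotProduct_comm a' c, e]
      rw [dotProduct_comm] at e'
      simp [e'])
  obtain ⟨s, rfl⟩ := key b h1 h2
  obtain ⟨t, rfl⟩ := key b' h3 h4
  simp

theorem inc_of_supp (h : Geo I I' L Φ Ψ A B sc sc') {z : Fin 5 → V} (hz : z ∈ supp (W5 Φ Ψ)) :
    z 0 ⬝ᵥ z 1 = 0 ∧ z 2 ⬝ᵥ z 1 = 0 ∧ z 2 ⬝ᵥ z 3 = 0 ∧ z 4 ⬝ᵥ z 3 = 0 := by
  have i1 : ∀ {i k : Fin 3}, i ≠ k → Inc (Φ (ev i)) (Ψ (ev k)) := fun {i k} hik =>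
    h.inc.inc _ _ (ev_ne_zero i) (ev_ne_zero k) (dot_ne hik)
  refine ⟨?_, ?_, ?_, ?_⟩
  · exact i1 (i := 0) (k := 2) (by decide) _ (mem_supp_of_factor (e := ![0, 1]) (by decide)
      (fun f _ => ⟨1, (Φ (ev 1)).E (f 2) * (Ψ (ev 0)).E (f 3) * (Φ (ev 2)).E (f 4), by
        simp [W5, mul_assoc]⟩) hz)
  · rw [dotProduct_comm]
    exact (i1 (i := 1) (k := 2) (by decide)).symm _ (mem_supp_of_factor (e := ![1, 2]) (by decide)
      (fun f _ => ⟨(Φ (ev 0)).E (f 0), (Ψ (ev 0)).E (f 3) * (Φ (ev 2)).E (f 4), by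
        simp [W5, mul_assoc]⟩) hz)
  · exact i1 (i := 1) (k := 0) (by decide) _ (mem_supp_of_factor (e := ![2, 3]) (by decide)
      (fun f _ => ⟨(Φ (ev 0)).E (f 0) * (Ψ (ev 2)).E (f 1), (Φ (ev 2)).E (f 4), by
        simp [W5, mul_assoc]⟩) hz)
  · rw [dotProduct_comm]
    exact (i1 (i := 2) (k := 0) (by decide)).symm _ (mem_supp_of_factor (e := ![3, 4]) (by decide)
      (fun f _ => ⟨(Φ (ev 0)).E (f 0) * (Ψ (ev 2)).E (f 1) * (Φ (ev 1)).E (f 2), 1, by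
        simp [W5, mul_assoc]⟩) hz)

/-- a projective commutation relation between two one parameter groups is a Weyl relation -/
theorem phase [Nontrivial K] {u w : ℝ → K →L[ℂ] K} (hu : SCont u) (hw : SCont w)
    (ua : ∀ s t, u (s + t) = u s * u t) (wa : ∀ s t, w (s + t) = w s * w t)
    (un : ∀ s η, ‖u s η‖ = ‖η‖) (wn : ∀ s η, ‖w s η‖ = ‖η‖)
    (h : ∀ s t, ∃ c : ℂ, u s * w t = c • (w t * u s)) :
    ∃ θ : ℝ, ∀ s t, u s * w t = ex (θ * s * t) • (w t * u s) := by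
  choose χ hχ using h
  obtain ⟨ξ, hξ⟩ := exists_ne (0 : K)
  have hn : ‖ξ‖ ≠ 0 := norm_ne_zero_iff.2 hξ
  have hwu : ∀ s t, ‖(w t * u s) ξ‖ = ‖ξ‖ := fun s t => by rw [mul_apply_eq_comp, wn, un]
  have uniq : ∀ s t (c : ℂ), u s * w t = c • (w t * u s) → χ s t = c := fun s t c e =>
    smul_left_injective ℂ (m := w t * u s)
      (fun e0 => hn (by rw [← hwu s t, e0]; simp)) ((hχ s t).symm.trans e)
  have hc : Continuous fun p : ℝ × ℝ => χ p.1 p.2 := by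
    have cu : SCont fun p : ℝ × ℝ => u p.1 := ⟨fun η => (hu.1 η).comp continuous_fst,
      hu.2.imp fun C hC p => hC _⟩
    have cw : SCont fun p : ℝ × ℝ => w p.2 := ⟨fun η => (hw.1 η).comp continuous_snd,
      hw.2.imp fun C hC p => hC _⟩
    refine ((((cw.mul cu).1 ξ).inner (𝕜 := ℂ) ((cu.mul cw).1 ξ)).div_const
      ((‖ξ‖ : ℂ) ^ 2)).congr fun p => ?_
    simp only [hχ p.1 p.2, _root_.smul_apply, inner_smul_right, inner_self_eq_norm_sq_to_K, hwu]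
    exact mul_div_cancel_right₀ _ (pow_ne_zero 2 (Complex.ofReal_ne_zero.2 hn))
  obtain ⟨θ, hθ⟩ := exists_bichar hc (fun s s' t => uniq _ _ _ (by
      rw [ua, mul_assoc, hχ s' t, mul_smul_comm, ← mul_assoc, hχ s t, smul_mul_assoc, smul_smul,
        mul_comm (χ s' t), mul_assoc]))
    (fun s t t' => uniq _ _ _ (by
      rw [wa, ← mul_assoc, hχ s t, smul_mul_assoc, mul_assoc, hχ s t', mul_smul_comm, smul_smul,
        mul_assoc]))
    fun s t => by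
      have e := congrArg (fun T : K →L[ℂ] K => ‖T ξ‖) (hχ s t)
      simp only [_root_.smul_apply, norm_smul, mul_apply_eq_comp, un, wn] at e
      exact (mul_eq_right₀ hn).1 e.symm
  exact ⟨θ, fun s t => hθ s t ▸ hχ s t⟩

theorem sCont_lg (Q : POVM V K) : SCont fun t => Q.E (lg t) :=
  Q.sCont_E (C := 1) (fun t => (bm_lg t).meas) (fun t a => (norm_lg t a).le) fun a => by
    unfold lg; fun_prop

theorem lg_mul {Q : POVM V K} (hQ : Q.IsPVM) (s t : ℝ) :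
    Q.E (lg (s + t)) = Q.E (lg s) * Q.E (lg t) := by
  rw [← hQ _ _ (bm_lg s) (bm_lg t)]
  exact congrArg _ (funext (lg_add s t))

theorem lg_neg {Q : POVM V K} (hQ : Q.IsPVM) (s : ℝ) : Q.E (lg (-s)) * Q.E (lg s) = 1 := by
  rw [← lg_mul hQ, neg_add_cancel, ← Q.E_one]
  exact congrArg _ (funext fun a => by simp [lg])

theorem cz_neg {Q : POVM V K} (hQ : Q.IsPVM) (g : G) (s : ℝ) :
    Q.E (cz g s) * Q.E (cz g (-s)) = 1 := by
  rw [← hQ _ _ (bm_cz g s) (bm_cz g _), ← Q.E_one]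
  exact congrArg _ (funext fun a => by simp [cz, ← ex_add])

theorem alg {M : Type} [Monoid M] {u w u' w' a b a' b' : M} (ha : a * a' = 1) (hb : b * b' = 1)
    (aw : Commute a w) (ab : Commute a b) (au : Commute a u') (bu : Commute b u')
    (bw : Commute b w') : u * a * (w * b) * (u' * a') * (w' * b') = u * w * u' * w' := by
  calc _ = u * (a * (w * b * u')) * a' * (w' * b') := by simp only [mul_assoc]
    _ = u * w * (b * u') * (a * a') * (w' * b') := by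
      rw [((aw.mul_right ab).mul_right au).eq]; simp only [mul_assoc]
    _ = u * w * u' * (b * w') * b' := by rw [ha, bu.eq]; simp only [mul_assoc, one_mul]
    _ = _ := by rw [bw.eq]; simp only [mul_assoc, hb, mul_one]

theorem conj_mul {M : Type} [Monoid M] {r r' : M} (h : r' * r = 1) (X Y : M) :
    r * (X * Y) * r' = r * X * r' * (r * Y * r') := by
  simp only [mul_assoc, ← mul_assoc r' r, h, one_mul]

theorem commute_of_conj {M : Type} [Monoid M] {r r' X : M} (h : r' * r = 1)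
    (e : r * X * r' = X) : Commute X r := by
  have := congrArg (· * r) e
  simp only [mul_assoc, h, mul_one] at this
  exact this.symm

theorem scalar (h : Geo I I' L Φ Ψ A B sc sc') (s t : ℝ) : ∃ c : ℂ,
    (A (ev 0)).E (lg s) * (B (ev 2)).E (lg t) = c • ((B (ev 2)).E (lg t) * (A (ev 0)).E (lg s)) := by
  have n0 := ev_ne_zero 0
  have n2 := ev_ne_zero 2
  have d02 : ev 0 ⬝ᵥ ev 2 = 0 := dot_ne (by decide)
  have ρB : ∀ ν t, I.ρ ν * (B (ev 2)).E (lg t) * I.ρ ν⁻¹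
      = (B (ev 2)).E (lg t) * (Ψ (ev 2)).E (cz (ι (dl ν)⁻¹) t) := fun ν t => by
    have := h.lift'.ρ_lg n2 (dl ν) t
    rwa [h.dual.ρ_eq, h.dual.ρ_eq, dl_dl, map_inv, dl_dl] at this
  obtain ⟨c, hc⟩ := I.erg_Q (T := (A (ev 0)).E (lg s) * (B (ev 2)).E (lg t) *
      (A (ev 0)).E (lg (-s)) * (B (ev 2)).E (lg (-t)))
    ⟨Ind.mul_N (Ind.mul_N (Ind.mul_N (h.lift.mem n0 (bm_lg _)) (h.memB n2 (bm_lg _)))
      (h.lift.mem n0 (bm_lg _))) (h.memB n2 (bm_lg _)), fun ν =>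
      commute_of_conj (I.ρ.inv_mul_self ν) (by
        simp only [conj_mul (I.ρ.inv_mul_self ν), ρB, h.lift.ρ_lg n0]
        exact alg (cz_neg (h.pro.pvm _) _ _) (cz_neg (h.pro'.pvm _) _ _)
          (h.BΦ _ _ n0 n2 d02 _ _ (bm_cz _ _) (bm_lg _))
          (h.inc.comm _ _ n0 n2 d02 _ _ (bm_cz _ _) (bm_cz _ _))
          (h.lift.commute_Φ n0 (bm_lg _) (bm_cz _ _)).symm
          (h.AΨ _ _ n0 n2 d02 _ _ (bm_lg _) (bm_cz _ _)).symm
          (h.lift'.commute_Φ n2 (bm_lg _) (bm_cz _ _)).symm)⟩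
    (i := 0) (k := 2) (by decide) fun b => by
      have hA : ∀ s, Commute ((A (ev 0)).E (lg s)) (I.U (tv (show (0 : Fin 3) ≠ 2 by decide) b)) :=
        fun s => h.lift.commute_U n0 (by rw [ac_tv]; simp [ev]) (bm_lg s)
      have hB : ∀ s, Commute ((B (ev 2)).E (lg s)) (I.U (tv (show (0 : Fin 3) ≠ 2 by decide) b)) :=
        fun s => commute_of_conj (I.U.inv_mul_self _) (by
          rw [h.covB n2 (bm_lg s), dl_tv, ac_tv]; simp [ev])
      exact (((hA _).mul_left (hB _)).mul_left (hA _)).mul_left (hB _)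
  refine ⟨c, ?_⟩
  have := congrArg (· * ((B (ev 2)).E (lg t) * (A (ev 0)).E (lg s))) hc
  simp only [mul_assoc, ← mul_assoc ((B (ev 2)).E (lg (-t))), lg_neg (h.lift'.pvm _), one_mul,
    lg_neg (h.lift.pvm _), mul_one, smul_mul_assoc] at this
  exact this

theorem sCont_mul (Q : POVM V K) {g : V → ℂ} (hg : BM g) {φ : (Fin 18 → ℝ) → V → ℂ}
    (hm : ∀ w, Measurable (φ w)) (hb : ∀ w a, ‖φ w a‖ ≤ 1) (hc : ∀ a, Continuous fun w => φ w a) :
    SCont fun w => Q.E fun a => g a * φ w a := by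
  obtain ⟨C, hC0, hC⟩ := hg.exists_nonneg
  exact Q.sCont_E (C := C * 1) (fun w => hg.meas.mul (hm w)) (fun w a => by
    rw [norm_mul]; exact mul_le_mul (hC a) (hb w a) (norm_nonneg _) hC0)
    fun a => continuous_const.mul (hc a)

theorem hom0_mul {f g : V → ℂ} (hf : Hom0 f) (hg : Hom0 g) : Hom0 fun a => f a * g a :=
  fun z hz a => by simp only [hf z hz, hg z hz]

/-- an opposite pair inside a word -/
theorem opp (h : Geo I I' L Φ Ψ A B sc sc') : ∃ t₀ > (0 : ℝ), ∀ t, |t| < t₀ → ∃ z : ℂ, z ≠ 0 ∧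
    ∀ (i : Fin 3), ∀ θ > (0 : ℝ), ∀ c φ ψ, PRep θ t c φ ψ → ∀ g f : V → ℂ, BM g → Hom0 g →
      BM f → Hom0 f → (∀ b a, g b ≠ 0 → f a ≠ 0 → 2 * θ * (‖b‖ * ‖a‖) ≤ |b ⬝ᵥ a|) →
      ∀ S T : K →L[ℂ] K, Commute S ((B (ev i)).E (lg t)) → Commute T ((A (ev i)).E (lg t)) →
      (B (ev i)).E (lg t) * sInt volume c (fun w => S * ((Ψ (ev i)).E (fun b => g b * φ w b)
        * (Φ (ev i)).E fun a => f a * ψ w a) * T) * (A (ev i)).E (lg t)
        = z • (S * ((Ψ (ev i)).E g * (Φ (ev i)).E f) * T) := by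
  obtain ⟨t₀, ht₀, H⟩ := h.s8
  refine ⟨t₀, ht₀, fun t ht => ?_⟩
  obtain ⟨z, hz, H⟩ := H t ht
  refine ⟨z, hz, fun i θ hθ c φ ψ hp g f hg hg0 hf hf0 hs S T hS hT => ?_⟩
  have e := H (ev i) (ev i) (by simp [ev_dot_ev]) θ hθ c φ ψ hp g f hg hf hs
  have bφ : ∀ w, BM (fun b => g b * φ w b) ∧ Hom0 fun b => g b * φ w b := fun w =>
    ⟨hg.mul (BM.of_le (hp.measφ w) (hp.bdφ w)), hom0_mul hg0 (hp.homφ w)⟩
  have bψ : ∀ w, BM (fun a => f a * ψ w a) ∧ Hom0 fun a => f a * ψ w a := fun w =>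
    ⟨hf.mul (BM.of_le (hp.measψ w) (hp.bdψ w)), hom0_mul hf0 (hp.homψ w)⟩
  have e1 : ∀ w, (B (ev i)).E (fun b => g b * lg t b * φ w b)
      = (B (ev i)).E (lg t) * (Ψ (ev i)).E fun b => g b * φ w b := fun w => by
    rw [← (refA h.symm).right i (bm_lg t) (bφ w)]
    exact congrArg _ (funext fun b => by ring)
  have e2 : ∀ w, (A (ev i)).E (fun a => f a * lg t a * ψ w a)
      = (Φ (ev i)).E (fun a => f a * ψ w a) * (A (ev i)).E (lg t) := fun w => by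
    rw [← (refA h).left i (bm_lg t) (bψ w)]
    exact congrArg _ (funext fun b => by ring)
  have hX := (sCont_mul (Ψ (ev i)) hg hp.measφ hp.bdφ hp.contφ).mul
    (sCont_mul (Φ (ev i)) hf hp.measψ hp.bdψ hp.contψ)
  simp only [e1, e2, h.lift.hom0 (ev_ne_zero i) hf hf0, h.lift'.hom0 (ev_ne_zero i) hg hg0,
    mul_assoc ((B (ev i)).E (lg t)), ← mul_assoc ((Ψ (ev i)).E _)] at e
  rw [← mul_sInt hp.int (hX.mul (SCont.const _)), ← sInt_mul hp.int hX] at e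
  rw [← sInt_mul hp.int ((SCont.const S).mul hX), ← mul_sInt hp.int hX, ← smul_mul_assoc,
    ← mul_smul_comm, ← e]
  simp only [← mul_assoc, hS.eq]
  simp only [mul_assoc, hT.eq]

theorem two_orders {Ω : Type} [TopologicalSpace Ω] [SecondCountableTopology Ω] [MeasurableSpace Ω]
    [OpensMeasurableSpace Ω] {m : Measure Ω} [SFinite m] {c c' : Ω → ℂ} (hc : Integrable c m)
    (hc' : Integrable c' m) {F : Ω → Ω → K →L[ℂ] K} (hF : SCont fun p : Ω × Ω => F p.1 p.2)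
    {F₁ F₂ : Ω → K →L[ℂ] K} (hF₁ : SCont F₁) (hF₂ : SCont F₂) {W u w u' w' : K →L[ℂ] K} {z z' : ℂ}
    (h₁ : ∀ ω, u * sInt m c' (F ω) * w = z' • F₁ ω) (h₁' : w' * sInt m c F₁ * u' = z • W)
    (h₂ : ∀ ω', w' * sInt m c (fun ω => F ω ω') * u' = z • F₂ ω')
    (h₂' : u * sInt m c' F₂ * w = z' • W) :
    ∃ D, w' * (u * D * w) * u' = (z * z') • W ∧ u * (w' * D * u') * w = (z * z') • W := by
  have s₁ := sCont_sInt hc' hF
  have s₂ : SCont fun ω' => sInt m c fun ω => F ω ω' := sCont_sInt (F := fun ω' ω => F ω ω') hc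
    ⟨fun η => (hF.1 η).comp continuous_swap, hF.2.imp fun C hC p => hC p.swap⟩
  refine ⟨sInt m c fun ω => sInt m c' (F ω), ?_, ?_⟩
  · rw [mul_sInt hc s₁, sInt_mul hc ((SCont.const _).mul s₁)]
    simp only [h₁]
    rw [Py.sInt_smul hc hF₁, mul_smul_comm, smul_mul_assoc, h₁', smul_smul, mul_comm]
  · rw [sInt_swap hc hc' hF, mul_sInt hc' s₂, sInt_mul hc' ((SCont.const _).mul s₂)]
    simp only [h₂]
    rw [Py.sInt_smul hc' hF₂, mul_smul_comm, smul_mul_assoc, h₂', smul_smul]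

theorem eq_zero_of_ex {a t₀ : ℝ} (ht₀ : 0 < t₀) (h : ∀ t, |t| < t₀ → ex (a * t) = 1) : a = 0 := by
  have h1 : 0 < 1 / (|a| + 1) := by positivity
  set t := min (t₀ / 2) (1 / (|a| + 1)) with ht
  have t0 : 0 < t := lt_min (half_pos ht₀) h1
  have e := congrArg Complex.re (h t (by
    rw [abs_of_pos t0]; exact (min_le_left _ _).trans_lt (half_lt_self ht₀)))
  rw [ex, mul_comm, Complex.exp_ofReal_mul_I_re, Complex.one_re] at e
  have b : |a * t| < 1 := by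
    rw [abs_mul, abs_of_pos t0]
    refine (mul_le_mul_of_nonneg_left (min_le_right _ _) (abs_nonneg a)).trans_lt ?_
    rw [mul_one_div, div_lt_one (by positivity)]
    linarith
  have := Real.pi_gt_three
  rw [abs_lt] at b
  exact (mul_eq_zero.1 ((Real.cos_eq_one_iff_of_lt_of_lt (by linarith) (by linarith)).1
    e)).resolve_right t0.ne'

end Ccr

open Ccr

/-- nondegenerate points are dense in the support -/
theorem Geo.nd5 (h : Geo I I' L Φ Ψ A B sc sc') {z : Fin 5 → V} (hz : z ∈ supp (W5 A B))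
    (h0 : ∀ i, z i ≠ 0) : z ∈ closure {z' ∈ supp (W5 A B) | (∀ i, z' i ≠ 0) ∧
      z' 0 ⨯₃ z' 2 ≠ 0 ∧ z' 2 ⨯₃ z' 4 ≠ 0 ∧ z' 1 ⨯₃ z' 3 ≠ 0} :=
  Ccr.nd5 h (refA h) (refA h.symm) hz h0

theorem Geo.nd5' (h : Geo I I' L Φ Ψ A B sc sc') : ∃ z ∈ supp (W5 Φ Ψ), (∀ i, z i ≠ 0) ∧
    z 1 ⬝ᵥ z 4 ≠ 0 ∧ z 0 ⬝ᵥ z 3 ≠ 0 := by
  have := I.nontrivial
  obtain ⟨z, hz, h0⟩ := exists_mem_supp_word
    (P := ![Φ (ev 0), Ψ (ev 2), Φ (ev 1), Ψ (ev 0), Φ (ev 2)]) fun i => by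
      fin_cases i
      exacts [(h.pro.proj _).sym, (h.pro'.proj _).sym, (h.pro.proj _).sym, (h.pro'.proj _).sym,
        (h.pro.proj _).sym]
  obtain ⟨w, hw, w0, c1, c2, c3⟩ :=
    closure_nonempty_iff.1 ⟨z, Ccr.nd5 h (refΦ h) (refΦ h.symm) hz h0⟩
  obtain ⟨i1, i2, i3, i4⟩ := inc_of_supp h hw
  exact ⟨w, hw, w0, fun e => c3 (cross_eq_zero c2 i2 (by rwa [dotProduct_comm]) i3 i4),
    fun e => c3 (cross_eq_zero c1 i1 i2 e i3)⟩

/-- a nonzero five letter word localised off the incidence variety -/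
theorem Ccr.exists_loc (h : Geo I I' L Φ Ψ A B sc sc') : ∃ θ > (0 : ℝ), ∃ θ' > (0 : ℝ),
    ∃ f : Fin 5 → V → ℂ, (∀ k, BM (f k) ∧ Hom0 (f k)) ∧ W5 Φ Ψ f ≠ 0 ∧
      (∀ b a, f 1 b ≠ 0 → f 4 a ≠ 0 → 2 * θ * (‖b‖ * ‖a‖) ≤ |b ⬝ᵥ a|) ∧
      ∀ b a, f 0 b ≠ 0 → f 3 a ≠ 0 → 2 * θ' * (‖b‖ * ‖a‖) ≤ |b ⬝ᵥ a| := by
  obtain ⟨z, hz, h0, h1, h2⟩ := h.nd5'
  obtain ⟨θ, hθ, O₁, hO₁, O₄, hO₄, H⟩ := exists_ni h1
  obtain ⟨θ', hθ', O₀, hO₀, O₃, hO₃, H'⟩ := exists_ni h2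
  let O : Fin 5 → Set V := ![O₀, O₁, Set.univ, O₃, O₄]
  have hO : ∀ k, O k ∩ {0}ᶜ ∈ 𝓝 (z k) := fun k =>
    inter_mem (by fin_cases k; exacts [hO₀, hO₁, univ_mem, hO₃, hO₄])
      (isOpen_compl_singleton.mem_nhds (h0 k))
  obtain ⟨f, hf⟩ := not_forall.1 (hz _ hO)
  obtain ⟨hf, hf0, hW⟩ : (∀ k, BM (f k)) ∧ (∀ k y, y ∉ O k ∩ {0}ᶜ → f k y = 0) ∧ W5 Φ Ψ f ≠ 0 := by
    simpa only [Classical.not_imp] using hf
  have hc : ∀ k a, f k (sg (nrm a)) ≠ 0 → a ∈ cone (O k) := fun k a ha =>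
    Ap2.cone_mono Set.inter_subset_left
      (mem_cone_of_sg_nrm (fun h0 => h0.2 rfl) (not_not.1 fun e => ha (hf0 k _ e)))
  refine ⟨θ / 2, half_pos hθ, θ' / 2, half_pos hθ', fun k a => f k (sg (nrm a)),
    fun k => ⟨(hf k).sg_nrm, hom0_sg_nrm _⟩, ?_, fun b a hb ha => ?_, fun b a hb ha => ?_⟩
  · simpa only [W5, word_five, ← h.pro.conc _ _ (hf _), ← h.pro'.conc _ _ (hf _)] using hW
  · rw [mul_div_cancel₀ _ two_ne_zero]
    exact H b (hc 1 b hb) a (hc 4 a ha)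
  · rw [mul_div_cancel₀ _ two_ne_zero]
    exact H' b (hc 0 b hb) a (hc 3 a ha)

/-- the commutation phase -/
theorem Geo.exists_phase (h : Geo I I' L Φ Ψ A B sc sc') : ∃ θ : ℝ, ∀ x y : V, x ≠ 0 → y ≠ 0 →
    x ⬝ᵥ y = 0 → ∀ s t, (A x).E (lg s) * (B y).E (lg t)
      = ex (θ * s * t) • ((B y).E (lg t) * (A x).E (lg s)) := by
  have := I.nontrivial
  obtain ⟨θ, hθ⟩ := phase (sCont_lg (A (ev 0))) (sCont_lg (B (ev 2))) (lg_mul (h.lift.pvm _))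
    (lg_mul (h.lift'.pvm _))
    (fun s η => ContinuousLinearMap.norm_map_of_mem_unitary (h.lift.lg_unitary _ s) η)
    (fun s η => ContinuousLinearMap.norm_map_of_mem_unitary (h.lift'.lg_unitary _ s) η) (scalar h)
  refine ⟨θ, fun x y hx hy hxy s t => ?_⟩
  obtain ⟨g, rfl, rfl⟩ := exists_ac_flag hx hy hxy
  rw [← h.lift.covU _ (ev_ne_zero 0) _ (bm_lg s), ← h.covB (ev_ne_zero 2) (bm_lg t),
    ← conj_mul (I.U.inv_mul_self g), ← conj_mul (I.U.inv_mul_self g), hθ, mul_smul_comm,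
    smul_mul_assoc]

/-- lifts commute on flags -/
theorem Geo.AB_inc (h : Geo I I' L Φ Ψ A B sc sc') {x y : V} (hx : x ≠ 0) (hy : y ≠ 0)
    (hxy : x ⬝ᵥ y = 0) {f g : V → ℂ} (hf : BM f) (hg : BM g) :
    Commute ((A x).E f) ((B y).E g) := by
  obtain ⟨θ, hθ⟩ := h.exists_phase
  suffices θ = 0 by
    subst this
    refine h.lift'.commute_of hy (fun g hg => h.AΨ x y hx hy hxy f g hf hg) (fun t => ?_) hg
    refine (h.lift.commute_of hx (fun g hg => (h.BΦ x y hx hy hxy g _ hg (bm_lg t)).symm)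
      (fun s => Commute.symm ?_) hf).symm
    simpa [commute_iff_eq] using hθ x y hx hy hxy s t
  obtain ⟨θ₁, p₁, θ₂, p₂, f, hf, hW, s₁, s₂⟩ := exists_loc h
  obtain ⟨t₀, ht₀, H⟩ := Ccr.opp h
  obtain ⟨s₀, hs₀, H'⟩ := Ccr.opp h.symm
  have n := ev_ne_zero
  have d : ∀ {i k : Fin 3}, i ≠ k → ev i ⬝ᵥ ev k = 0 := dot_ne
  have key : ∀ s, |s| < s₀ → ∀ t, |t| < t₀ → ex (θ * s * t + θ * t * s) = 1 := fun s hs t ht => by
    obtain ⟨z, hz, H⟩ := H t ht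
    obtain ⟨z', hz', H'⟩ := H' s hs
    obtain ⟨c, φ, ψ, hp⟩ := exists_pRep p₁ t
    obtain ⟨c', φ', ψ', hp'⟩ := exists_pRep p₂ s
    let Y : (V → ℂ) → (V → ℂ) → (V → ℂ) → (V → ℂ) → K →L[ℂ] K := fun a b c d =>
      (Φ (ev 0)).E a * (Ψ (ev 2)).E b * (Φ (ev 1)).E (f 2) * (Ψ (ev 0)).E c * (Φ (ev 2)).E d
    have r₁ : ∀ a b c d, BM b → BM c → BM d → Y a b c d = (Φ (ev 0)).E a * (Φ (ev 1)).E (f 2) *
        ((Ψ (ev 2)).E b * (Φ (ev 2)).E d) * (Ψ (ev 0)).E c := fun a b c d hb hc hd => by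
      simp only [Y, mul_assoc, (refΦ h).swap (i := 1) (k := 2) (by decide) (hf 2).1 hb,
        (h.inc.comm _ _ (n 2) (n 0) (dot_ne (by decide)) d c hd hc).eq]
    have r₂ : ∀ a b c d, BM a → BM b → BM c → Y a b c d = (Ψ (ev 2)).E b * ((Φ (ev 0)).E a *
        (Ψ (ev 0)).E c) * ((Φ (ev 1)).E (f 2) * (Φ (ev 2)).E d) := fun a b c d ha hb hc => by
      simp only [Y, mul_assoc, (refΦ h).swap (i := 0) (k := 2) (by decide) ha hb,
        (refΦ h).swap (i := 1) (k := 0) (by decide) (hf 2).1 hc]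
    have bm : ∀ k {φ : V → ℂ}, Measurable φ → (∀ a, ‖φ a‖ ≤ 1) → BM fun a => f k a * φ a :=
      fun k φ h1 h2 => (hf k).1.mul (BM.of_le h1 h2)
    have K₁ : ∀ a c₃, BM a → BM c₃ → (B (ev 2)).E (lg t) * sInt volume c (fun w =>
        Y a (fun b => f 1 b * φ w b) c₃ fun b => f 4 b * ψ w b) * (A (ev 2)).E (lg t)
        = z • Y a (f 1) c₃ (f 4) := fun a c₃ ha hc => by
      simp only [r₁ a _ c₃ _ (bm 1 (hp.measφ _) (hp.bdφ _)) hc (bm 4 (hp.measψ _) (hp.bdψ _)),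
        r₁ a _ c₃ _ (hf 1).1 hc (hf 4).1]
      exact H 2 θ₁ p₁ c φ ψ hp _ _ (hf 1).1 (hf 1).2 (hf 4).1 (hf 4).2 s₁ _ _
        ((h.BΦ _ _ (n 0) (n 2) (d (by decide)) _ _ ha (bm_lg t)).mul_left
          (h.BΦ _ _ (n 1) (n 2) (d (by decide)) _ _ (hf 2).1 (bm_lg t)))
        (h.AΨ _ _ (n 2) (n 0) (d (by decide)) _ _ (bm_lg t) hc).symm
    have K₂ : ∀ b d₄, BM b → BM d₄ → (A (ev 0)).E (lg s) * sInt volume c' (fun w =>
        Y (fun a => f 0 a * φ' w a) b (fun a => f 3 a * ψ' w a) d₄) * (B (ev 0)).E (lg s)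
        = z' • Y (f 0) b (f 3) d₄ := fun b d₄ hb hd => by
      simp only [r₂ _ b _ d₄ (bm 0 (hp'.measφ _) (hp'.bdφ _)) hb (bm 3 (hp'.measψ _) (hp'.bdψ _)),
        r₂ _ b _ d₄ (hf 0).1 hb (hf 3).1]
      exact H' 0 θ₂ p₂ c' φ' ψ' hp' _ _ (hf 0).1 (hf 0).2 (hf 3).1 (hf 3).2 s₂ _ _
        (h.AΨ _ _ (n 0) (n 2) (d (by decide)) _ _ (bm_lg s) hb).symm
        ((h.BΦ _ _ (n 1) (n 0) (d (by decide)) _ _ (hf 2).1 (bm_lg s)).mul_left
          (h.BΦ _ _ (n 2) (n 0) (d (by decide)) _ _ hd (bm_lg s)))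
    have c₀ := sCont_mul (Φ (ev 0)) (hf 0).1 hp'.measφ hp'.bdφ hp'.contφ
    have c₁ := sCont_mul (Ψ (ev 2)) (hf 1).1 hp.measφ hp.bdφ hp.contφ
    have c₃ := sCont_mul (Ψ (ev 0)) (hf 3).1 hp'.measψ hp'.bdψ hp'.contψ
    have c₄ := sCont_mul (Φ (ev 2)) (hf 4).1 hp.measψ hp.bdψ hp.contψ
    have fst : ∀ {F : (Fin 18 → ℝ) → K →L[ℂ] K}, SCont F →
        SCont fun p : (Fin 18 → ℝ) × (Fin 18 → ℝ) => F p.1 := fun hF =>
      ⟨fun η => (hF.1 η).comp continuous_fst, hF.2.imp fun C hC p => hC _⟩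
    have snd : ∀ {F : (Fin 18 → ℝ) → K →L[ℂ] K}, SCont F →
        SCont fun p : (Fin 18 → ℝ) × (Fin 18 → ℝ) => F p.2 := fun hF =>
      ⟨fun η => (hF.1 η).comp continuous_snd, hF.2.imp fun C hC p => hC _⟩
    obtain ⟨D, e₁, e₂⟩ := two_orders hp.int hp'.int
      (F := fun w w' => Y (fun a => f 0 a * φ' w' a) (fun b => f 1 b * φ w b)
        (fun a => f 3 a * ψ' w' a) fun b => f 4 b * ψ w b)
      (((((snd c₀).mul (fst c₁)).mul (SCont.const _)).mul (snd c₃)).mul (fst c₄))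
      (((((SCont.const _).mul c₁).mul (SCont.const _)).mul (SCont.const _)).mul c₄)
      ((((c₀.mul (SCont.const _)).mul (SCont.const _)).mul c₃).mul (SCont.const _))
      (fun w => K₂ _ _ (bm 1 (hp.measφ _) (hp.bdφ _)) (bm 4 (hp.measψ _) (hp.bdψ _)))
      (K₁ _ _ (hf 0).1 (hf 3).1)
      (fun w => K₁ _ _ (bm 0 (hp'.measφ _) (hp'.bdφ _)) (bm 3 (hp'.measψ _) (hp'.bdψ _)))
      (K₂ _ _ (hf 1).1 (hf 4).1)
    have e₃ : (z * z') • Y (f 0) (f 1) (f 3) (f 4)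
        = (ex (θ * s * t + θ * t * s) * (z * z')) • Y (f 0) (f 1) (f 3) (f 4) := by
      rw [mul_smul (ex _), ← e₂]
      nth_rewrite 2 [e₂]
      rw [← e₁]
      simp only [← mul_assoc, hθ _ _ (n 0) (n 2) (d (by decide)) s t]
      simp only [mul_assoc, hθ _ _ (n 2) (n 0) (d (by decide)) t s, smul_mul_assoc, mul_smul_comm,
        smul_smul, ex_add]
    have hY : Y (f 0) (f 1) (f 3) (f 4) ≠ 0 := by simpa only [W5, word_five] using hW
    exact (mul_eq_right₀ (mul_ne_zero hz hz')).1 (smul_left_injective ℂ hY e₃).symm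
  have := eq_zero_of_ex (a := θ * s₀) ht₀ fun t ht => by
    rw [← key (s₀ / 2) (by rw [abs_of_pos (half_pos hs₀)]; exact half_lt_self hs₀) t ht]
    congr 1
    ring
  exact (mul_eq_zero.1 this).resolve_right hs₀.ne'

end Crest.Agent.N111
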