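import Crest.Agent.N111.F.S7
import Crest.Agent.N111.F.S8b

/-! # Row 111: no commutation phase on flags (helper54). -/

set_option autoImplicit false
set_option linter.unusedSectionVars false
set_option linter.unusedVariables false

namespace Crest.Agent.N111

open MeasureTheory Topology Filter Matrix
open scoped InnerProductSpace

variable {K : Type} [NormedAddCommGroup K] [InnerProductSpace ℂ K] [CompleteSpace K]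

variable {I I' : Ind K} {L : ℕ → ℝ} {Φ Ψ A B : V → POVM V K} {sc sc' : ℝ → ℝ}

namespace CcrB

/-- quantitative non-incidence -/
def Nin (θ : ℝ) (g f : V → ℂ) : Prop :=
  ∀ b a, g b ≠ 0 → f a ≠ 0 → 2 * θ * (‖b‖ * ‖a‖) ≤ |b ⬝ᵥ a|

theorem bm_m {g φ : V → ℂ} (hg : BM g) (hm : Measurable φ) (hb : ∀ a, ‖φ a‖ ≤ 1) :
    BM fun b => g b * φ b := hg.mul ⟨hm, 1, hb⟩

theorem sCont_m {Ω : Type} [TopologicalSpace Ω] [FirstCountableTopology Ω] (P : POVM V K)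
    {g : V → ℂ} (hg : BM g) {φ : Ω → V → ℂ}
    (hm : ∀ w, Measurable (φ w)) (hb : ∀ w a, ‖φ w a‖ ≤ 1) (hc : ∀ a, Continuous fun w => φ w a) :
    SCont fun w => P.E fun b => g b * φ w b := by
  obtain ⟨C, hC0, hC⟩ := hg.exists_nonneg
  refine P.sCont_E (C := C) (fun w => (bm_m hg (hm w) (hb w)).meas) (fun w a => ?_)
    fun a => continuous_const.mul (hc a)
  rw [norm_mul]
  exact (mul_le_of_le_one_right (norm_nonneg _) (hb w a)).trans (hC a)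

theorem lg_cancel (h : I.IsLift L Φ A sc) (x : V) (t : ℝ) :
    (A x).E (lg (-t)) * (A x).E (lg t) = 1 ∧ (A x).E (lg t) * (A x).E (lg (-t)) = 1 := by
  rw [← h.star_lg]
  exact Unitary.mem_iff.1 (h.lg_unitary x t)

/-- `S8` for projective functions -/
theorem s8p (h : Geo I I' L Φ Ψ A B sc sc') : ∃ t₀ > (0 : ℝ), ∀ t, |t| < t₀ → ∃ z : ℂ, z ≠ 0 ∧
    ∀ i : Fin 3, ∀ θ > (0 : ℝ), ∀ c φ ψ, PRep θ t c φ ψ → ∀ g f : V → ℂ, BM g → Hom0 g →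
      BM f → Hom0 f → Nin θ g f → ∀ S T : K →L[ℂ] K,
      sInt volume c (fun w => S * ((Ψ (ev i)).E (fun b => g b * φ w b)
        * (Φ (ev i)).E fun a => f a * ψ w a) * T) = z • (S * ((B (ev i)).E (lg (-t)) *
          ((Ψ (ev i)).E g * (Φ (ev i)).E f) * (A (ev i)).E (lg (-t))) * T) := by
  obtain ⟨t₀, ht₀, H⟩ := h.s8
  refine ⟨t₀, ht₀, fun t ht => ?_⟩
  obtain ⟨z, hz, H⟩ := H t ht
  refine ⟨z, hz, fun i θ hθ c φ ψ hr g f hg g0 hf f0 hn S T => ?_⟩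
  have e := H (ev i) (ev i) (by simp [ev_dot_ev]) θ hθ c φ ψ hr g f hg hf hn
  have hi := ev_ne_zero i
  have sc := (S8c.sCont_tw (B (ev i)) hg t hr.measφ hr.bdφ hr.contφ).mul
    (S8c.sCont_tw (A (ev i)) hf t hr.measψ hr.bdψ hr.contψ)
  have e' := congrArg (fun X => S * (B (ev i)).E (lg (-t)) * X * ((A (ev i)).E (lg (-t)) * T)) e
  rw [mul_sInt hr.int sc, sInt_mul hr.int ((SCont.const _).mul sc), h.lift'.hom0 hi hg g0,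
    h.lift.hom0 hi hf f0] at e'
  rw [show z • (S * ((B (ev i)).E (lg (-t)) * ((Ψ (ev i)).E g * (Φ (ev i)).E f) *
    (A (ev i)).E (lg (-t))) * T) = S * (B (ev i)).E (lg (-t)) *
      z • ((Ψ (ev i)).E g * (Φ (ev i)).E f) * ((A (ev i)).E (lg (-t)) * T) by
    simp only [mul_smul_comm, smul_mul_assoc, mul_assoc], ← e']
  congr 1
  funext w
  have b1 := bm_m hg (hr.measφ w) (hr.bdφ w)
  have b2 := bm_m hf (hr.measψ w) (hr.bdψ w)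
  have e1 : (B (ev i)).E (fun b => g b * lg t b * φ w b)
      = (B (ev i)).E (lg t) * (Ψ (ev i)).E fun b => g b * φ w b := by
    rw [← h.lift'.hom0 hi b1 fun z hz a => by simp only [g0 z hz a, hr.homφ w z hz a],
      ← h.lift'.pvm _ _ _ (bm_lg t) b1]
    congr 1
    funext b
    ring
  have e2 : (A (ev i)).E (fun a => f a * lg t a * ψ w a)
      = (Φ (ev i)).E (fun a => f a * ψ w a) * (A (ev i)).E (lg t) := by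
    rw [← h.lift.hom0 hi b2 fun z hz a => by simp only [f0 z hz a, hr.homψ w z hz a],
      ← h.lift.pvm _ _ _ b2 (bm_lg t)]
    congr 1
    funext b
    ring
  rw [e1, e2]
  simp only [mul_assoc]
  rw [← mul_assoc ((B (ev i)).E (lg (-t))), (lg_cancel h.lift' _ t).1, one_mul,
    ← mul_assoc ((A (ev i)).E (lg t)), (lg_cancel h.lift _ t).2, one_mul]

/-- the five letter word -/
noncomputable def W (Φ Ψ : V → POVM V K) (f₀ f₁ f₂ f₃ f₄ : V → ℂ) : K →L[ℂ] K :=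
  (Φ (ev 0)).E f₀ * (Ψ (ev 2)).E f₁ * (Φ (ev 1)).E f₂ * (Ψ (ev 0)).E f₃ * (Φ (ev 2)).E f₄

theorem dev {i k : Fin 3} (h : i ≠ k) : ev i ⬝ᵥ ev k = 0 := by simp [ev_dot_ev, h]

section
variable (h : Geo I I' L Φ Ψ A B sc sc') {i k : Fin 3} (hik : i ≠ k) {f g : V → ℂ} (hf : BM f)
  (hg : BM g)
include h hik hf hg

theorem cΦΨ : (Φ (ev i)).E f * (Ψ (ev k)).E g = (Ψ (ev k)).E g * (Φ (ev i)).E f :=
  h.inc.comm _ _ (ev_ne_zero i) (ev_ne_zero k) (dev hik) _ _ hf hg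
theorem cAΨ : (A (ev i)).E f * (Ψ (ev k)).E g = (Ψ (ev k)).E g * (A (ev i)).E f :=
  h.AΨ _ _ (ev_ne_zero i) (ev_ne_zero k) (dev hik) _ _ hf hg
theorem cΦB : (Φ (ev i)).E f * (B (ev k)).E g = (B (ev k)).E g * (Φ (ev i)).E f :=
  h.BΦ _ _ (ev_ne_zero i) (ev_ne_zero k) (dev hik) _ _ hf hg
end

theorem lc {R : Type} [Semigroup R] {a b : R} (h : a * b = b * a) (c : R) :
    a * (b * c) = b * (a * c) := by rw [← mul_assoc, h, mul_assoc]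

variable {f₀ f₁ f₂ f₃ f₄ : V → ℂ}

theorem W_eq1 (h : Geo I I' L Φ Ψ A B sc sc') (h₁ : BM f₁) (h₂ : BM f₂) (h₃ : BM f₃)
    (h₄ : BM f₄) : W Φ Ψ f₀ f₁ f₂ f₃ f₄ = (Φ (ev 0)).E f₀ * (Φ (ev 1)).E f₂ *
      ((Ψ (ev 2)).E f₁ * (Φ (ev 2)).E f₄) * (Ψ (ev 0)).E f₃ := by
  simp only [W, mul_assoc]
  rw [cΦΨ h (by decide : (2 : Fin 3) ≠ 0) h₄ h₃, lc (cΦΨ h (by decide : (1 : Fin 3) ≠ 2) h₂ h₁)]

theorem W_eq2 (h : Geo I I' L Φ Ψ A B sc sc') (h₀ : BM f₀) (h₁ : BM f₁) (h₂ : BM f₂)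
    (h₃ : BM f₃) : W Φ Ψ f₀ f₁ f₂ f₃ f₄ = (Ψ (ev 2)).E f₁ *
      ((Φ (ev 0)).E f₀ * (Ψ (ev 0)).E f₃) * ((Φ (ev 1)).E f₂ * (Φ (ev 2)).E f₄) := by
  simp only [W, mul_assoc]
  rw [lc (cΦΨ h (by decide : (0 : Fin 3) ≠ 2) h₀ h₁),
    lc (cΦΨ h (by decide : (1 : Fin 3) ≠ 0) h₂ h₃)]

theorem k1 (h : Geo I I' L Φ Ψ A B sc sc') : ∃ t₀ > (0 : ℝ), ∀ t, |t| < t₀ → ∃ z : ℂ, z ≠ 0 ∧
    ∀ θ > (0 : ℝ), ∀ c φ ψ, PRep θ t c φ ψ → ∀ f₀ f₁ f₂ f₃ f₄ : V → ℂ, BM f₀ → BM f₁ → BM f₂ →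
      BM f₃ → BM f₄ → Hom0 f₁ → Hom0 f₄ → Nin θ f₁ f₄ →
      sInt volume c (fun w => W Φ Ψ f₀ (fun b => f₁ b * φ w b) f₂ f₃ fun a => f₄ a * ψ w a)
        = z • ((B (ev 2)).E (lg (-t)) * W Φ Ψ f₀ f₁ f₂ f₃ f₄ * (A (ev 2)).E (lg (-t))) := by
  obtain ⟨t₀, ht₀, H⟩ := s8p h
  refine ⟨t₀, ht₀, fun t ht => ?_⟩
  obtain ⟨z, hz, H⟩ := H t ht
  refine ⟨z, hz, fun θ hθ c φ ψ hr f₀ f₁ f₂ f₃ f₄ h₀ h₁ h₂ h₃ h₄ g₁ g₄ hn => ?_⟩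
  have e := H 2 θ hθ c φ ψ hr f₁ f₄ h₁ g₁ h₄ g₄ hn ((Φ (ev 0)).E f₀ * (Φ (ev 1)).E f₂)
    ((Ψ (ev 0)).E f₃)
  rw [W_eq1 h h₁ h₂ h₃ h₄]
  simp only [fun w => W_eq1 (f₀ := f₀) h (bm_m h₁ (hr.measφ w) (hr.bdφ w)) h₂ h₃
    (bm_m h₄ (hr.measψ w) (hr.bdψ w))]
  rw [e]
  simp only [mul_assoc]
  rw [cAΨ h (by decide : (2 : Fin 3) ≠ 0) (bm_lg _) h₃,
    lc (cΦB h (by decide : (1 : Fin 3) ≠ 2) h₂ (bm_lg _)),
    lc (cΦB h (by decide : (0 : Fin 3) ≠ 2) h₀ (bm_lg _))]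

theorem k2 (h : Geo I I' L Φ Ψ A B sc sc') : ∃ t₀ > (0 : ℝ), ∀ t, |t| < t₀ → ∃ z : ℂ, z ≠ 0 ∧
    ∀ θ > (0 : ℝ), ∀ c φ ψ, PRep θ t c φ ψ → ∀ f₀ f₁ f₂ f₃ f₄ : V → ℂ, BM f₀ → BM f₁ → BM f₂ →
      BM f₃ → BM f₄ → Hom0 f₀ → Hom0 f₃ → Nin θ f₀ f₃ →
      sInt volume c (fun w => W Φ Ψ (fun b => f₀ b * φ w b) f₁ f₂ (fun a => f₃ a * ψ w a) f₄)
        = z • ((A (ev 0)).E (lg (-t)) * W Φ Ψ f₀ f₁ f₂ f₃ f₄ * (B (ev 0)).E (lg (-t))) := by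
  obtain ⟨t₀, ht₀, H⟩ := s8p h.symm
  refine ⟨t₀, ht₀, fun t ht => ?_⟩
  obtain ⟨z, hz, H⟩ := H t ht
  refine ⟨z, hz, fun θ hθ c φ ψ hr f₀ f₁ f₂ f₃ f₄ h₀ h₁ h₂ h₃ h₄ g₀ g₃ hn => ?_⟩
  have e := H 0 θ hθ c φ ψ hr f₀ f₃ h₀ g₀ h₃ g₃ hn ((Ψ (ev 2)).E f₁)
    ((Φ (ev 1)).E f₂ * (Φ (ev 2)).E f₄)
  rw [W_eq2 h h₀ h₁ h₂ h₃]
  simp only [fun w => W_eq2 (f₄ := f₄) h (bm_m h₀ (hr.measφ w) (hr.bdφ w)) h₁ h₂
    (bm_m h₃ (hr.measψ w) (hr.bdψ w))]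
  rw [e]
  simp only [mul_assoc]
  rw [cΦB h (by decide : (2 : Fin 3) ≠ 0) h₄ (bm_lg _),
    lc (cΦB h (by decide : (1 : Fin 3) ≠ 0) h₂ (bm_lg _)),
    lc (cAΨ h (by decide : (0 : Fin 3) ≠ 2) (bm_lg _) h₁)]

theorem Nin.mul {θ : ℝ} {g f : V → ℂ} (h : Nin θ g f) (φ ψ : V → ℂ) :
    Nin θ (fun b => g b * φ b) fun a => f a * ψ a := fun b a hb ha =>
  h b a (left_ne_zero_of_mul hb) (left_ne_zero_of_mul ha)

/-- the phase kills the word -/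
theorem phase_W (h : Geo I I' L Φ Ψ A B sc sc') {ϑ : ℝ}
    (hph : ∀ x y : V, x ≠ 0 → y ≠ 0 → x ⬝ᵥ y = 0 → ∀ s t, (A x).E (lg s) * (B y).E (lg t)
      = ex (ϑ * s * t) • ((B y).E (lg t) * (A x).E (lg s))) {θ θ' : ℝ} (hθ : 0 < θ) (hθ' : 0 < θ')
    (h₀ : BM f₀) (h₁ : BM f₁) (h₂ : BM f₂) (h₃ : BM f₃) (h₄ : BM f₄) (g₀ : Hom0 f₀)
    (g₁ : Hom0 f₁) (g₃ : Hom0 f₃) (g₄ : Hom0 f₄) (hn : Nin θ f₁ f₄) (hn' : Nin θ' f₀ f₃)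
    (hW : W Φ Ψ f₀ f₁ f₂ f₃ f₄ ≠ 0) : ϑ = 0 := by
  obtain ⟨t₀, ht₀, H⟩ := k1 h
  obtain ⟨s₀, hs₀, H'⟩ := k2 h
  obtain ⟨z', hz', H'⟩ := H' (s₀ / 2) (by rw [abs_of_pos (half_pos hs₀)]; exact half_lt_self hs₀)
  obtain ⟨c', φ', ψ', hr'⟩ := exists_pRep hθ' (s₀ / 2)
  have key : ∀ t, |t| < t₀ → ex (t * (ϑ * s₀)) = ex (t * 0) := fun t ht => by
    obtain ⟨z, hz, H⟩ := H t ht
    obtain ⟨c, φ, ψ, hr⟩ := exists_pRep hθ t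
    have sc : SCont fun p : (Fin 18 → ℝ) × (Fin 18 → ℝ) => W Φ Ψ (fun b => f₀ b * φ' p.2 b)
        (fun b => f₁ b * φ p.1 b) f₂ (fun a => f₃ a * ψ' p.2 a) fun a => f₄ a * ψ p.1 a :=
      (((((sCont_m _ h₀ hr'.measφ hr'.bdφ hr'.contφ).comp continuous_snd).mul
        ((sCont_m _ h₁ hr.measφ hr.bdφ hr.contφ).comp continuous_fst)).mul (SCont.const _)).mul
        ((sCont_m _ h₃ hr'.measψ hr'.bdψ hr'.contψ).comp continuous_snd)).mul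
        ((sCont_m _ h₄ hr.measψ hr.bdψ hr.contψ).comp continuous_fst)
    have s1 : SCont fun w => W Φ Ψ f₀ (fun b => f₁ b * φ w b) f₂ f₃ fun a => f₄ a * ψ w a :=
      ((((SCont.const _).mul (sCont_m _ h₁ hr.measφ hr.bdφ hr.contφ)).mul (SCont.const _)).mul
        (SCont.const _)).mul (sCont_m _ h₄ hr.measψ hr.bdψ hr.contψ)
    have s2 : SCont fun w => W Φ Ψ (fun b => f₀ b * φ' w b) f₁ f₂ (fun a => f₃ a * ψ' w a) f₄ :=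
      ((((sCont_m _ h₀ hr'.measφ hr'.bdφ hr'.contφ).mul (SCont.const _)).mul (SCont.const _)).mul
        (sCont_m _ h₃ hr'.measψ hr'.bdψ hr'.contψ)).mul (SCont.const _)
    have e := sInt_swap hr.int hr'.int (F := fun w w' => W Φ Ψ (fun b => f₀ b * φ' w' b)
      (fun b => f₁ b * φ w b) f₂ (fun a => f₃ a * ψ' w' a) fun a => f₄ a * ψ w a) sc
    simp only [fun w => H' θ' hθ' c' φ' ψ' hr' f₀ _ f₂ f₃ _ h₀ (bm_m h₁ (hr.measφ w) (hr.bdφ w))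
      h₂ h₃ (bm_m h₄ (hr.measψ w) (hr.bdψ w)) g₀ g₃ hn',
      fun w => H θ hθ c φ ψ hr _ f₁ f₂ _ f₄ (bm_m h₀ (hr'.measφ w) (hr'.bdφ w)) h₁ h₂
      (bm_m h₃ (hr'.measψ w) (hr'.bdψ w)) h₄ g₁ g₄ hn] at e
    rw [Py.sInt_smul hr.int (((SCont.const _).mul s1).mul (SCont.const _)),
      Py.sInt_smul hr'.int (((SCont.const _).mul s2).mul (SCont.const _)),
      ← sInt_mul hr.int ((SCont.const _).mul s1), ← mul_sInt hr.int s1,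
      ← sInt_mul hr'.int ((SCont.const _).mul s2), ← mul_sInt hr'.int s2,
      H θ hθ c φ ψ hr _ _ _ _ _ h₀ h₁ h₂ h₃ h₄ g₁ g₄ hn,
      H' θ' hθ' c' φ' ψ' hr' _ _ _ _ _ h₀ h₁ h₂ h₃ h₄ g₀ g₃ hn'] at e
    simp only [mul_smul_comm, smul_mul_assoc, smul_smul, mul_assoc] at e
    rw [hph _ _ (ev_ne_zero 2) (ev_ne_zero 0) (dev (by decide)), ← mul_assoc ((A (ev 0)).E _),
      hph _ _ (ev_ne_zero 0) (ev_ne_zero 2) (dev (by decide))] at e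
    simp only [mul_smul_comm, smul_mul_assoc, smul_smul, mul_assoc] at e
    have hX : (B (ev 2)).E (lg (-t)) * ((A (ev 0)).E (lg (-(s₀ / 2))) * (W Φ Ψ f₀ f₁ f₂ f₃ f₄ *
        ((B (ev 0)).E (lg (-(s₀ / 2))) * (A (ev 2)).E (lg (-t))))) ≠ 0 := fun e0 => by
      have := congrArg (fun X => (A (ev 0)).E (lg (s₀ / 2)) * ((B (ev 2)).E (lg t) * (X *
        ((A (ev 2)).E (lg t) * (B (ev 0)).E (lg (s₀ / 2)))))) e0
      simp only [mul_assoc, zero_mul, mul_zero] at this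
      rw [← mul_assoc ((B (ev 2)).E (lg t)), (lg_cancel h.lift' _ t).2, one_mul,
        ← mul_assoc ((A (ev 0)).E _), (lg_cancel h.lift _ _).2, one_mul,
        ← mul_assoc ((A (ev 2)).E _), (lg_cancel h.lift _ _).1, one_mul,
        (lg_cancel h.lift' _ _).1, mul_one] at this
      exact hW this
    have e2 := smul_left_injective ℂ hX e
    beta_reduce at e2
    rw [← ex_add, mul_comm z z'] at e2
    rw [mul_zero, ex_zero, ← mul_left_cancel₀ hz ((mul_left_cancel₀ hz' e2).trans (mul_one z).symm)]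
    congr 1
    ring
  exact (mul_eq_zero.1 (S8c.eq_of_ex ht₀ key)).resolve_right hs₀.ne'

end CcrB

open CcrB in
/-- lifts commute on flags -/
theorem Geo.AB_inc0 (h : Geo I I' L Φ Ψ A B sc sc')
    (hnd : ∃ z ∈ supp (word ![Φ (ev 0), Ψ (ev 2), Φ (ev 1), Ψ (ev 0), Φ (ev 2)]),
      (∀ i, z i ≠ 0) ∧ z 1 ⬝ᵥ z 4 ≠ 0 ∧ z 0 ⬝ᵥ z 3 ≠ 0)
    (hph : ∃ θ : ℝ, ∀ x y : V, x ≠ 0 → y ≠ 0 → x ⬝ᵥ y = 0 → ∀ s t,
      (A x).E (lg s) * (B y).E (lg t) = ex (θ * s * t) • ((B y).E (lg t) * (A x).E (lg s)))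
    {x y : V} (hx : x ≠ 0) (hy : y ≠ 0) (hxy : x ⬝ᵥ y = 0) {f g : V → ℂ} (hf : BM f) (hg : BM g) :
    Commute ((A x).E f) ((B y).E g) := by
  obtain ⟨ϑ, hph⟩ := hph
  obtain ⟨z, hz, h0, n1, n2⟩ := hnd
  obtain ⟨θ, hθ, O₁, hO₁, O₄, hO₄, hn⟩ := exists_ni n1
  obtain ⟨θ', hθ', O₀, hO₀, O₃, hO₃, hn'⟩ := exists_ni n2
  have hN := hz (fun i => ![O₀, O₁, Set.univ, O₃, O₄] i ∩ {0}ᶜ) fun i =>
    inter_mem (by fin_cases i <;> simp [*]) (isOpen_compl_singleton.mem_nhds (h0 i))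
  simp only [NullOn, not_forall] at hN
  obtain ⟨u, hu, hs, hW⟩ := hN
  have bu : ∀ i, BM fun a => u i (sg (nrm a)) := fun i =>
    (hu i).comp (measurable_sg.comp measurable_nrm)
  have mem : ∀ i a, u i (sg (nrm a)) ≠ 0 → a ∈ cone (![O₀, O₁, Set.univ, O₃, O₄] i) :=
    fun i a ha => Ap2.cone_mono Set.inter_subset_left
      (mem_cone_of_sg_nrm (fun h' => h'.2 rfl) (by_contra fun h' => ha (hs i _ h')))
  have hϑ : ϑ = 0 := by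
    refine phase_W h hph (half_pos hθ) (half_pos hθ') (bu 0) (bu 1) (bu 2) (bu 3) (bu 4)
      (hom0_sg_nrm _) (hom0_sg_nrm _) (hom0_sg_nrm _) (hom0_sg_nrm _) (fun b a hb ha => ?_)
      (fun b a hb ha => ?_) ?_
    · rw [mul_div_cancel₀ _ two_ne_zero]
      exact hn b (mem 1 b hb) a (mem 4 a ha)
    · rw [mul_div_cancel₀ _ two_ne_zero]
      exact hn' b (mem 0 b hb) a (mem 3 a ha)
    · rw [W, ← h.pro.conc _ _ (hu 0), ← h.pro'.conc _ _ (hu 1), ← h.pro.conc _ _ (hu 2),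
        ← h.pro'.conc _ _ (hu 3), ← h.pro.conc _ _ (hu 4)]
      rwa [word_five] at hW
  refine h.lift'.commute_of hy (fun g hg => h.AΨ x y hx hy hxy _ _ hf hg) (fun t => ?_) hg
  refine (h.lift.commute_of hx (fun g hg => (h.BΦ x y hx hy hxy _ _ hg (bm_lg t)).symm)
    (fun s => ?_) hf).symm
  have := hph x y hx hy hxy s t
  rw [hϑ, zero_mul, zero_mul, ex_zero, one_smul] at this
  exact this.symm

end Crest.Agent.N111
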