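import Crest.Agent.N111.E.Api

/-!
# Row 111, module F: the commutation phase (`Geo.exists_phase0`).
-/

set_option autoImplicit false
set_option linter.unusedSectionVars false
set_option linter.unusedVariables false

namespace Crest.Agent.N111

open MeasureTheory Topology Filter Matrix
open scoped InnerProductSpace

variable {K : Type} [NormedAddCommGroup K] [InnerProductSpace ℂ K] [CompleteSpace K]

variable {I I' : Ind K} {L : ℕ → ℝ} {Φ Ψ A B : V → POVM V K} {sc sc' : ℝ → ℝ}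

namespace CcrP

theorem lg_mul {P : POVM V K} (hP : P.IsPVM) (s t : ℝ) :
    P.E (lg (s + t)) = P.E (lg s) * P.E (lg t) := by
  rw [← hP _ _ (bm_lg s) (bm_lg t)]
  exact congrArg _ (funext (lg_add s t))

theorem lg_inv {P : POVM V K} (hP : P.IsPVM) (s : ℝ) : P.E (lg (-s)) * P.E (lg s) = 1 := by
  rw [← lg_mul hP, neg_add_cancel, ← P.E_one]
  congr 1
  funext a
  simp [lg]

theorem cz_inv {P : POVM V K} (hP : P.IsPVM) (g : G) (s : ℝ) :
    P.E (cz g s) * P.E (cz g (-s)) = 1 := by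
  rw [← hP _ _ (bm_cz g s) (bm_cz g (-s)), ← P.E_one]
  congr 1
  funext a
  rw [cz, cz, ← ex_add, neg_mul, add_neg_cancel, ex_zero]

theorem sCont_lg (P : POVM V K) {φ : ℝ × ℝ → ℝ} (hφ : Continuous φ) :
    SCont fun p => P.E (lg (φ p)) :=
  P.sCont_E (C := 1) (fun p => (bm_lg _).1) (fun p a => (norm_lg _ _).le) fun a => by
    unfold lg; fun_prop

theorem conj4 {Λ : Type*} [Group Λ] (ρ : URep Λ K) (g : Λ) (a b c d : K →L[ℂ] K) :
    ρ g * (a * b * c * d) * ρ g⁻¹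
      = ρ g * a * ρ g⁻¹ * (ρ g * b * ρ g⁻¹) * (ρ g * c * ρ g⁻¹) * (ρ g * d * ρ g⁻¹) := by
  simp only [mul_assoc, ← mul_assoc (ρ g⁻¹) (ρ g), URep.inv_mul_self, one_mul]

theorem scalar (h : Geo I I' L Φ Ψ A B sc sc') (s t : ℝ) : ∃ c : ℂ,
    (A (ev 0)).E (lg s) * (B (ev 2)).E (lg t) * (A (ev 0)).E (lg (-s)) * (B (ev 2)).E (lg (-t))
      = c • (1 : K →L[ℂ] K) := by
  have e := ev_ne_zero
  have d : ev 0 ⬝ᵥ ev 2 = 0 := by simp [ev_dot_ev]
  refine I.erg_Q ⟨Ind.mul_N (Ind.mul_N (Ind.mul_N (h.lift.mem (e 0) (bm_lg _))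
    (h.memB (e 2) (bm_lg _))) (h.lift.mem (e 0) (bm_lg _))) (h.memB (e 2) (bm_lg _)), fun ν => ?_⟩
    (show (0 : Fin 3) ≠ 2 by decide) fun b => ?_
  · have hB := fun t => h.lift'.ρ_lg (e 2) (dl ν) t
    simp only [h.dual.ρ_eq, ← map_inv, dl_dl] at hB
    have key := conj4 I.ρ ν ((A (ev 0)).E (lg s)) ((B (ev 2)).E (lg t)) ((A (ev 0)).E (lg (-s)))
      ((B (ev 2)).E (lg (-t)))
    rw [h.lift.ρ_lg (e 0), h.lift.ρ_lg (e 0), hB, hB] at key
    set c := (Φ (ev 0)).E (cz (ι ν⁻¹) s)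
    set c' := (Φ (ev 0)).E (cz (ι ν⁻¹) (-s))
    set q := (Ψ (ev 2)).E (cz (ι (dl ν⁻¹)) t)
    set q' := (Ψ (ev 2)).E (cz (ι (dl ν⁻¹)) (-t))
    have c1 : Commute c ((B (ev 2)).E (lg t)) := h.BΦ _ _ (e 0) (e 2) d _ _ (bm_cz _ _) (bm_lg _)
    have c2 : Commute c q := h.inc.comm _ _ (e 0) (e 2) d _ _ (bm_cz _ _) (bm_cz _ _)
    have c3 : Commute c ((A (ev 0)).E (lg (-s))) :=
      (h.lift.commute_Φ (e 0) (bm_lg _) (bm_cz _ _)).symm
    have c4 : Commute q ((A (ev 0)).E (lg (-s))) :=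
      (h.AΨ _ _ (e 0) (e 2) d _ _ (bm_lg _) (bm_cz _ _)).symm
    have c5 : Commute q ((B (ev 2)).E (lg (-t))) :=
      (h.lift'.commute_Φ (e 2) (bm_lg _) (bm_cz _ _)).symm
    have i1 : c * c' = 1 := cz_inv (h.pro.pvm _) _ _
    have i2 : q * q' = 1 := cz_inv (h.pro'.pvm _) _ _
    simp only [mul_assoc] at key
    rw [← mul_assoc c, c1.eq, mul_assoc, ← mul_assoc c, c2.eq, mul_assoc, ← mul_assoc c, c3.eq,
      mul_assoc, ← mul_assoc c, i1, one_mul, ← mul_assoc q, c4.eq, mul_assoc, ← mul_assoc q, c5.eq,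
      mul_assoc, i2, mul_one] at key
    have := congrArg (· * I.ρ ν) key
    simp only [mul_assoc, URep.inv_mul_self, mul_one] at this
    simpa only [Commute, SemiconjBy, mul_assoc] using this.symm
  · have a := fun s => h.lift.commute_U (e 0) (q := tv (show (0 : Fin 3) ≠ 2 by decide) b)
      (by simp [ac_tv, ev]) (bm_lg s)
    have b' := fun s => h.lift'.commute_U (e 2) (q := dl (tv (show (0 : Fin 3) ≠ 2 by decide) b))
      (by rw [dl_tv]; simp [ac_tv, ev]) (bm_lg s)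
    simp only [h.dual.U_eq, dl_dl] at b'
    exact (((a s).mul_left (b' t)).mul_left (a _)).mul_left (b' _)

end CcrP

/-- the commutation phase -/
theorem Geo.exists_phase0 (h : Geo I I' L Φ Ψ A B sc sc') : ∃ θ : ℝ, ∀ x y : V, x ≠ 0 → y ≠ 0 →
    x ⬝ᵥ y = 0 → ∀ s t, (A x).E (lg s) * (B y).E (lg t)
      = ex (θ * s * t) • ((B y).E (lg t) * (A x).E (lg s)) := by
  choose χ hχ using CcrP.scalar h
  have pA := h.lift.pvm (ev 0)
  have pB := h.lift'.pvm (ev 2)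
  have H : ∀ s t, (A (ev 0)).E (lg s) * (B (ev 2)).E (lg t)
      = χ s t • ((B (ev 2)).E (lg t) * (A (ev 0)).E (lg s)) := fun s t => by
    have := congrArg (· * ((B (ev 2)).E (lg t) * (A (ev 0)).E (lg s))) (hχ s t)
    simp only [mul_assoc, smul_mul_assoc, one_mul] at this
    rwa [← mul_assoc ((B (ev 2)).E (lg (-t))), CcrP.lg_inv pB, one_mul, CcrP.lg_inv pA, mul_one]
      at this
  have un : ∀ s t, (B (ev 2)).E (lg t) * (A (ev 0)).E (lg s) ∈ unitary (K →L[ℂ] K) := fun s t =>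
    mul_mem (h.lift'.lg_unitary _ t) (h.lift.lg_unitary _ s)
  have := I.nontrivial
  have inj : ∀ s t, Function.Injective fun c : ℂ => c • ((B (ev 2)).E (lg t) * (A (ev 0)).E (lg s)) :=
    fun s t => smul_left_injective ℂ fun e => I.one_ne_zero (by
      rw [← (Unitary.mem_iff.1 (un s t)).1, e, mul_zero])
  have hξ : (⟪I.ξ, I.ξ⟫_ℂ) ≠ 0 := inner_self_ne_zero.2 I.ξ_ne
  obtain ⟨θ, hθ⟩ := exists_bichar (χ := χ) (by
      have c := ((((CcrP.sCont_lg (A (ev 0)) continuous_fst).mul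
        (CcrP.sCont_lg (B (ev 2)) continuous_snd)).mul
        (CcrP.sCont_lg (A (ev 0)) continuous_fst.neg)).mul
        (CcrP.sCont_lg (B (ev 2)) continuous_snd.neg)).1 I.ξ
      refine ((continuous_const (y := I.ξ)).inner (𝕜 := ℂ) c).div_const ⟪I.ξ, I.ξ⟫_ℂ |>.congr
        fun p => ?_
      simp only [Pi.neg_apply]
      rw [hχ, div_eq_iff hξ]
      simp [inner_smul_right])
    (fun s s' t => inj (s + s') t (by
      beta_reduce
      rw [← H, CcrP.lg_mul pA, mul_assoc, H, mul_smul_comm, ← mul_assoc, H, smul_mul_assoc,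
        smul_smul, mul_comm (χ s' t), mul_assoc]))
    (fun s t t' => inj s (t + t') (by
      beta_reduce
      rw [← H, CcrP.lg_mul pB, ← mul_assoc, H, smul_mul_assoc, mul_assoc, H, mul_smul_comm,
        smul_smul, mul_assoc]))
    (fun s t => by
      have := congrArg norm (H s t)
      rwa [norm_smul, CStarRing.norm_of_mem_unitary (un s t), CStarRing.norm_of_mem_unitary
        (mul_mem (h.lift.lg_unitary _ s) (h.lift'.lg_unitary _ t)), mul_one, eq_comm] at this)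
  refine ⟨θ, fun x y hx hy hxy s t => ?_⟩
  obtain ⟨g, rfl, rfl⟩ := exists_ac_flag hx hy hxy
  have e : ∀ a b : K →L[ℂ] K, I.U g * a * I.U g⁻¹ * (I.U g * b * I.U g⁻¹)
      = I.U g * (a * b) * I.U g⁻¹ := fun a b => by
    simp only [mul_assoc, ← mul_assoc (I.U g⁻¹) (I.U g), URep.inv_mul_self, one_mul]
  rw [← h.lift.covU _ (ev_ne_zero 0) _ (bm_lg s), ← h.covB (ev_ne_zero 2) (bm_lg t), e, e, H, hθ,
    mul_smul_comm, smul_mul_assoc]

end Crest.Agent.N111
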