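import Crest.Agent.N111.D.Mid

/-! # Row 111: charts, flags, covers (first half of `F/Chart`). -/

set_option autoImplicit false
set_option linter.unusedSectionVars false
set_option linter.unusedVariables false

namespace Crest.Agent.N111

open MeasureTheory Topology Filter Matrix
open scoped InnerProductSpace

variable {K : Type} [NormedAddCommGroup K] [InnerProductSpace ℂ K] [CompleteSpace K]

/-- chart coordinate -/
noncomputable def tc (α β : V) (a : V) : ℝ := (β ⬝ᵥ a) / (α ⬝ᵥ a)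
/-- good points -/
def GA (α β : V) : Set V := {a | α ⬝ᵥ a ≠ 0 ∧ β ⬝ᵥ a ≠ 0}
/-- good lines -/
def GB (α β : V) : Set V := {b | (α ⨯₃ β) ⬝ᵥ b ≠ 0}

@[fun_prop] theorem measurable_tc (α β : V) : Measurable (tc α β) := by
  unfold tc dotProduct; fun_prop
theorem continuousOn_tc (α β : V) : ContinuousOn (tc α β) {a | α ⬝ᵥ a ≠ 0} :=
  ContinuousOn.div (by fun_prop) (by fun_prop) fun _ h => h
theorem tc_smul (α β : V) {z : ℝ} (hz : z ≠ 0) (a : V) : tc α β (z • a) = tc α β a := by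
  simp only [tc, dotProduct_smul, smul_eq_mul, mul_div_mul_left _ _ hz]
theorem tc_swap (α β a : V) : tc β α a = (tc α β a)⁻¹ := (inv_div _ _).symm
theorem tc_ac (g : G) (α β a : V) : tc (ac (dl g) α) (ac (dl g) β) (ac g a) = tc α β a := by
  simp only [tc, dotProduct_comm _ (ac g a), ac_dot_ac_dl, dotProduct_comm a]
theorem tc_sub {α β a a' : V} (h : α ⬝ᵥ a ≠ 0) (h' : α ⬝ᵥ a' ≠ 0) :
    tc α β a' - tc α β a = (α ⨯₃ β) ⬝ᵥ (a ⨯₃ a') / ((α ⬝ᵥ a) * (α ⬝ᵥ a')) := by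
  rw [cross_dot_cross, tc, tc]
  field_simp
theorem isOpen_GA (α β : V) : IsOpen (GA α β) :=
  (isOpen_ne_fun (by fun_prop) continuous_const).inter (isOpen_ne_fun (by fun_prop) continuous_const)
theorem isOpen_GB (α β : V) : IsOpen (GB α β) := isOpen_ne_fun (by fun_prop) continuous_const
theorem Ch1.hom0_ic {O : Set V} (h : ∀ z : ℝ, z ≠ 0 → ∀ a, z • a ∈ O ↔ a ∈ O) : Hom0 (ic O) :=
  fun z hz a => by classical simp only [ic_apply, h z hz a]
theorem hom0_ic_GA (α β : V) : Hom0 (ic (GA α β)) :=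
  Ch1.hom0_ic fun z hz a => by simp [GA, hz]
theorem hom0_ic_GB (α β : V) : Hom0 (ic (GB α β)) :=
  Ch1.hom0_ic fun z hz a => by simp [GB, hz]
theorem GA_eq (α β : V) : GA α β = {a | tc α β a ≠ 0} := by
  ext a; simp only [GA, tc, Set.mem_ofPred_eq, ne_eq, div_eq_zero_iff, not_or, and_comm]
/-- a generic vector -/
theorem Ch1.exists_generic {ι : Type} [Finite ι] (v : ι → V) (h : ∀ i, v i ≠ 0) :
    ∃ γ : V, ∀ i, γ ⬝ᵥ v i ≠ 0 := by
  obtain ⟨γ, hγ⟩ := Module.Dual.exists_forall_ne_zero_of_forall_exists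
    (fun i => dotProductBilin ℝ ℝ (v i)) fun i => ⟨v i, Pj.dot_ne (h i)⟩
  exact ⟨γ, fun i => by rw [dotProduct_comm]; exact hγ i⟩
/-- two points of a line have a common good chart -/
theorem exists_chart {a a' b : V} (ha : a ≠ 0) (ha' : a' ≠ 0) (hb : b ≠ 0) (h : a ⬝ᵥ b = 0)
    (h' : a' ⬝ᵥ b = 0) : ∃ α β, a ∈ GA α β ∧ a' ∈ GA α β ∧ b ∈ GB α β := by
  obtain ⟨α, hα⟩ := Ch1.exists_generic ![a, a'] fun i => by fin_cases i <;> assumption
  have h1 : b ⨯₃ α ≠ 0 := fun e => by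
    obtain ⟨t, ht⟩ := exists_smul_of_cross_eq_zero hb e
    exact hα 0 (by simp [ht, dotProduct_comm b, h])
  obtain ⟨β, hβ⟩ := Ch1.exists_generic ![a, a', b ⨯₃ α] fun i => by fin_cases i <;> assumption
  refine ⟨α, β, ⟨hα 0, hβ 0⟩, ⟨hα 1, hβ 1⟩, fun e => hβ 2 ?_⟩
  rw [dotProduct_comm, triple_product_permutation, triple_product_permutation] at e
  exact e
/-- the six standard charts -/
theorem exists_std_chart {a b : V} (ha : a ≠ 0) (hb : b ≠ 0) (h : a ⬝ᵥ b = 0) :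
    ∃ i k m : Fin 3, i ≠ k ∧ i ≠ m ∧ k ≠ m ∧ ‖b‖ = |b m| ∧ ‖a‖ ≤ 2 * |a i| := by
  obtain ⟨m, hm⟩ := exists_abs_eq_norm b
  have hb' : 0 < ‖b‖ := norm_pos_iff.2 hb
  have key : ∀ i k : Fin 3, i ≠ k → i ≠ m → k ≠ m → |a k| ≤ |a i| → ‖a‖ ≤ 2 * |a i| := by
    intro i k hik him hkm hle
    have e : a m * b m = -(a i * b i + a k * b k) := by
      rw [dotProduct, Fin.sum_univ_three] at h
      fin_cases i <;> fin_cases k <;> fin_cases m <;> simp at hik him hkm ⊢ <;> linarith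
    have h1 : |a m| * ‖b‖ ≤ 2 * |a i| * ‖b‖ := by
      have hi : |b i| ≤ ‖b‖ := norm_le_pi_norm b i
      have hk : |b k| ≤ ‖b‖ := norm_le_pi_norm b k
      calc |a m| * ‖b‖ = |a i * b i + a k * b k| := by rw [← hm, ← abs_mul, e, abs_neg]
        _ ≤ |a i| * |b i| + |a k| * |b k| := by rw [← abs_mul, ← abs_mul]; exact abs_add_le _ _
        _ ≤ |a i| * ‖b‖ + |a i| * ‖b‖ := by gcongr
        _ = _ := by ring
    have h2 := le_of_mul_le_mul_right h1 hb'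
    have h3 := abs_nonneg (a i)
    refine (pi_norm_le_iff_of_nonneg (by positivity)).2 fun j => ?_
    have : j = i ∨ j = k ∨ j = m := by omega
    rw [Real.norm_eq_abs]
    rcases this with rfl | rfl | rfl <;> linarith
  have d1 : m + 1 ≠ m + 2 ∧ m + 1 ≠ m ∧ m + 2 ≠ m := by fin_cases m <;> decide
  rcases le_total |a (m + 2)| |a (m + 1)| with H | H
  · exact ⟨m + 1, m + 2, m, d1.1, d1.2.1, d1.2.2, hm.symm, key _ _ d1.1 d1.2.1 d1.2.2 H⟩
  · exact ⟨m + 2, m + 1, m, d1.1.symm, d1.2.2, d1.2.1, hm.symm,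
      key _ _ d1.1.symm d1.2.2 d1.2.1 H⟩
theorem mem_std_chart {a b : V} (ha : a ≠ 0) (hb : b ≠ 0) {i k m : Fin 3} (hik : i ≠ k)
    (him : i ≠ m) (hkm : k ≠ m) (h₁ : ‖b‖ = |b m|) (h₂ : ‖a‖ ≤ 2 * |a i|) :
    a ∈ GA (ev i) (ev k + (3 : ℝ) • ev i) ∧ b ∈ GB (ev i) (ev k + (3 : ℝ) • ev i) ∧
      tc (ev i) (ev k + (3 : ℝ) • ev i) a ∈ Set.Icc (1 : ℝ) 5 := by
  have hi : a i ≠ 0 := fun e => ha (norm_le_zero_iff.1 (by simpa [e] using h₂))
  have hm : b m ≠ 0 := fun e => hb (norm_eq_zero.1 (by simpa [e] using h₁))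
  have e : tc (ev i) (ev k + (3 : ℝ) • ev i) a = a k / a i + 3 := by
    simp only [tc, add_dotProduct, smul_dotProduct, ev_dot, smul_eq_mul]
    field_simp
  have h3 : |a k / a i| ≤ 2 := by
    rw [abs_div, div_le_iff₀ (abs_pos.2 hi)]
    exact (norm_le_pi_norm a k).trans h₂
  have h4 : tc (ev i) (ev k + (3 : ℝ) • ev i) a ∈ Set.Icc (1 : ℝ) 5 := by
    rw [e]; constructor <;> linarith [abs_le.1 h3]
  refine ⟨?_, ?_, h4⟩
  · rw [GA_eq]; exact (zero_lt_one.trans_le h4.1).ne'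
  · fin_cases i <;> fin_cases k <;> fin_cases m <;>
      simp [GB, ev, cross_apply, dotProduct, Fin.sum_univ_three] at hik him hkm hm ⊢ <;> exact hm

/-- the word read in a chart -/
noncomputable def Wc (P : Fin 3 → POVM V K) (α β : V) (f : Fin 3 → ℝ → ℂ) : K →L[ℂ] K :=
  word P fun k a => f k (tc α β a)

theorem isPoly_Wc (P : Fin 3 → POVM V K) (α β : V) : IsPoly (Wc P α β) := by
  have := (isPoly_word P).comp (φ := fun _ => tc α β)
    (fun _ => measurable_tc α β) (u := fun _ _ => 1) fun _ => BM.one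
  simp only [one_mul] at this
  exact this
theorem norm_Wc_le (P : Fin 3 → POVM V K) (α β : V) {f : Fin 3 → ℝ → ℂ} (hf : ∀ k, Measurable (f k))
    (h : ∀ k y, ‖f k y‖ ≤ 1) : ‖Wc P α β f‖ ≤ 1 := by
  have e : ∀ k, ‖(P k).E fun a => f k (tc α β a)‖ ≤ 1 := fun k =>
    (P k).norm_E_le ((hf k).comp (measurable_tc α β)) zero_le_one fun _ => h k _
  simp only [Wc, word, List.ofFn_succ, List.ofFn_zero, List.prod_cons, List.prod_nil, mul_one]
  exact (norm_mul_le _ _).trans (mul_le_one₀ (e _) (norm_nonneg _)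
    ((norm_mul_le _ _).trans (mul_le_one₀ (e _) (norm_nonneg _) (e _))))

/-- the projection on the good flags -/
noncomputable def gd (P Ψ : POVM V K) (α β : V) : K →L[ℂ] K :=
  P.E (ic (GA α β)) * Ψ.E (ic (GB α β))

/-- a point on a line -/
structure Flag (P Ψ : POVM V K) : Prop where
  pvm : P.IsPVM
  pvm' : Ψ.IsPVM
  proj : P.Proj
  proj' : Ψ.Proj
  inc : Inc P Ψ
  comm : ∀ f h, BM f → BM h → Commute (P.E f) (Ψ.E h)

theorem Geo.flag {I I' : Ind K} {L : ℕ → ℝ} {Φ Ψ A B : V → POVM V K} {sc sc' : ℝ → ℝ}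
    (h : Geo I I' L Φ Ψ A B sc sc') {x y : V} (hx : x ≠ 0) (hy : y ≠ 0) (hxy : x ⬝ᵥ y = 0) :
    Flag (Φ x) (Ψ y) :=
  ⟨h.pro.pvm x, h.pro'.pvm y, h.pro.proj x, h.pro'.proj y, h.inc.inc x y hx hy hxy,
    h.inc.comm x y hx hy hxy⟩

variable {P₀ Ψ : POVM V K} {P : Fin 3 → POVM V K} {c : ℝ × ℝ → ℂ}

/-- the joint PVM of a flag lives on incident pairs of unit vectors -/
theorem Flag.exists_joint (h : Flag P₀ Ψ) : ∃ Q : POVM (V × V) K, Q.IsPVM ∧
    (∀ f g, BM f → BM g → Q.E (fun z => f z.1 * g z.2) = P₀.E f * Ψ.E g) ∧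
    Q.E (ic {z | ‖z.1‖ = 1 ∧ ‖z.2‖ = 1 ∧ z.1 ⬝ᵥ z.2 = 0}) = 1 := by
  obtain ⟨Q, hQ, hE⟩ := POVM.exists_joint h.pvm h.pvm' h.comm
  refine ⟨Q, hQ, hE, ?_⟩
  have hs := BM.ic Cv1.closed_sphere.measurableSet
  have hm : MeasurableSet {z : V × V | ‖z.1‖ = 1 ∧ ‖z.2‖ = 1 ∧ z.1 ⬝ᵥ z.2 = 0} :=
    ((isClosed_eq (by fun_prop) continuous_const).inter ((isClosed_eq (by fun_prop)
      continuous_const).inter (isClosed_eq (by fun_prop) continuous_const))).measurableSet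
  have e := hE _ _ hs hs
  rw [h.proj.sphere, h.proj'.sphere, mul_one] at e
  rw [← e]
  refine Q.E_congr_ae (BM.ic hm) ((hs.comp measurable_fst).mul (hs.comp measurable_snd)) fun η => ?_
  have h0 : Q.ν η {z | z.1 ⬝ᵥ z.2 = 0}ᶜ = 0 := measure_null_of_locally_null _ fun z hz => by
    have h1 : ![z.1, z.2] ∉ supp (word ![P₀, Ψ]) := fun h' => hz (h.inc _ h')
    simp only [supp, Set.mem_ofPred_eq, not_forall, not_not] at h1
    obtain ⟨O, hO, hn⟩ := h1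
    have m : ∀ k, MeasurableSet (interior (O k)) := fun k => isOpen_interior.measurableSet
    refine ⟨interior (O 0) ×ˢ interior (O 1), mem_nhdsWithin_of_mem_nhds
      (prod_mem_nhds (interior_mem_nhds.2 (hO 0)) (interior_mem_nhds.2 (hO 1))),
      Q.ν_eq_zero ((m 0).prod (m 1)) ?_⟩
    have h2 := hn (fun k => ic (interior (O k))) (fun k => BM.ic (m k))
      fun k y hy => ic_of_notMem fun h' => hy (interior_subset h')
    rw [word_two, ← hE _ _ (BM.ic (m 0)) (BM.ic (m 1))] at h2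
    rw [Set.prod_eq, ic_inter]
    simp only [ic_preimage, h2, _root_.zero_apply]
  filter_upwards [h0] with z hz
  classical
  simp only [ic_apply, Set.mem_ofPred_eq, show z.1 ⬝ᵥ z.2 = 0 from hz, and_true]
  split_ifs <;> simp_all
/-- finite covers by product sets give partitions of unity -/
theorem Flag.cover (h : Flag P₀ Ψ) {α : Type} [Fintype α] {S₀ T₀ : Set V} (hS₀ : MeasurableSet S₀)
    (hT₀ : MeasurableSet T₀) {S T : α → Set V} (hS : ∀ j, MeasurableSet (S j))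
    (hT : ∀ j, MeasurableSet (T j))
    (hc : ∀ a ∈ S₀, ∀ b ∈ T₀, ‖a‖ = 1 → ‖b‖ = 1 → a ⬝ᵥ b = 0 → ∃ j, a ∈ S j ∧ b ∈ T j) :
    ∃ E : α → K →L[ℂ] K, P₀.E (ic S₀) * Ψ.E (ic T₀) = ∑ j, P₀.E (ic (S j)) * Ψ.E (ic (T j)) * E j ∧
      ∀ j (Z : K →L[ℂ] K), (∀ f, BM f → Commute Z (P₀.E f)) → (∀ f, BM f → Commute Z (Ψ.E f)) →
        Commute Z (E j) := by
  classical
  obtain ⟨Q, hQ, hE, h1⟩ := h.exists_joint
  have b : ∀ {S T : Set V}, MeasurableSet S → MeasurableSet T →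
      BM fun z : V × V => ic S z.1 * ic T z.2 := fun hS hT =>
    ((BM.ic hS).comp measurable_fst).mul ((BM.ic hT).comp measurable_snd)
  have hN : ∀ z : V × V, ∑ j, ic (S j) z.1 * ic (T j) z.2
      = ((Finset.univ.filter fun j => z.1 ∈ S j ∧ z.2 ∈ T j).card : ℂ) := fun z => by
    simp only [ic_apply, Finset.card_filter, Nat.cast_sum, Nat.cast_ite, Nat.cast_one, Nat.cast_zero]
    exact Finset.sum_congr rfl fun j _ => by split_ifs <;> simp_all
  have bN : BM fun z : V × V => (∑ j, ic (S j) z.1 * ic (T j) z.2)⁻¹ :=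
    BM.of_le (BM.sum _ fun j _ => b (hS j) (hT j)).1.inv (C := 1) fun z => by
      rw [hN, norm_inv, Complex.norm_natCast]; exact Nat.cast_inv_le_one _
  have bw := (b hS₀ hT₀).mul bN
  have hm : MeasurableSet {z : V × V | ‖z.1‖ = 1 ∧ ‖z.2‖ = 1 ∧ z.1 ⬝ᵥ z.2 = 0} :=
    ((isClosed_eq (by fun_prop) continuous_const).inter ((isClosed_eq (by fun_prop)
      continuous_const).inter (isClosed_eq (by fun_prop) continuous_const))).measurableSet
  refine ⟨fun _ => Q.E fun z => ic S₀ z.1 * ic T₀ z.2 * (∑ j, ic (S j) z.1 * ic (T j) z.2)⁻¹, ?_,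
    fun _ Z h₁ h₂ => ?_⟩
  · rw [← hE _ _ (BM.ic hS₀) (BM.ic hT₀), Finset.sum_congr rfl fun j _ => by
      rw [← hE _ _ (BM.ic (hS j)) (BM.ic (hT j)), ← hQ _ _ (b (hS j) (hT j)) bw],
      ← Q.E_sum _ fun j _ => (b (hS j) (hT j)).mul bw]
    refine Q.E_congr_of_conc hm h1 (b hS₀ hT₀) (BM.sum _ fun j _ => (b (hS j) (hT j)).mul bw)
      fun z hz => ?_
    rw [← Finset.sum_mul]
    by_cases h₁ : z.1 ∈ S₀
    · by_cases h₂ : z.2 ∈ T₀
      · obtain ⟨j, hj⟩ := hc _ h₁ _ h₂ hz.1 hz.2.1 hz.2.2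
        have : ∑ j, ic (S j) z.1 * ic (T j) z.2 ≠ 0 := by
          rw [hN]
          exact Nat.cast_ne_zero.2 (Finset.card_ne_zero.2 ⟨j, by simpa using hj⟩)
        field_simp
      · simp only [ic_of_notMem h₂, mul_zero, zero_mul]
    · simp only [ic_of_notMem h₁, mul_zero, zero_mul]
  · have := (Q.isPoly1.mul Z 1).ext_prod (Q.isPoly1.mul 1 Z) (fun f g hf hg => by
      rw [hE f g hf hg, mul_one, one_mul]; exact ((h₁ f hf).mul_right (h₂ g hg)).eq) _ bw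
    rwa [mul_one, one_mul] at this
theorem Flag.eq_zero_of_gd (h : Flag P₀ Ψ) {T : K →L[ℂ] K} (e : ∀ α β, T * gd P₀ Ψ α β = 0) :
    T = 0 := by
  obtain ⟨E, hE, -⟩ := h.cover (α := Fin 3 × Fin 3) MeasurableSet.univ MeasurableSet.univ
    (S := fun j => GA (ev j.1) (ev j.2 + (3 : ℝ) • ev j.1))
    (T := fun j => GB (ev j.1) (ev j.2 + (3 : ℝ) • ev j.1))
    (fun j => (isOpen_GA _ _).measurableSet) (fun j => (isOpen_GB _ _).measurableSet)
    fun a _ b _ ha hb hab => by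
      have ha0 : a ≠ 0 := norm_ne_zero_iff.1 (by rw [ha]; exact one_ne_zero)
      have hb0 : b ≠ 0 := norm_ne_zero_iff.1 (by rw [hb]; exact one_ne_zero)
      obtain ⟨i, k, m, h1, h2, h3, h4, h5⟩ := exists_std_chart ha0 hb0 hab
      have := mem_std_chart ha0 hb0 h1 h2 h3 h4 h5
      exact ⟨(i, k), this.1, this.2.1⟩
  rw [ic_univ, P₀.E_one, Ψ.E_one, mul_one] at hE
  rw [← mul_one T, hE, Finset.mul_sum]
  exact Finset.sum_eq_zero fun j _ => by
    rw [← mul_assoc T]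
    exact mul_eq_zero_of_left (e _ _) _

end Crest.Agent.N111
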