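import Crest.Agent.N111.F.Inv
import Crest.Agent.N111.F.Aff
import Crest.Agent.N111.F.Chart1

/-! # Row 111: charts and chart independence (fill the proofs IN PLACE). -/

set_option autoImplicit false
set_option linter.unusedSectionVars false
set_option linter.unusedVariables false

namespace Crest.Agent.N111

open MeasureTheory Topology Filter Matrix
open scoped InnerProductSpace

variable {K : Type} [NormedAddCommGroup K] [InnerProductSpace ℂ K] [CompleteSpace K]

variable {P₀ Ψ : POVM V K} {P : Fin 3 → POVM V K} {c : ℝ × ℝ → ℂ}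

theorem chart_inv (hP : (P 2).IsPVM) (hc : Integrable c) (he : Ev c) (α β : V) :
    AvT atTop (fun l => (toi (Wc P β α) c l - toi (Wc P α β) c l) * (P 2).E (ic (GA α β))) 0 := by
  have h := toi_inv (P := fun i => (P i).map (tc α β) (measurable_tc α β))
    (hP.map _ (measurable_tc α β)) hc he
  have e1 : Wc P β α = fun f => word (fun i => (P i).map (tc α β) (measurable_tc α β))
      fun k t => f k t⁻¹ := by
    funext f
    simp only [Wc, tc_swap α β]
    rfl
  have e2 : ic (GA α β) = fun a => ic ({0}ᶜ : Set ℝ) (tc α β a) := by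
    funext a
    rw [GA_eq]
    rfl
  rw [e1, e2]
  exact h

namespace Ch2

variable {W W' W'' : (Fin 3 → ℝ → ℂ) → K →L[ℂ] K} {E : K →L[ℂ] K}

/-- the scale averages of `W` and `W'` agree on the range of `E` -/
def R (c : ℝ × ℝ → ℂ) (W W' : (Fin 3 → ℝ → ℂ) → K →L[ℂ] K) (E : K →L[ℂ] K) : Prop :=
  AvT atTop (fun l => (toi W' c l - toi W c l) * E) 0

theorem R.mul (h : R c W W' E) (F : K →L[ℂ] K) : R c W W' (E * F) := by
  have := AvT.mul h 1 F
  simp only [one_mul, zero_mul, mul_assoc] at this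
  exact this

theorem R.symm (h : R c W W' E) : R c W' W E := by
  have := AvT.smul h (-1)
  simp only [neg_smul, one_smul, neg_zero, ← neg_mul, neg_sub] at this
  exact this

theorem sCont (hc : Integrable c) (hW : IsPoly W) (hW' : IsPoly W') (E : K →L[ℂ] K) :
    SCont fun l => (toi W' c l - toi W c l) * E :=
  ((sCont_toi hW' hc).sub (sCont_toi hW hc)).mul (SCont.const E)

theorem R.trans (hc : Integrable c) (hW : IsPoly W) (hW' : IsPoly W') (hW'' : IsPoly W'')
    (h : R c W W' E) (h' : R c W' W'' E) : R c W W'' E := by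
  have := AvT.add h' h (sCont hc hW' hW'' E) (sCont hc hW hW' E)
  simp only [← add_mul, sub_add_sub_cancel, add_zero] at this
  exact this

theorem cramer {α β β' a b : V} (hab : a ⬝ᵥ b = 0) (ha : α ⬝ᵥ a ≠ 0) (hb : (α ⨯₃ β) ⬝ᵥ b ≠ 0) :
    tc α β' a = (β' ⨯₃ β) ⬝ᵥ b / (α ⨯₃ β) ⬝ᵥ b + (α ⨯₃ β') ⬝ᵥ b / (α ⨯₃ β) ⬝ᵥ b * tc α β a := by
  have key : (β' ⬝ᵥ a) * ((α ⨯₃ β) ⬝ᵥ b) = ((β' ⨯₃ β) ⬝ᵥ b) * (α ⬝ᵥ a) +
      ((α ⨯₃ β') ⬝ᵥ b) * (β ⬝ᵥ a) + ((α ⨯₃ β) ⬝ᵥ β') * (a ⬝ᵥ b) := by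
    simp only [dotProduct, cross_apply, Fin.sum_univ_three, Matrix.cons_val_zero,
      Matrix.cons_val_one, Matrix.cons_val_two, Matrix.head_cons, Matrix.tail_cons]
    ring
  rw [hab, mul_zero, add_zero] at key
  unfold tc
  field_simp
  linear_combination key

theorem measurable_dot (v : V) : Measurable fun b : V => v ⬝ᵥ b :=
  (continuous_const.dotProduct continuous_id).measurable

theorem proj_le (h : Flag P₀ Ψ) {S S' T T' : Set V} (hS : MeasurableSet S) (hS' : MeasurableSet S')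
    (hT : MeasurableSet T) (hT' : MeasurableSet T') (h1 : S ⊆ S') (h2 : T ⊆ T') :
    P₀.E (ic S) * Ψ.E (ic T) = P₀.E (ic S') * Ψ.E (ic T') * (P₀.E (ic S) * Ψ.E (ic T)) := by
  rw [mul_assoc, ← mul_assoc (Ψ.E _), ← (h.comm _ _ (BM.ic hS) (BM.ic hT')).eq, mul_assoc,
    h.pvm'.ic_mul_ic hT' hT, ← mul_assoc, h.pvm.ic_mul_ic hS' hS, Set.inter_eq_self_of_subset_right h1,
    Set.inter_eq_self_of_subset_right h2]

theorem proj_le' (hP : P₀.IsPVM) {S S' : Set V} (hS : MeasurableSet S) (hS' : MeasurableSet S')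
    (h1 : S ⊆ S') (F : K →L[ℂ] K) : P₀.E (ic S) * F = P₀.E (ic S') * (P₀.E (ic S) * F) := by
  rw [← mul_assoc, hP.ic_mul_ic hS' hS, Set.inter_eq_self_of_subset_right h1]

/-- seven points on a conic: one of them avoids three given lines -/
theorem exists_gam {u v w : V} (hu : u ≠ 0) (hv : v ≠ 0) (hw : w ≠ 0) : ∃ τ : Fin 7,
    ![1, (τ : ℝ), (τ : ℝ) ^ 2] ⬝ᵥ u ≠ 0 ∧ ![1, (τ : ℝ), (τ : ℝ) ^ 2] ⬝ᵥ v ≠ 0 ∧
      ![1, (τ : ℝ), (τ : ℝ) ^ 2] ⬝ᵥ w ≠ 0 := by
  let q : V → Polynomial ℝ := fun v =>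
    Polynomial.C (v 2) * Polynomial.X ^ 2 + Polynomial.C (v 1) * Polynomial.X + Polynomial.C (v 0)
  have hd : ∀ v, (q v).natDegree ≤ 2 := fun v => Polynomial.natDegree_quadratic_le
  have h0 : ∀ v, v ≠ 0 → q v ≠ 0 := fun v hv h => hv <| by
    have c0 := congrArg (Polynomial.coeff · 0) h
    have c1 := congrArg (Polynomial.coeff · 1) h
    have c2 := congrArg (Polynomial.coeff · 2) h
    simp [q, Polynomial.coeff_C, Polynomial.coeff_X] at c0 c1 c2
    funext i
    fin_cases i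
    exacts [c0, c1, c2]
  have he : ∀ v (t : ℝ), ![1, t, t ^ 2] ⬝ᵥ v = (q v).eval t := fun v t => by
    simp [q, dotProduct, Fin.sum_univ_three]
    ring
  by_contra hne
  refine mul_ne_zero (mul_ne_zero (h0 u hu) (h0 v hv)) (h0 w hw)
    (Polynomial.eq_zero_of_natDegree_lt_card_of_eval_eq_zero _ (f := fun τ : Fin 7 => (τ : ℝ))
      (fun a b h => Fin.ext (Nat.cast_injective (R := ℝ) h)) (fun τ => ?_) ?_)
  · by_contra h
    simp only [Polynomial.eval_mul, mul_eq_zero, not_or, ← he] at h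
    exact hne ⟨τ, h.1.1, h.1.2, h.2⟩
  · have h1 := Polynomial.natDegree_mul_le (p := q u * q v) (q := q w)
    have h2 := Polynomial.natDegree_mul_le (p := q u) (q := q v)
    have := hd u
    have := hd v
    have := hd w
    simp only [Fintype.card_fin]
    omega

theorem cross_dot (α γ b : V) : (α ⨯₃ γ) ⬝ᵥ b = γ ⬝ᵥ (b ⨯₃ α) := by
  rw [dotProduct_comm, triple_product_permutation b α γ, triple_product_permutation α γ b]

theorem GB_comm (α β : V) : GB α β = GB β α := by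
  ext b
  simp only [GB, Set.mem_ofPred_eq, ← cross_anticomm α β, neg_dotProduct, ne_eq, neg_eq_zero]

end Ch2

open Ch2 in
theorem chart_aff (h : ∀ i, Flag (P i) Ψ) (hc : Integrable c) (he : Ev c) (α β β' : V) :
    AvT atTop (fun l => (toi (Wc P α β') c l - toi (Wc P α β) c l)
      * ((P 2).E (ic (GA α β ∩ GA α β')) * Ψ.E (ic (GB α β ∩ GB α β')))) 0 := by
  have hA : MeasurableSet {a : V | α ⬝ᵥ a ≠ 0} :=
    (measurableSet_eq_fun (measurable_dot α) measurable_const).compl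
  have bA := BM.ic hA
  have mG := fun β => (isOpen_GA α β).measurableSet
  have mS := ((isOpen_GB α β).inter (isOpen_GB α β')).measurableSet
  let WA : V → (Fin 3 → ℝ → ℂ) → K →L[ℂ] K := fun β f =>
    word P fun k a => ic {a : V | α ⬝ᵥ a ≠ 0} a * f k (tc α β a)
  have pA : ∀ β, IsPoly (WA β) := fun β =>
    (isPoly_word P).comp (fun _ => measurable_tc α β) fun _ => bA
  have cl : ∀ β, R c (WA β) (Wc P α β) ((P 2).E (ic (GA α β))) := fun β => by
    rw [GA_eq]
    exact toi_clean (h 2).pvm (measurable_tc α β) hA (fun a ha => by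
      rw [tc, not_not.1 ha, div_zero]) hc he
  choose Q hQ hQm hQc using fun i => (h i).exists_joint
  have hQ1 : ∀ i g, BM g → (Q i).E (fun z => g z.1) = (P i).E g := fun i g hg => by
    have := hQm i g _ hg (BM.const 1)
    rwa [Ψ.E_one, mul_one, funext fun z : V × V => mul_one (g z.1)] at this
  have hQ2 : ∀ i g, BM g → (Q i).E (fun z => g z.2) = Ψ.E g := fun i g hg => by
    have := hQm i _ g (BM.const 1) hg
    rwa [(P i).E_one, one_mul, funext fun z : V × V => one_mul (g z.2)] at this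
  have mp : Measurable fun b : V => (β' ⨯₃ β) ⬝ᵥ b / (α ⨯₃ β) ⬝ᵥ b :=
    (measurable_dot _).div (measurable_dot _)
  have mr : Measurable fun b : V => (α ⨯₃ β') ⬝ᵥ b / (α ⨯₃ β) ⬝ᵥ b :=
    (measurable_dot _).div (measurable_dot _)
  have af := toi_aff hQ hQ2 (measurable_tc α β) (measurable_tc α β') mp mr (fun _ => bA) mS
    (fun b hb => div_ne_zero hb.2 hb.1) (fun i => by
      rw [← (Q i).E_zero]
      refine (Q i).E_congr_of_conc ?_ (hQc i) (BM.ic ?_) (BM.const 0) fun z hz => ic_of_notMem ?_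
      · exact (isClosed_eq continuous_fst.norm continuous_const).measurableSet.inter
          ((isClosed_eq continuous_snd.norm continuous_const).measurableSet.inter
          (isClosed_eq (continuous_fst.dotProduct continuous_snd) continuous_const).measurableSet)
      · exact (measurable_snd mS).inter (((measurableSet_eq_fun (bA.meas.comp measurable_fst)
          measurable_const).compl).inter (measurableSet_eq_fun
            ((measurable_tc α β').comp measurable_fst) ((mp.comp measurable_snd).add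
              ((mr.comp measurable_snd).mul ((measurable_tc α β).comp measurable_fst)))).compl)
      · rintro ⟨h1, h2, h3⟩
        refine h3 (cramer hz.2.2 (fun h0 => h2 (ic_of_notMem fun h' => h' h0)) h1.1)) hc he
  have e : ∀ β l, toi (fun f => word Q fun k z => ic {a : V | α ⬝ᵥ a ≠ 0} z.1 * f k (tc α β z.1))
      c l = toi (WA β) c l := fun β l => toi_congr (fun f hf => by
    simp only [WA, word]
    congr 2
    funext i
    exact hQ1 i _ (bA.mul ((hf i).comp (measurable_tc α β)))) l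
  simp only [e] at af
  have mI := (mG β).inter (mG β')
  refine R.trans hc (isPoly_Wc P α β) (pA β) (isPoly_Wc P α β') ?_
    (R.trans hc (pA β) (pA β') (isPoly_Wc P α β') ?_ ?_)
  · rw [proj_le' (h 2).pvm mI (mG β) Set.inter_subset_left]
    exact (cl β).symm.mul _
  · rw [((h 2).comm _ _ (BM.ic mI) (BM.ic mS)).eq]
    exact R.mul af _
  · rw [proj_le' (h 2).pvm mI (mG β') Set.inter_subset_right]
    exact (cl β').mul _

open Ch2 in
/-- **chart independence** -/
theorem chart_indep (h : ∀ i, Flag (P i) Ψ) (hc : Integrable c) (he : Ev c) (α β α' β' : V) :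
    AvT atTop (fun l => (toi (Wc P α' β') c l - toi (Wc P α β) c l)
      * ((P 2).E (ic (GA α β ∩ GA α' β')) * Ψ.E (ic (GB α β ∩ GB α' β')))) 0 := by
  have mA := fun α β => (isOpen_GA α β).measurableSet
  have mB := fun α β => (isOpen_GB α β).measurableSet
  have pW := isPoly_Wc P
  have inv : ∀ α β S T, MeasurableSet S → S ⊆ GA α β →
      R c (Wc P α β) (Wc P β α) ((P 2).E (ic S) * Ψ.E (ic T)) := fun α β S T hS h1 => by
    rw [proj_le' (h 2).pvm hS (mA α β) h1]
    exact R.mul (chart_inv (h 2).pvm hc he α β) _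
  have aff : ∀ α β β' S T, MeasurableSet S → MeasurableSet T → S ⊆ GA α β ∩ GA α β' →
      T ⊆ GB α β ∩ GB α β' → R c (Wc P α β) (Wc P α β') ((P 2).E (ic S) * Ψ.E (ic T)) :=
    fun α β β' S T hS hT h1 h2 => by
      rw [proj_le (h 2) hS ((mA _ _).inter (mA _ _)) hT ((mB _ _).inter (mB _ _)) h1 h2]
      exact R.mul (chart_aff h hc he α β β') _
  let γ : Fin 7 → V := fun τ => ![1, (τ : ℝ), (τ : ℝ) ^ 2]
  let S : Fin 7 → Set V := fun τ => (GA α β ∩ GA α' β') ∩ GA α (γ τ)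
  let T : Fin 7 → Set V := fun τ => (GB α β ∩ GB α' β') ∩ (GB α (γ τ) ∩ GB α' (γ τ))
  have mS : ∀ τ, MeasurableSet (S τ) := fun τ => ((mA _ _).inter (mA _ _)).inter (mA _ _)
  have mT : ∀ τ, MeasurableSet (T τ) := fun τ =>
    ((mB _ _).inter (mB _ _)).inter ((mB _ _).inter (mB _ _))
  obtain ⟨E, hE, -⟩ := (h 2).cover ((mA α β).inter (mA α' β')) ((mB α β).inter (mB α' β')) mS mT
    fun a ha b hb _ _ _ => by
      obtain ⟨τ, h1, h2, h3⟩ := exists_gam (u := a) (v := b ⨯₃ α) (w := b ⨯₃ α')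
        (fun h0 => ha.1.1 (by rw [h0, dotProduct_zero]))
        (fun h0 => hb.1 (by rw [cross_dot, h0, dotProduct_zero]))
        (fun h0 => hb.2 (by rw [cross_dot, h0, dotProduct_zero]))
      exact ⟨τ, ⟨ha, ha.1.1, h1⟩, hb, fun h0 => h2 (by rw [← cross_dot]; exact h0),
        fun h0 => h3 (by rw [← cross_dot]; exact h0)⟩
  have key : ∀ τ, R c (Wc P α β) (Wc P α' β') ((P 2).E (ic (S τ)) * Ψ.E (ic (T τ)) * E τ) :=
    fun τ => R.mul (R.trans hc (pW _ _) (pW α (γ τ)) (pW _ _)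
      (aff _ _ _ _ _ (mS τ) (mT τ) (fun a ha => ⟨ha.1.1, ha.2⟩) fun b hb => ⟨hb.1.1, hb.2.1⟩)
      (R.trans hc (pW _ _) (pW (γ τ) α) (pW _ _) (inv _ _ _ _ (mS τ) fun a ha => ha.2)
      (R.trans hc (pW _ _) (pW (γ τ) α') (pW _ _)
        (aff _ _ _ _ _ (mS τ) (mT τ) (fun a ha => ⟨⟨ha.2.2, ha.2.1⟩, ha.2.2, ha.1.2.1⟩)
          fun b hb => ⟨GB_comm α _ ▸ hb.2.1, GB_comm α' _ ▸ hb.2.2⟩)
      (R.trans hc (pW _ _) (pW α' (γ τ)) (pW _ _)
        (inv _ _ _ _ (mS τ) fun a ha => ⟨ha.2.2, ha.1.2.1⟩)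
        (aff _ _ _ _ _ (mS τ) (mT τ) (fun a ha => ⟨⟨ha.1.2.1, ha.2.2⟩, ha.1.2⟩)
          fun b hb => ⟨hb.2.2, hb.1.2⟩))))) _
  have := AvT.sum Finset.univ (fun τ _ => key τ) fun τ _ => sCont hc (pW _ _) (pW _ _) _
  simp only [← Finset.mul_sum, ← hE, Finset.sum_const_zero] at this
  exact this

end Crest.Agent.N111
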