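import Crest.Agent.N111.F.F5

/-! # Row 111: all even scale averages vanish. -/

set_option autoImplicit false
set_option linter.unusedSectionVars false
set_option linter.unusedVariables false

namespace Crest.Agent.N111

open MeasureTheory Topology Filter Matrix
open scoped InnerProductSpace

variable {K : Type} [NormedAddCommGroup K] [InnerProductSpace ℂ K] [CompleteSpace K]

variable {I I' : Ind K} {L : ℕ → ℝ} {Φ Ψ A B : V → POVM V K} {sc sc' : ℝ → ℝ}

namespace E0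

/-- the phases on four slots -/
noncomputable def p4 (τ : Fin 3 → V → ℝ) (r : ℝ) (w : ℝ × ℝ) : Fin 4 → V → ℂ :=
  ![fun a => ph r w 0 (τ 0 a), fun a => ph r w 1 (τ 1 a), fun a => ph r w 2 (τ 2 a), fun _ => 1]

theorem krep {τ : Fin 3 → V → ℝ} (hτ : ∀ k, Measurable (τ k)) {Z : Fin 4 → Set V}
    (hZ : ∀ k, ContinuousOn (τ k) (Z k.castSucc)) {c : ℝ × ℝ → ℂ} (hc : Integrable c)
    {p : ℝ × ℝ → ℝ × ℝ} (hp : Continuous p) (r : ℝ) :
    KRep (ℝ × ℝ) volume c (fun w => p4 τ r (p w)) Z := by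
  have h1 : ∀ k t, Continuous fun w => ph r (p w) k t := fun k t =>
    (continuous_ph k).comp (f := fun w => (r, p w, t)) (by fun_prop)
  have h2 : ∀ k w, Continuous (ph r w k) := fun k w =>
    (continuous_ph k).comp (f := fun t => (r, w, t)) (by fun_prop)
  refine ⟨hc, fun w k => ?_, fun w k y => ?_, fun k y => ?_, fun w k => ?_⟩
  · fin_cases k
    exacts [(bm_ph r _ 0).meas.comp (hτ 0), (bm_ph r _ 1).meas.comp (hτ 1),
      (bm_ph r _ 2).meas.comp (hτ 2), measurable_const]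
  · fin_cases k
    exacts [(norm_ph r _ 0 _).le, (norm_ph r _ 1 _).le, (norm_ph r _ 2 _).le, norm_one.le]
  · fin_cases k
    exacts [h1 0 _, h1 1 _, h1 2 _, continuous_const]
  · fin_cases k
    exacts [(h2 0 _).comp_continuousOn (hZ 0), (h2 1 _).comp_continuousOn (hZ 1),
      (h2 2 _).comp_continuousOn (hZ 2), continuousOn_const]

theorem prod_p4 (τ : Fin 3 → V → ℝ) (r : ℝ) (w : ℝ × ℝ) (z : Fin 4 → V) :
    ∏ k, p4 τ r w k (z k)
      = ex (w.1 * (r * (τ 2 (z 2) - τ 0 (z 0))) + w.2 * (r * (τ 1 (z 1) - τ 2 (z 2)))) := by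
  simp only [p4, ph, Fin.prod_univ_four, Matrix.cons_val_zero, Matrix.cons_val_one,
    Matrix.cons_val, mul_one, ← ex_add]
  congr 1
  ring

/-- comparison of the two kernels near the support -/
theorem half {W : (Fin 4 → V → ℂ) → K →L[ℂ] K} (hW : IsPoly W) {Z : Fin 4 → Set V}
    (hZ : ∀ k, IsOpen (Z k))
    (hconc : ∀ f, (∀ k, BM (f k)) → W f = W fun k y => ic (Z k) y * f k y)
    {τ : Fin 3 → V → ℝ} (hτ : ∀ k, Measurable (τ k)) (hτ' : ∀ k, ContinuousOn (τ k) (Z k.castSucc))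
    {c : ℝ × ℝ → ℂ} (hc : Integrable c) {r : ℝ} {O : Set (ℝ × ℝ)} (hO : IsOpen O) {a : ℂ}
    (hs : ∀ z ∈ supp W, (∀ k, z k ∈ Z k) →
      (r * (τ 2 (z 2) - τ 0 (z 0)), r * (τ 1 (z 1) - τ 2 (z 2))) ∈ O)
    (hK : ∀ p ∈ O, K2 c p = a * K2 c (0, p.2)) :
    sInt volume c (fun w => W (p4 τ r w)) = a • sInt volume c fun w => W (p4 τ r (0, w.2)) := by
  have h1 := krep hτ hτ' hc continuous_id r
  have h2 := krep hτ hτ' (hc.const_mul a) (p := fun w => (0, w.2)) (by fun_prop) r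
  have hk : ∀ k : Fin 3, ContinuousOn (fun z : Fin 4 → V => τ k (z k.castSucc))
      (Set.pi Set.univ Z) := fun k =>
    (hτ' k).comp (continuous_apply _).continuousOn fun z hz => hz _ trivial
  have hO' := ((continuousOn_const (c := r).mul ((hk 2).sub (hk 0))).prodMk
    (continuousOn_const (c := r).mul ((hk 1).sub (hk 2)))).isOpen_inter_preimage
    (isOpen_set_pi Set.finite_univ fun k _ => hZ k) hO
  rw [← sInt_smul_left a hc (hW.sCont h2.meas h2.bd h2.contω)]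
  refine hW.wd hZ hconc h1 h2 hO' (fun z hz hz' => ⟨fun k _ => hz' k, hs z hz hz'⟩)
    fun z hz _ => ?_
  have := hK _ hz.2
  simp only [K2, mul_zero, zero_add] at this
  simp only [prod_p4, id, zero_mul, zero_add, mul_assoc a, integral_const_mul]
  exact this

/-- the localised four letter word -/
noncomputable def W4 (A B : V → POVM V K) (S U : Set V) (f : Fin 4 → V → ℂ) : K →L[ℂ] K :=
  word ![A (ev 0), A (ev 1), A (ev 0), B (ev 2)] fun k a => ic (![S, U, S, {0}ᶜ] k) a * f k a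

variable {S U : Set V}

theorem bm_cut (hS : MeasurableSet S) (hU : MeasurableSet U) (k : Fin 4) :
    BM (ic (![S, U, S, {0}ᶜ] k)) := by
  fin_cases k
  exacts [BM.ic hS, BM.ic hU, BM.ic hS, BM.ic (measurableSet_singleton _).compl]

theorem isPoly_W4 (hS : MeasurableSet S) (hU : MeasurableSet U) : IsPoly (W4 A B S U) :=
  (isPoly_word _).comp (φ := fun _ a => a) (fun _ => measurable_id) (bm_cut hS hU)

theorem W4_conc {Z : Fin 4 → Set V} (hZ : ∀ k, ![S, U, S, {0}ᶜ] k ⊆ Z k) (f : Fin 4 → V → ℂ) :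
    W4 A B S U f = W4 A B S U fun k y => ic (Z k) y * f k y := by
  unfold W4
  congr 1
  funext k a
  by_cases ha : a ∈ ![S, U, S, {0}ᶜ] k
  · simp only [ic_of_mem (hZ k ha), one_mul]
  · rw [ic_of_notMem ha, zero_mul, zero_mul]

theorem supp_W4 (hS : IsClosed S) (hU : MeasurableSet U) {z : Fin 4 → V}
    (hz : z ∈ supp (W4 A B S U)) :
    z ∈ supp (word ![A (ev 0), A (ev 1), A (ev 0), B (ev 2)]) ∧ z 0 ∈ S ∧ z 2 ∈ S := by
  have hb := bm_cut hS.measurableSet hU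
  have key := mem_of_mem_supp (W := W4 A B S U) (Z := ![S, Set.univ, S, Set.univ])
    (fun k => by fin_cases k; exacts [hS, isClosed_univ, hS, isClosed_univ])
    (fun f hf i hi => (isPoly_word _).eq_zero_of_slot (fun k => (hb k).mul (hf k)) (i := i)
      fun y => by
        by_cases hy : y ∈ ![S, U, S, {0}ᶜ] i
        · rw [hi y (by fin_cases i; exacts [hy, trivial, hy, trivial]), mul_zero]
        · rw [ic_of_notMem hy, zero_mul]) hz
  exact ⟨fun O hO hN => hz O hO fun f hf h0 => hN _ (fun k => (hb k).mul (hf k))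
    fun k y hy => by simp only [h0 k y hy, mul_zero], key 0, key 2⟩

theorem cross01 : ev 0 ⨯₃ ev 1 = ev 2 := by
  funext i; fin_cases i <;> simp [ev, cross_apply]

/-- the two line relations on the support -/
theorem rel (h : Geo I I' L Φ Ψ A B sc sc') {k : ℝ} (h5 : F5 A B k) {z : Fin 4 → V}
    (hz : z ∈ supp (word ![A (ev 0), A (ev 1), A (ev 0), B (ev 2)])) (h0 : ∀ i, z i ≠ 0) (v : V) :
    |v ⬝ᵥ (z 0 ⨯₃ z 1)| = |v ⬝ᵥ (z 1 ⨯₃ z 2)| := by
  have c0 : ∀ {f g}, BM f → BM g → Commute ((A (ev 0)).E f) ((B (ev 2)).E g) :=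
    h.AB_inc (ev_ne_zero 0) (ev_ne_zero 2) (by simp [ev_dot_ev])
  have c1 : ∀ {f g}, BM f → BM g → Commute ((A (ev 1)).E f) ((B (ev 2)).E g) :=
    h.AB_inc (ev_ne_zero 1) (ev_ne_zero 2) (by simp [ev_dot_ev])
  have e1 := mem_supp_of_factor (W' := word ![A (ev 0), B (ev 2), A (ev 1)]) (e := ![0, 3, 1])
    (by decide) (fun f hf => ⟨1, (A (ev 0)).E (f 2), by
      simp only [word, List.ofFn_succ, List.ofFn_zero, List.prod_cons, List.prod_nil, mul_one,
        one_mul, Matrix.cons_val_zero, Matrix.cons_val_succ, Fin.succ_zero_eq_one,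
        Fin.succ_one_eq_two, Fin.reduceSucc, mul_assoc]
      rw [(c0 (hf 2) (hf 3)).eq, ← mul_assoc ((A (ev 1)).E _), (c1 (hf 1) (hf 3)).eq,
        mul_assoc]⟩) hz
  have e2 := mem_supp_of_factor (W' := word ![A (ev 1), B (ev 2), A (ev 0)]) (e := ![1, 3, 2])
    (by decide) (fun f hf => ⟨(A (ev 0)).E (f 0), 1, by
      simp only [word, List.ofFn_succ, List.ofFn_zero, List.prod_cons, List.prod_nil, mul_one,
        one_mul, Matrix.cons_val_zero, Matrix.cons_val_succ, Fin.succ_zero_eq_one,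
        Fin.succ_one_eq_two, Fin.reduceSucc, mul_assoc]
      rw [(c0 (hf 2) (hf 3)).eq]⟩) hz
  have f1 : z 0 ⨯₃ z 1 = k • z 3 ∨ z 0 ⨯₃ z 1 = -(k • z 3) :=
    h5 _ _ _ (ev_ne_zero 2) (Or.inl cross01) _ e1 fun i => h0 _
  have f2 : z 1 ⨯₃ z 2 = k • z 3 ∨ z 1 ⨯₃ z 2 = -(k • z 3) :=
    h5 _ _ _ (ev_ne_zero 2) (Or.inr (by rw [← cross_anticomm, cross01])) _ e2 fun i => h0 _
  rcases f1 with f1 | f1 <;> rcases f2 with f2 | f2 <;> simp only [f1, f2, dotProduct_neg, abs_neg]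

/-- the localising sets -/
def St (α β : V) (η q : ℝ) (M : ℕ) : Set V :=
  {a | q ≤ |α ⬝ᵥ a| ∧ |α ⬝ᵥ a| ≤ (1 + η) * q ∧ |α ⬝ᵥ a| ≤ M * |β ⬝ᵥ a|}

theorem continuous_dot (α : V) : Continuous fun a : V => α ⬝ᵥ a :=
  continuous_const.dotProduct continuous_id

theorem isClosed_St (α β : V) (η q : ℝ) (M : ℕ) : IsClosed (St α β η q M) :=
  (isClosed_le continuous_const (continuous_dot α).abs).inter
    ((isClosed_le (continuous_dot α).abs continuous_const).inter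
      (isClosed_le (continuous_dot α).abs (continuous_const.mul (continuous_dot β).abs)))

theorem St_ne {α β : V} {η q : ℝ} {M : ℕ} (hq : 0 < q) {a : V} (ha : a ∈ St α β η q M) :
    α ⬝ᵥ a ≠ 0 := abs_pos.1 (hq.trans_le ha.1)

theorem exists_St {α β : V} {η : ℝ} (hη : 0 < η) {a : V} (ha : a ∈ GA α β) :
    ∃ (q : ℚ) (M : ℕ), (0 : ℝ) < q ∧ a ∈ St α β η q M := by
  have h1 := abs_pos.2 ha.1
  have h2 := abs_pos.2 ha.2
  obtain ⟨q, hq, hq'⟩ := exists_rat_btwn (div_lt_self h1 (by linarith : 1 < 1 + η))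
  obtain ⟨M, hM⟩ := exists_nat_ge (|α ⬝ᵥ a| / |β ⬝ᵥ a|)
  refine ⟨q, M, (div_pos h1 (by linarith)).trans hq, hq'.le, ?_, (div_le_iff₀ h2).1 hM⟩
  rw [div_lt_iff₀ (by linarith)] at hq
  linarith

theorem split (h : Geo I I' L Φ Ψ A B sc sc') (hS : MeasurableSet S) (α β : V) (r : ℝ)
    (w : ℝ × ℝ) : (A (ev 0)).E (ic S) * Wc (fun i => Φ (![ev 0, ev 1, ev 0] i)) α β (ph r w)
      * (A (ev 0)).E (ic S)
      = W4 A B S {a | α ⬝ᵥ a ≠ 0} (p4 (fun _ => tc α β) r w)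
        + W4 A B S {a | α ⬝ᵥ a ≠ 0}ᶜ (p4 ![tc α β, fun _ => 0, tc α β] r w) := by
  have hU : MeasurableSet {a : V | α ⬝ᵥ a ≠ 0} :=
    (isOpen_ne_fun (continuous_dot α) continuous_const).measurableSet
  have b : ∀ k, BM fun a => ph r w k (tc α β a) := fun k => (bm_ph r w k).comp (measurable_tc α β)
  have b0 : ∀ k, Hom0 fun a => ph r w k (tc α β a) := fun k z hz a => by simp only [tc_smul α β hz]
  have e3 : (B (ev 2)).E (fun a => ic {0}ᶜ a * 1) = 1 := by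
    rw [← (h.lift'.sym _).cut BM.one, POVM.E_one]
  have b1 := (BM.ic hU).mul (b 1)
  have b2 := (BM.ic hU.compl).mul (BM.const (Y := V) (ph r w 1 0))
  have e1 : (A (ev 1)).E (fun a => ph r w 1 (tc α β a))
      = (A (ev 1)).E (fun a => ic {a | α ⬝ᵥ a ≠ 0} a * ph r w 1 (tc α β a))
        + (A (ev 1)).E fun a => ic {a | α ⬝ᵥ a ≠ 0}ᶜ a * ph r w 1 0 := by
    rw [← POVM.E_add _ b1 b2]
    congr 1
    funext a
    by_cases ha : α ⬝ᵥ a = 0
    · simp [ha, tc]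
    · simp [ha]
  simp only [W4, Wc, p4, word, List.ofFn_succ, List.ofFn_zero, List.prod_cons, List.prod_nil,
    mul_one, Matrix.cons_val_zero, Matrix.cons_val_succ, Fin.succ_zero_eq_one,
    Fin.succ_one_eq_two, Fin.reduceSucc, Matrix.cons_val_one, Matrix.cons_val] at e3 ⊢
  rw [e3, ← h.lift.hom0 (ev_ne_zero 0) (b 0) (b0 0), ← h.lift.hom0 (ev_ne_zero 0) (b 2) (b0 2),
    ← h.lift.hom0 (ev_ne_zero 1) (b 1) (b0 1), e1, h.lift.pvm _ _ _ (BM.ic hS) (b 0),
    h.lift.pvm _ _ _ (BM.ic hS) (b 2), ((h.lift.pvm _).commute (BM.ic hS) (b 2)).eq]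
  noncomm_ring

/-- the localised comparison of `toi` and `doi` -/
theorem claim (h : Geo I I' L Φ Ψ A B sc sc') (α β : V) {η q : ℝ} (hη : 0 < η) (hq : 0 < q) (M : ℕ)
    {c : ℝ × ℝ → ℂ} (hc : Integrable c) {R : ℝ} {O : Set (ℝ × ℝ)} (hO : IsOpen O) {a : ℂ}
    (h₁ : ∀ p : ℝ × ℝ, |p.1 + p.2| ≤ (1 + η) * |p.2| → |p.2| ≤ (1 + η) * |p.1 + p.2| → p ∈ O)
    (h₂ : ∀ p : ℝ × ℝ, R < |p.2| → p ∈ O) (hK : ∀ p ∈ O, K2 c p = a * K2 c (0, p.2))
    {r : ℝ} (hr : |R| * M < r) :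
    (A (ev 0)).E (ic (St α β η q M)) * toi (Wc (fun i => Φ (![ev 0, ev 1, ev 0] i)) α β) c r
      * (A (ev 0)).E (ic (St α β η q M))
      = a • ((A (ev 0)).E (ic (St α β η q M)) * doi (Φ (ev 1)) (Φ (ev 0)) α β c r
        * (A (ev 0)).E (ic (St α β η q M))) := by
  obtain ⟨k, -, h5⟩ := h.f5
  have hS := isClosed_St α β η q M
  have hU : IsOpen {a : V | α ⬝ᵥ a ≠ 0} := isOpen_ne_fun (continuous_dot α) continuous_const
  have hr0 : 0 < r := lt_of_le_of_lt (by positivity) hr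
  have mt := measurable_tc α β
  have ct := continuousOn_tc α β
  have m₂ : ∀ k, Measurable (![tc α β, fun _ => 0, tc α β] k) := fun k => by
    fin_cases k
    exacts [mt, measurable_const, mt]
  have P₁ := isPoly_W4 (A := A) (B := B) hS.measurableSet hU.measurableSet
  have P₂ := isPoly_W4 (A := A) (B := B) hS.measurableSet hU.measurableSet.compl
  have hne : ∀ a : V, α ⬝ᵥ a ≠ 0 → a ≠ 0 := fun a ha h0 => ha (by rw [h0, dotProduct_zero])
  have H₁ := half P₁ (Z := ![{a | α ⬝ᵥ a ≠ 0}, {a | α ⬝ᵥ a ≠ 0}, {a | α ⬝ᵥ a ≠ 0}, {0}ᶜ])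
    (fun k => by fin_cases k; exacts [hU, hU, hU, isOpen_compl_singleton])
    (fun f _ => W4_conc (fun k => by
      fin_cases k; exacts [fun _ => St_ne hq, le_rfl, fun _ => St_ne hq, le_rfl]) f)
    (τ := fun _ => tc α β) (fun _ => mt) (fun k => by fin_cases k; exacts [ct, ct, ct])
    hc (r := r) hO (fun z hz hZ => by
      obtain ⟨hz, s0, s2⟩ := supp_W4 hS hU.measurableSet hz
      have z0 : α ⬝ᵥ z 0 ≠ 0 := hZ 0
      have z1 : α ⬝ᵥ z 1 ≠ 0 := hZ 1
      have z2 : α ⬝ᵥ z 2 ≠ 0 := hZ 2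
      have e := rel h h5 hz (fun i => by
        fin_cases i; exacts [hne _ z0, hne _ z1, hne _ z2, hZ 3]) (α ⨯₃ β)
      have e' : |r * (tc α β (z 2) - tc α β (z 0)) + r * (tc α β (z 1) - tc α β (z 2))|
          * |α ⬝ᵥ z 0| = |r * (tc α β (z 1) - tc α β (z 2))| * |α ⬝ᵥ z 2| := by
        rw [← mul_add, sub_add_sub_cancel', abs_mul, abs_mul,
          abs_sub_comm (tc α β (z 1)) (tc α β (z 2)),
          tc_sub z0 z1, tc_sub z1 z2, abs_div, abs_div, e, abs_mul, abs_mul]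
        have := abs_ne_zero.2 z0
        have := abs_ne_zero.2 z1
        have := abs_ne_zero.2 z2
        field_simp
      have aux : ∀ x y a b : ℝ, 0 ≤ x → 0 ≤ y → x * a = y * b → q ≤ a → b ≤ (1 + η) * q →
          x ≤ (1 + η) * y := fun x y a b hx hy e ha hb =>
        le_of_mul_le_mul_right (by nlinarith [mul_le_mul_of_nonneg_left ha hx,
          mul_le_mul_of_nonneg_left hb hy]) hq
      exact h₁ _ (aux _ _ _ _ (abs_nonneg _) (abs_nonneg _) e' s0.1 s2.2.1)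
        (aux _ _ _ _ (abs_nonneg _) (abs_nonneg _) e'.symm s2.1 s0.2.1)) hK
  have H₂ := half P₂ (Z := ![{a | α ⬝ᵥ a ≠ 0}, Set.univ, {a | α ⬝ᵥ a ≠ 0}, Set.univ])
    (fun k => by fin_cases k; exacts [hU, isOpen_univ, hU, isOpen_univ])
    (fun f _ => W4_conc (fun k => by
      fin_cases k; exacts [fun _ => St_ne hq, Set.subset_univ _, fun _ => St_ne hq,
        Set.subset_univ _]) f)
    m₂ (fun k => by fin_cases k; exacts [ct, continuousOn_const, ct])
    hc (r := r) hO (fun z hz hZ => by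
      obtain ⟨-, -, s2⟩ := supp_W4 hS hU.measurableSet.compl hz
      have z2 := abs_pos.2 (St_ne hq s2)
      refine h₂ _ ?_
      change R < |r * (0 - tc α β (z 2))|
      rw [zero_sub, abs_mul, abs_neg, abs_of_pos hr0, tc, abs_div, mul_div_assoc', lt_div_iff₀ z2]
      have hβ : 0 < |β ⬝ᵥ z 2| := by
        rcases (abs_nonneg (β ⬝ᵥ z 2)).eq_or_lt with e | e
        · have := s2.2.2
          rw [← e, mul_zero] at this
          linarith
        · exact e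
      nlinarith [mul_le_mul_of_nonneg_left s2.2.2 (abs_nonneg R), mul_lt_mul_of_pos_right hr hβ,
        mul_le_mul_of_nonneg_right (le_abs_self R) z2.le]) hK
  have key : ∀ p : ℝ × ℝ → ℝ × ℝ, Continuous p → (A (ev 0)).E (ic (St α β η q M))
      * sInt volume c (fun w => Wc (fun i => Φ (![ev 0, ev 1, ev 0] i)) α β (ph r (p w)))
      * (A (ev 0)).E (ic (St α β η q M))
      = sInt volume c (fun w => W4 A B (St α β η q M) {a | α ⬝ᵥ a ≠ 0}
          (p4 (fun _ => tc α β) r (p w)))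
        + sInt volume c fun w => W4 A B (St α β η q M) {a | α ⬝ᵥ a ≠ 0}ᶜ
          (p4 ![tc α β, fun _ => 0, tc α β] r (p w)) := fun p hp => by
    have s0 := sCont_ph (isPoly_Wc (fun i => Φ (![ev 0, ev 1, ev 0] i)) α β) r
    have s1 : SCont fun w => Wc (fun i => Φ (![ev 0, ev 1, ev 0] i)) α β (ph r (p w)) :=
      ⟨fun η => (s0.1 η).comp hp, s0.2.imp fun C hC w => hC _⟩
    have k₁ := krep (τ := fun _ => tc α β) (fun _ => mt) (Z := fun _ => ∅)
      (fun _ => continuousOn_empty _) hc hp r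
    have k₂ := krep m₂ (Z := fun _ => ∅) (fun _ => continuousOn_empty _) hc hp r
    rw [mul_sInt hc s1, sInt_mul hc ((SCont.const _).mul s1), ← Py.sInt_add hc
      (P₁.sCont k₁.meas k₁.bd k₁.contω) (P₂.sCont k₂.meas k₂.bd k₂.contω)]
    simp only [split h hS.measurableSet]
  have e : doi (Φ (ev 1)) (Φ (ev 0)) α β c r = sInt volume c fun w =>
      Wc (fun i => Φ (![ev 0, ev 1, ev 0] i)) α β (ph r (0, w.2)) := by
    simp [doi, Wc, ph, word, List.ofFn_succ, POVM.E_one]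
  rw [e, key _ (by fun_prop), toi, key _ continuous_id', H₁, H₂, smul_add]

/-- countable covers -/
theorem cover {ι : Type} [Countable ι] (P : POVM V K) {S : ι → Set V} {G : Set V}
    (hS : ∀ n, MeasurableSet (S n)) (hG : MeasurableSet G) (hc : G ⊆ ⋃ n, S n) {η : K}
    (h : ∀ n, P.E (ic (S n)) η = 0) : P.E (ic G) η = 0 := by
  have h0 : P.ν η G = 0 :=
    measure_mono_null hc (measure_iUnion_null fun n => P.ν_eq_zero (hS n) (h n))
  rw [P.E_apply_congr (BM.ic hG) BM.zero ((measure_eq_zero_iff_ae_notMem.1 h0).mono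
    fun y hy => ic_of_notMem hy), P.E_zero]
  rfl

theorem main {l : Filter ℕ} [l.NeBot] {m : (ℝ × ℝ → ℂ) → ℂ} {c : ℝ × ℝ → ℂ}
    (h : Geo I I' L Φ Ψ A B sc sc') (hl : l ≤ atTop)
    (hm : IsM l (fun i => Φ (![ev 0, ev 1, ev 0] i)) (Ψ (ev 2)) m) (hc : Integrable c) (he : Ev c)
    {η R : ℝ} (hη : 0 < η) {O : Set (ℝ × ℝ)} (hO : IsOpen O) {a : ℂ}
    (h₁ : ∀ p : ℝ × ℝ, |p.1 + p.2| ≤ (1 + η) * |p.2| → |p.2| ≤ (1 + η) * |p.1 + p.2| → p ∈ O)
    (h₂ : ∀ p : ℝ × ℝ, R < |p.2| → p ∈ O) (hK : ∀ p ∈ O, K2 c p = a * K2 c (0, p.2)) :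
    m c = 0 := by
  have := I.nontrivial
  have d0 : ev 0 ⬝ᵥ ev 2 = 0 := by simp [ev_dot_ev]
  have hf := h.flag (ev_ne_zero 0) (ev_ne_zero 2) d0
  refine (smul_eq_zero.1 (hf.eq_zero_of_gd (T := m c • 1) fun α β => ?_)).resolve_right
    _root_.one_ne_zero
  have bA := BM.ic (isOpen_GA α β).measurableSet
  have bB := BM.ic (isOpen_GB α β).measurableSet
  have key : ∀ q : ℝ, 0 < q → ∀ M, (A (ev 0)).E (ic (St α β η q M))
      * (m c • gd (Φ (ev 0)) (Ψ (ev 2)) α β) = 0 := fun q hq M => by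
    have mS := (isClosed_St α β η q M).measurableSet
    have cm : Commute ((A (ev 0)).E (ic (St α β η q M))) (gd (Φ (ev 0)) (Ψ (ev 2)) α β) :=
      (h.lift.commute_Φ (ev_ne_zero 0) (BM.ic mS) bA).mul_right
        (h.AΨ _ _ (ev_ne_zero 0) (ev_ne_zero 2) d0 _ _ (BM.ic mS) bB)
    have a1 := (hm c hc he α β).mul ((A (ev 0)).E (ic (St α β η q M)))
      ((A (ev 0)).E (ic (St α β η q M)))
    have a2 := (((h.s7 (x := ev 1) (x' := ev 0) (by
      rw [← cross_anticomm, cross01]; exact neg_ne_zero.2 (ev_ne_zero 2)) (ev_ne_zero 2)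
      (by simp [ev_dot_ev]) d0 hc he α β).mono hl).mul ((A (ev 0)).E (ic (St α β η q M)))
      ((A (ev 0)).E (ic (St α β η q M)))).smul a
    have a3 := (a1.congr hl ((eventually_gt_atTop (|R| * M)).mono fun r hr => by
      have := congrArg (· * gd (Φ (ev 0)) (Ψ (ev 2)) α β) (claim h α β hη hq M hc hO h₁ h₂ hK hr)
      simp only [smul_mul_assoc, mul_assoc, cm.eq] at this
      simp only [mul_assoc]
      exact this)).unique a2
    change _ * (m c • gd (Φ (ev 0)) (Ψ (ev 2)) α β) * _ = _ at a3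
    rwa [mul_zero, zero_mul, smul_zero, mul_assoc, ← (cm.smul_right _).eq, ← mul_assoc,
      (h.lift.pvm _).ic_idem mS] at a3
  have e : m c • (1 : K →L[ℂ] K) * gd (Φ (ev 0)) (Ψ (ev 2)) α β
      = (A (ev 0)).E (ic (GA α β)) * (m c • gd (Φ (ev 0)) (Ψ (ev 2)) α β) := by
    rw [h.lift.hom0 (ev_ne_zero 0) bA (hom0_ic_GA α β), smul_mul_assoc, one_mul,
      mul_smul_comm, gd, ← mul_assoc, hf.pvm.ic_idem (isOpen_GA α β).measurableSet]
  rw [e]
  ext1 ζ
  exact cover (ι := {q : ℚ // (0 : ℝ) < q} × ℕ) (A (ev 0)) (S := fun n => St α β η n.1.1 n.2)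
    (fun n => (isClosed_St _ _ _ _ _).measurableSet) (isOpen_GA α β).measurableSet
    (fun a ha => by
      obtain ⟨q, M, hq, h⟩ := exists_St hη ha
      exact Set.mem_iUnion.2 ⟨(⟨q, hq⟩, M), h⟩)
    fun n => (congrArg (· ζ) (key _ n.1.2 n.2) :)

end E0

section
variable {l : Filter ℕ} [l.NeBot] {m : (ℝ × ℝ → ℂ) → ℂ} {c : ℝ × ℝ → ℂ}

theorem Geo.e0_null (h : Geo I I' L Φ Ψ A B sc sc') (hl : l ≤ atTop)
    (hm : IsM l (fun i => Φ (![ev 0, ev 1, ev 0] i)) (Ψ (ev 2)) m) (hc : Integrable c) (he : Ev c)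
    {ε R : ℝ} (hε : 0 < ε)
    (hK : ∀ p : ℝ × ℝ, |p.1| < ε ∨ |p.1 + 2 * p.2| < ε ∨ R < |p.2| → K2 c p = 0) : m c = 0 := by
  have hη : 0 < ε / (|R| + 1) := by positivity
  refine E0.main h hl hm hc he hη (R := R) (a := 0)
    (O := {p | |p.1| < ε ∨ |p.1 + 2 * p.2| < ε ∨ R < |p.2|})
    ((isOpen_lt continuous_fst.abs continuous_const).union
      ((isOpen_lt (continuous_fst.add (continuous_const.mul continuous_snd)).abs
        continuous_const).union (isOpen_lt continuous_const continuous_snd.abs)))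
    (fun p h1 h2 => ?_) (fun p hp => Or.inr (Or.inr hp)) fun p hp => by rw [hK p hp, zero_mul]
  by_contra hn
  simp only [Set.mem_ofPred_eq, not_or, not_lt] at hn
  obtain ⟨n1, n2, n3⟩ := hn
  set η := ε / (|R| + 1)
  have e1 : η * |p.2| < ε := by
    have : η * (|R| + 1) = ε := div_mul_cancel₀ _ (by positivity)
    nlinarith [mul_le_mul_of_nonneg_left (n3.trans (le_abs_self R)) hη.le]
  have e2 : |p.1 + p.2| - |p.2| < ε := by linarith
  have e3 : |p.2| - |p.1 + p.2| < ε := by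
    rcases le_total |p.2| |p.1 + p.2| with e | e
    · linarith
    · nlinarith [mul_le_mul_of_nonneg_left e hη.le]
  rcases abs_cases p.1 with a | a <;> rcases abs_cases p.2 with b | b <;>
    rcases abs_cases (p.1 + p.2) with d | d <;> rcases abs_cases (p.1 + 2 * p.2) with e | e <;>
    linarith [a.1, b.1, d.1, e.1, a.2, b.2, d.2, e.2]

theorem Geo.e0_N (h : Geo I I' L Φ Ψ A B sc sc') (hl : l ≤ atTop)
    (hm : IsM l (fun i => Φ (![ev 0, ev 1, ev 0] i)) (Ψ (ev 2)) m) (hc : Integrable c) (he : Ev c)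
    {N : ℝ → ℂ} {R : ℝ} (hR : 0 < R) (hN : ∀ y, R < |y| → N y = 0)
    (hK : ∀ p : ℝ × ℝ, |p.1| ≤ 4 * R → K2 c p = N p.2)
    (hK' : ∀ p : ℝ × ℝ, R < |p.2| → K2 c p = 0) : m c = 0 := by
  refine E0.main h hl hm hc he one_pos (R := R) (a := 1) (O := {p | |p.1| < 4 * R ∨ R < |p.2|})
    ((isOpen_lt continuous_fst.abs continuous_const).union
      (isOpen_lt continuous_const continuous_snd.abs))
    (fun p h1 h2 => ?_) (fun p hp => Or.inr hp) fun p hp => ?_
  · refine (lt_or_ge R |p.2|).symm.imp (fun h3 => ?_) id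
    have := abs_sub (p.1 + p.2) p.2
    rw [add_sub_cancel_right] at this
    linarith
  · rcases hp with hp | hp
    · rw [hK p hp.le, hK (0, p.2) (by simpa using hR.le), one_mul]
    · rw [hK' p hp, hK' (0, p.2) hp, mul_zero]
end

/-- **E0** -/
theorem Geo.e0 (h : Geo I I' L Φ Ψ A B sc sc') {c : ℝ × ℝ → ℂ} (hc : Integrable c) (he : Ev c)
    (α β : V) : AvT atTop (fun l => toi (Wc ![Φ (ev 0), Φ (ev 1), Φ (ev 0)] α β) c l
      * gd (Φ (ev 0)) (Ψ (ev 2)) α β) 0 := by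
  have := I.nontrivial
  refine avT_of_ultra fun l hl => ?_
  obtain ⟨m, hm⟩ := h.exists_isM (x := ![ev 0, ev 1, ev 0])
    (fun i => by fin_cases i; exacts [ev_ne_zero 0, ev_ne_zero 1, ev_ne_zero 0])
    (fun i => by fin_cases i <;> simp [ev]) l hl
  have hf : Flag ((fun i => Φ (![ev 0, ev 1, ev 0] i)) 2) (Ψ (ev 2)) :=
    h.flag (ev_ne_zero 0) (ev_ne_zero 2) (by simp [ev_dot_ev])
  have h0 := e0_abstract m 1 (fun c c' h1 h2 h3 h4 => hm.add hf h1 h2 h3 h4)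
    (fun z c h1 h2 => hm.smul hf z h1 h2) (fun c h1 h2 => hm.bd hf h1 h2)
    (fun c h1 h2 r hr => hm.dil hf hl h1 h2 hr)
    (fun c h1 h2 ε R hε hK => h.e0_null hl hm h1 h2 hε hK)
    (fun c h1 h2 N R hR hN hK hK' => h.e0_N hl hm h1 h2 hR hN hK hK') c hc he
  have h1 := hm c hc he α β
  have e : (fun i => Φ (![ev 0, ev 1, ev 0] i)) = ![Φ (ev 0), Φ (ev 1), Φ (ev 0)] := by
    funext i; fin_cases i <;> rfl
  rw [h0, zero_smul, e] at h1
  exact h1

end Crest.Agent.N111
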