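import Crest.Agent.N111.F.Star

/-! # Row 111: commutativity; `ComStmt`. -/

set_option autoImplicit false
set_option linter.unusedSectionVars false
set_option linter.unusedVariables false
set_option linter.unusedSimpArgs false
set_option maxHeartbeats 400000

namespace Crest.Agent.N111

open MeasureTheory Topology Filter Matrix
open scoped InnerProductSpace

variable {K : Type} [NormedAddCommGroup K] [InnerProductSpace ℂ K] [CompleteSpace K]

variable {I I' : Ind K} {L : ℕ → ℝ} {Φ Ψ A B : V → POVM V K} {sc sc' : ℝ → ℝ}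

namespace En

/-- (**) with the character `‖a‖^{is}` in the middle slot -/
def PS (Φ Ψ A : V → POVM V K) (N : V → ℂ) (θ s : ℝ) : Prop :=
  ∀ f g : V → ℂ, BM f → Hom0 f → ContinuousOn f {0}ᶜ → BM g → Hom0 g → ContinuousOn g {0}ᶜ →
    (∀ a b, N a ≠ 0 → g b ≠ 0 → 2 * θ * (‖a‖ * ‖b‖) ≤ |a ⬝ᵥ b|) →
    (∀ a b, f a ≠ 0 → g b ≠ 0 → 2 * θ * (‖a‖ * ‖b‖) ≤ |a ⬝ᵥ b|) →
    (Φ (ev 1)).E N * (A (ev 0)).E (fun a => f a * lg s a) * (Ψ (ev 0)).E g = 0

theorem lg_zero (a : V) : lg 0 a = 1 := by rw [lg, zero_mul, ex_zero]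

theorem lg_neg_mul (t : ℝ) (a : V) : lg (-t) a * lg t a = 1 := by
  rw [← lg_add, neg_add_cancel, lg_zero]

theorem ps_zero (h : Geo I I' L Φ Ψ A B sc sc') {N : V → ℂ} (hN : BM N) (hN0 : Hom0 N) {θ : ℝ}
    (hθ : 0 < θ) : PS Φ Ψ A N θ 0 := fun f g hf hf0 hfc hg hg0 hgc h₁ h₂ => by
  simp only [lg_zero, mul_one]
  rw [h.lift.hom0 (ev_ne_zero 0) hf hf0]
  exact h.star2 hN hN0 hf hf0 hfc hg hg0 hgc (θ := 2 * θ) (by positivity) h₁ h₂

theorem contOn_slice {φ : (Fin 18 → ℝ) → V → ℂ}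
    (h : ContinuousOn (fun p : (Fin 18 → ℝ) × V => φ p.1 p.2) {p | p.2 ≠ 0}) (w : Fin 18 → ℝ) :
    ContinuousOn (φ w) {0}ᶜ :=
  h.comp (f := fun a : V => (w, a)) (Continuous.prodMk_right w).continuousOn fun a ha => ha

theorem ps_step (h : Geo I I' L Φ Ψ A B sc sc') : ∃ t₀ > (0 : ℝ), ∀ t, |t| < t₀ →
    ∀ (N : V → ℂ) (θ s : ℝ), 0 < θ → PS Φ Ψ A N θ s → PS Φ Ψ A N θ (s + t) := by
  obtain ⟨t₀, ht₀, H⟩ := h.symm.s8
  refine ⟨t₀, ht₀, fun t ht N θ s hθ hP f g hf hf0 hfc hg hg0 hgc h₁ h₂ => ?_⟩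
  obtain ⟨z, hz, H⟩ := H (-t) (by rwa [abs_neg])
  obtain ⟨c, φ, ψ, hR⟩ := exists_pRep hθ (-t)
  have bf : BM fun a => f a * lg (s + t) a := hf.mul (bm_lg _)
  have bg : BM fun b => g b * lg t b := hg.mul (bm_lg _)
  have key := H (ev 0) (ev 0) (by simp [ev_dot_ev]) θ hθ c φ ψ hR _ _ bf bg
    fun a b ha hb => h₂ a b (left_ne_zero_of_mul ha) (left_ne_zero_of_mul hb)
  have bφ : ∀ w, BM (φ w) := fun w => ⟨hR.measφ w, 1, hR.bdφ w⟩
  have bψ : ∀ w, BM (ψ w) := fun w => ⟨hR.measψ w, 1, hR.bdψ w⟩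
  have e1 : ∀ w, (fun a => f a * lg (s + t) a * lg (-t) a * φ w a)
      = fun a => (f a * φ w a) * lg s a := fun w => funext fun a => by
    rw [mul_assoc (f a), ← lg_add, add_neg_cancel_right]; ring
  have e2 : ∀ w, (fun b => g b * lg t b * lg (-t) b * ψ w b) = fun b => g b * ψ w b :=
    fun w => funext fun b => by rw [mul_assoc (g b), mul_comm (lg t b), lg_neg_mul, mul_one]
  simp only [e1, e2] at key
  obtain ⟨Cf, hCf0, hCf⟩ := hf.exists_nonneg
  obtain ⟨Cg, hCg0, hCg⟩ := hg.exists_nonneg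
  have s1 : SCont fun w => (A (ev 0)).E fun a => (f a * φ w a) * lg s a :=
    (A (ev 0)).sCont_E (C := Cf) (fun w => ((hf.mul (bφ w)).mul (bm_lg s)).1)
      (fun w a => by
        rw [norm_mul, norm_mul, norm_lg, mul_one]
        exact (mul_le_of_le_one_right (norm_nonneg _) (hR.bdφ w a)).trans (hCf a))
      fun a => (continuous_const.mul (hR.contφ a)).mul continuous_const
  have s2 : SCont fun w => (B (ev 0)).E fun b => g b * ψ w b :=
    (B (ev 0)).sCont_E (C := Cg) (fun w => (hg.mul (bψ w)).1)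
      (fun w a => by
        rw [norm_mul]
        exact (mul_le_of_le_one_right (norm_nonneg _) (hR.bdψ w a)).trans (hCg a))
      fun a => continuous_const.mul (hR.contψ a)
  have k2 := congrArg (fun T => (Φ (ev 1)).E N * T) key
  rw [mul_sInt hR.int (s1.mul s2)] at k2
  have e3 : (fun w => (Φ (ev 1)).E N * ((A (ev 0)).E (fun a => (f a * φ w a) * lg s a)
      * (B (ev 0)).E fun b => g b * ψ w b)) = fun _ => 0 := funext fun w => by
    have g0 : Hom0 fun b => g b * ψ w b := fun r hr b => by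
      simp only [hg0 r hr b, hR.homψ w r hr b]
    rw [h.lift'.hom0 (ev_ne_zero 0) (hg.mul (bψ w)) g0, ← mul_assoc]
    exact hP _ _ (hf.mul (bφ w)) (fun r hr a => by simp only [hf0 r hr a, hR.homφ w r hr a])
      (hfc.mul (contOn_slice hR.jointφ w)) (hg.mul (bψ w)) g0
      (hgc.mul (contOn_slice hR.jointψ w))
      (fun a b ha hb => h₁ a b ha (left_ne_zero_of_mul hb))
      fun a b ha hb => h₂ a b (left_ne_zero_of_mul ha) (left_ne_zero_of_mul hb)
  rw [e3, sInt_const hR.int, smul_zero, mul_smul_comm, eq_comm, smul_eq_zero,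
    or_iff_right hz] at k2
  have e4 : (Ψ (ev 0)).E g = (B (ev 0)).E (fun b => g b * lg t b) * (B (ev 0)).E (lg (-t)) := by
    rw [← h.lift'.pvm _ _ _ bg (bm_lg _), ← h.lift'.hom0 (ev_ne_zero 0) hg hg0]
    congr 1
    funext b
    rw [mul_assoc, mul_comm (lg t b), lg_neg_mul, mul_one]
  rw [e4, ← mul_assoc, mul_assoc ((Φ (ev 1)).E N), k2, zero_mul]

theorem ps_all (h : Geo I I' L Φ Ψ A B sc sc') {N : V → ℂ} (hN : BM N) (hN0 : Hom0 N) {θ : ℝ}
    (hθ : 0 < θ) (s : ℝ) : PS Φ Ψ A N θ s := by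
  obtain ⟨t₀, ht₀, H⟩ := ps_step h
  obtain ⟨n, hn⟩ := exists_nat_gt (|s| / t₀)
  have hn0 : (0 : ℝ) < n := lt_of_le_of_lt (by positivity) hn
  have ht : |s / n| < t₀ := by
    rw [abs_div, abs_of_pos hn0, div_lt_iff₀ hn0]
    rwa [div_lt_iff₀ ht₀, mul_comm] at hn
  have : ∀ k : ℕ, PS Φ Ψ A N θ (k * (s / n)) := fun k => by
    induction k with
    | zero => simpa using ps_zero h hN hN0 hθ
    | succ k ih => simpa [add_mul] using H _ ht N θ _ hθ ih
  simpa [mul_div_cancel₀ s hn0.ne'] using this n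

/-- lifted (**) -/
theorem star_lift (h : Geo I I' L Φ Ψ A B sc sc') {N f g : V → ℂ} (hN : BM N) (hN0 : Hom0 N)
    (hf : BM f) (hf0 : Hom0 f) (hfc : ContinuousOn f {0}ᶜ) (hg : BM g) (hg0 : Hom0 g)
    (hgc : ContinuousOn g {0}ᶜ) {θ : ℝ} (hθ : 0 < θ)
    (h₁ : ∀ a b, N a ≠ 0 → g b ≠ 0 → 2 * θ * (‖a‖ * ‖b‖) ≤ |a ⬝ᵥ b|)
    (h₂ : ∀ a b, f a ≠ 0 → g b ≠ 0 → 2 * θ * (‖a‖ * ‖b‖) ≤ |a ⬝ᵥ b|) {F : V → ℂ} (hF : BM F)
    (hev : Ev F) : (Φ (ev 1)).E N * (A (ev 0)).E (fun a => f a * F a) * (Ψ (ev 0)).E g = 0 := by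
  have p0 : IsPoly1 fun F : V → ℂ => (0 : K →L[ℂ] K) * (A (ev 0)).E F * 0 :=
    (A (ev 0)).isPoly1.mul 0 0
  have p1 : ∀ u : V → ℂ, BM u → IsPoly1 fun F : V → ℂ =>
      (Φ (ev 1)).E N * (A (ev 0)).E (fun a => u a * F a) * (Ψ (ev 0)).E g := fun u hu =>
    ((A (ev 0)).isPoly1.comp measurable_id hu).mul _ _
  have := (p1 f hf).ext_lift p0 ?_ ?_ F hF hev
  · simpa only [mul_zero] using this
  · rw [mul_zero, (A (ev 0)).E_congr_of_null (measurableSet_singleton 0) (h.lift.zero _)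
      (hf.mul (BM.ic (measurableSet_singleton 0))) BM.zero fun a ha => by
        rw [ic_of_notMem ha, mul_zero], POVM.E_zero, mul_zero, zero_mul]
  · intro F hF hF0 t
    have := (p1 (fun a => f a * lg t a) (hf.mul (bm_lg t))).ext_hom0 p0 ?_ F hF hF0
    · simp only [mul_zero] at this ⊢
      rw [← this]
      congr 3
      funext a
      ring
    · intro F hF hF0 hFc
      have := ps_all h hN hN0 hθ t (fun a => f a * F a) g (hf.mul hF)
        (fun r hr a => by simp only [hf0 r hr a, hF0 r hr a]) (hfc.mul hFc) hg hg0 hgc h₁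
        fun a b ha hb => h₂ a b (left_ne_zero_of_mul ha) hb
      simp only [mul_zero]
      rw [← this]
      congr 3
      funext a
      ring

end En

theorem Geo.star_supp (h : Geo I I' L Φ Ψ A B sc sc') {z : Fin 3 → V}
    (hz : z ∈ supp (word ![A (ev 1), A (ev 0), B (ev 0)])) (h₂ : z 1 ⬝ᵥ z 2 ≠ 0) :
    z 0 ⬝ᵥ z 2 = 0 := by
  by_contra h₁
  obtain ⟨θ₁, hθ₁, O₀, hO₀, O₂, hO₂, n₁⟩ := exists_ni h₁
  obtain ⟨θ₂, hθ₂, O₁, hO₁, O₂', hO₂', n₂⟩ := exists_ni h₂
  obtain ⟨u, U, a1, a2, -, a4, a5, a6, a7, -, a9, a10, a11⟩ :=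
    exists_pbump (a := z 1) (by intro e; simp [e] at h₂) hO₁
  obtain ⟨w, W, b1, b2, -, b4, b5, b6, b7, -, b9, b10, b11⟩ :=
    exists_pbump (a := z 2) (by intro e; simp [e] at h₂) (inter_mem hO₂ hO₂')
  have hθ : 0 < min θ₁ θ₂ / 2 := by positivity
  have key : ∀ F, BM F → Ev F → (Φ (ev 1)).E (ic (cone (interior O₀)))
      * (A (ev 0)).E (fun a => (u a : ℂ) * F a) * (Ψ (ev 0)).E (fun b => (w b : ℂ)) = 0 := by
    intro F hF hev
    refine En.star_lift h (BM.ic (isOpen_cone isOpen_interior).measurableSet) (hom0_ic_cone _)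
      a5 a6 (Complex.continuous_ofReal.comp_continuousOn a7) b5 b6
      (Complex.continuous_ofReal.comp_continuousOn b7) hθ (fun a b ha hb => ?_)
      (fun a b ha hb => ?_) hF hev
    · refine le_trans ?_ (n₁ a (Ap2.cone_mono interior_subset ?_) b
        (Ap2.cone_mono Set.inter_subset_left (b11 b (by simpa using hb))))
      · exact mul_le_mul_of_nonneg_right (by linarith [min_le_left θ₁ θ₂]) (by positivity)
      · by_contra h'
        exact ha (ic_of_notMem h')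
    · refine le_trans ?_ (n₂ a (a11 a (by simpa using ha)) b
        (Ap2.cone_mono Set.inter_subset_right (b11 b (by simpa using hb))))
      exact mul_le_mul_of_nonneg_right (by linarith [min_le_right θ₁ θ₂]) (by positivity)
  refine hz ![interior O₀, U, W] (fun k => ?_) fun f hf h0 => ?_
  · fin_cases k
    exacts [interior_mem_nhds.2 hO₀, a1.mem_nhds a2, b1.mem_nhds b2]
  have e1 : (A (ev 0)).E (f 1) = (A (ev 0)).E fun a => (u a : ℂ) * f 1 (sg a) := by
    rw [h.lift.conc _ _ (hf 1)]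
    congr 1
    funext a
    by_cases ha : sg a ∈ U
    · rw [a10 a (Ap2.mem_cone_of_sg ha), Complex.ofReal_one, one_mul]
    · rw [h0 1 _ ha, mul_zero]
  have e2 : (B (ev 0)).E (f 2) = (Ψ (ev 0)).E (fun b => (w b : ℂ)) * (B (ev 0)).E (f 2) := by
    rw [← h.lift'.hom0 (ev_ne_zero 0) b5 b6, h.lift'.conc _ _ (hf 2),
      ← h.lift'.pvm _ _ _ b5 ((hf 2).comp measurable_sg)]
    congr 1
    funext a
    by_cases ha : sg a ∈ W
    · rw [b10 a (Ap2.mem_cone_of_sg ha), Complex.ofReal_one, one_mul]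
    · rw [h0 2 _ ha, mul_zero]
  rw [word_three, (Ap2.absorb h.lift (ev_ne_zero 1) isOpen_interior (hf 0) (h0 0)).1, e1, e2]
  have := key _ ((hf 1).comp measurable_sg) (Ap2.ev_sg _)
  calc _ = (A (ev 1)).E (f 0) * ((Φ (ev 1)).E (ic (cone (interior O₀)))
      * (A (ev 0)).E (fun a => (u a : ℂ) * f 1 (sg a)) * (Ψ (ev 0)).E (fun b => (w b : ℂ)))
      * (B (ev 0)).E (f 2) := by simp only [mul_assoc]
    _ = 0 := by rw [this, mul_zero, zero_mul]

namespace En

theorem ev20 : ev 2 ⨯₃ ev 0 = ev 1 := by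
  funext i; fin_cases i <;> simp [cross_apply, ev]

theorem ev10 : ev 1 ⨯₃ ev 0 = -ev 2 := by
  funext i; fin_cases i <;> simp [cross_apply, ev]

theorem dot_ev {i k : Fin 3} (h : i ≠ k) : ev i ⬝ᵥ ev k = 0 := by rw [ev_dot_ev, if_neg h]

theorem norm_of_pm {a b : V} {k : ℝ} (hk : 0 < k) (h : a = k • b ∨ a = -(k • b)) :
    ‖a‖ = k * ‖b‖ := by
  rcases h with h | h <;> rw [h] <;> simp [norm_smul, abs_of_pos hk]

/-- the vector algebra of the end game -/
theorem alg {C b a b' C' : V} {k k' : ℝ} (hk : 0 < k) (hk' : 0 < k') (hC : C ≠ 0) (hb : b ≠ 0)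
    (h1 : C ⬝ᵥ b = 0) (h2 : C ⬝ᵥ b' = 0) (h3 : b ⬝ᵥ a = 0)
    (h4 : b ⨯₃ b' = k' • C' ∨ b ⨯₃ b' = -(k' • C')) (h5 : C ⨯₃ a = k • b ∨ C ⨯₃ a = -(k • b))
    (h6 : |a ⬝ᵥ b'| = k * k') : C' = C ∨ C' = -C := by
  have e1 : C ⨯₃ (b ⨯₃ b') = 0 := by
    rw [cross_cross_eq_smul_sub_smul', dotProduct_comm b, h1, h2]; simp
  have e2 : C ⨯₃ C' = 0 := by
    rcases h4 with h4 | h4 <;> rw [h4] at e1
    · simpa [hk'.ne'] using e1
    · simpa [hk'.ne'] using e1
  obtain ⟨l, rfl⟩ := exists_smul_of_cross_eq_zero hC e2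
  have e3 : ‖(b ⨯₃ b') ⨯₃ a‖ = k * k' * ‖b‖ := by
    rw [cross_cross_eq_smul_sub_smul, h3, zero_smul, zero_sub, norm_neg, norm_smul,
      Real.norm_eq_abs, dotProduct_comm, h6]
  have e4 : ‖(b ⨯₃ b') ⨯₃ a‖ = k' * (|l| * (k * ‖b‖)) := by
    rw [← norm_of_pm hk h5]
    rcases h4 with h4 | h4 <;> rw [h4] <;> simp [norm_smul, abs_of_pos hk']
  have hb' := norm_pos_iff.2 hb
  have e5 : |l| = 1 := by
    have : k * k' * ‖b‖ * |l| = k * k' * ‖b‖ * 1 := by linarith
    exact mul_left_cancel₀ (by positivity) this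
  rcases abs_eq (zero_le_one' ℝ) |>.1 e5 with e | e <;> simp [e]

/-- closed conditions descend from the support of a longer word -/
theorem lift_closed {n : ℕ} {κ : Type} [Fintype κ] {P : Fin n → POVM V K} (hP : ∀ i, (P i).Sym)
    {W : (κ → V → ℂ) → K →L[ℂ] K} {e : κ → Fin n} (he : Function.Injective e)
    {u : Fin n → V → ℂ} (hu : ∀ i, BM (u i))
    (h : ∀ f, (∀ k, BM (f k)) →
      W f = word P fun i y => u i y * Function.extend e f (fun _ _ => 1) i y)
    {S : Set (κ → V)} (hS : IsClosed S)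
    (hs : ∀ z ∈ supp (word P), (∀ i, z i ≠ 0) → (fun k => z (e k)) ∈ S) {z : κ → V}
    (hz : z ∈ supp W) (h0 : ∀ k, z k ≠ 0) : z ∈ S := by
  by_contra hn
  have hO := hS.isOpen_compl.mem_nhds hn
  rw [nhds_pi, mem_pi'] at hO
  obtain ⟨t, O, hO, hsub⟩ := hO
  obtain ⟨z', hz', h0', hO'⟩ := exists_lift_supp
    (W := fun f => word P fun i y => u i y * f i y)
    ((isPoly_word P).comp (φ := fun _ => id) (fun _ => measurable_id) hu)
    (fun f hf => by
      rw [word_conc hP _ fun i => (hu i).mul (hf i)]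
      simp only [mul_left_comm]) he h hz h0 hO
  refine hsub (fun k _ => hO' k) (hs z' (fun O hO hN => hz' O hO fun f hf hf0 => ?_) h0')
  exact hN _ (fun i => (hu i).mul (hf i)) fun i y hy => by rw [hf0 i y hy, mul_zero]

end En

theorem Geo.end_supp (h : Geo I I' L Φ Ψ A B sc sc') {z : Fin 5 → V}
    (hz : z ∈ supp (word ![A (ev 1), B (ev 2), A (ev 0), B (ev 0), A (ev 1)]))
    (h0 : ∀ i, z i ≠ 0) : z 4 = z 0 ∨ z 4 = -z 0 := by
  obtain ⟨k, hk, h5⟩ := h.f5
  obtain ⟨k', hk', h5'⟩ := h.symm.f5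
  have c : ∀ {i j : Fin 3}, i ≠ j → ∀ {f g : V → ℂ}, BM f → BM g →
      (A (ev i)).E f * (B (ev j)).E g = (B (ev j)).E g * (A (ev i)).E f := fun hij f g hf hg =>
    h.AB_inc (ev_ne_zero _) (ev_ne_zero _) (En.dot_ev hij) hf hg
  have s01 := mem_supp_of_factor (W' := word ![A (ev 1), B (ev 2)]) (e := ![0, 1]) (by decide)
    (fun f hf => ⟨1, (A (ev 0)).E (f 2) * (B (ev 0)).E (f 3) * (A (ev 1)).E (f 4), by
      simp [mul_assoc]⟩) hz
  have s12 := mem_supp_of_factor (W' := word ![B (ev 2), A (ev 0)]) (e := ![1, 2]) (by decide)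
    (fun f hf => ⟨(A (ev 1)).E (f 0), (B (ev 0)).E (f 3) * (A (ev 1)).E (f 4), by
      simp [mul_assoc]⟩) hz
  have s23 := mem_supp_of_factor (W' := word ![A (ev 0), B (ev 0)]) (e := ![2, 3]) (by decide)
    (fun f hf => ⟨(A (ev 1)).E (f 0) * (B (ev 2)).E (f 1), (A (ev 1)).E (f 4), by
      simp [mul_assoc]⟩) hz
  have s012 := mem_supp_of_factor (W' := word ![A (ev 1), B (ev 2), A (ev 0)]) (e := ![0, 1, 2])
    (by decide) (fun f hf => ⟨1, (B (ev 0)).E (f 3) * (A (ev 1)).E (f 4), by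
      simp [mul_assoc]⟩) hz
  have s143 := mem_supp_of_factor (W' := word ![B (ev 2), A (ev 1), B (ev 0)]) (e := ![1, 4, 3])
    (by decide) (fun f hf => ⟨(A (ev 1)).E (f 0) * (A (ev 0)).E (f 2), 1, by
      rw [word_five, mul_assoc _ ((B (ev 0)).E (f 3)), ← c (by decide) (hf 4) (hf 3),
        mul_assoc ((A (ev 1)).E (f 0)), ← c (by decide) (hf 2) (hf 1)]
      simp [mul_assoc]⟩) hz
  have s023 := mem_supp_of_factor (W' := word ![A (ev 1), A (ev 0), B (ev 0)]) (e := ![0, 2, 3])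
    (by decide) (fun f hf => ⟨(B (ev 2)).E (f 1), (A (ev 1)).E (f 4), by
      rw [word_five, c (by decide) (hf 0) (hf 1)]
      simp [mul_assoc]⟩) hz
  have l23 : |z 2 ⬝ᵥ z 3| = k * k' := h.opp hk hk' h5 h5' (by simp [ev_dot_ev]) s23
    fun i => h0 _
  refine En.alg hk hk' (h0 0) (h0 1) (b' := z 3) (a := z 2)
    (h.incAB (ev_ne_zero 1) (ev_ne_zero 2) (En.dot_ev (by decide)) _ s01)
    (h.star_supp s023 fun e => ?_)
    (h.symm.incAB (ev_ne_zero 2) (ev_ne_zero 0) (En.dot_ev (by decide)) _ s12)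
    (h5' _ _ _ (ev_ne_zero 1) (Or.inl En.ev20) _ s143 fun i => h0 _)
    (h5 _ _ _ (ev_ne_zero 2) (Or.inr En.ev10) _ s012 fun i => h0 _) l23
  have e' : z 2 ⬝ᵥ z 3 = 0 := e
  rw [e', abs_zero] at l23
  exact (mul_pos hk hk').ne l23

theorem En.commute_conj {U : URep G K} (g : G) {S T : K →L[ℂ] K} (h : Commute S T) :
    Commute (U g * S * U g⁻¹) (U g * T * U g⁻¹) := by
  have e : U g⁻¹ * U g = 1 := by rw [← map_mul, inv_mul_cancel, map_one]
  have : ∀ S T : K →L[ℂ] K, U g * S * U g⁻¹ * (U g * T * U g⁻¹) = U g * (S * T) * U g⁻¹ :=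
    fun S T => by simp only [mul_assoc, ← mul_assoc (U g⁻¹) (U g), e, one_mul]
  rw [Commute, SemiconjBy, this, this, h.eq]

theorem En.AA01 (h : Geo I I' L Φ Ψ A B sc sc') {f g : V → ℂ} (hf : BM f) (hg : BM g) :
    Commute ((A (ev 0)).E f) ((A (ev 1)).E g) := by
  refine (h.lift.sym (ev 1)).commute (fun u hu hev => ?_) hg
  have key := (isPoly_two (A (ev 1)) (A (ev 1)) ((A (ev 0)).E f)).diag'
    (fun φ hφ => by simp only [← (h.lift.sym (ev 1)).cut (hφ _)]) (fun z hz h0 => ?_) hu hev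
    BM.one BM.one
  · simp only [cons_val_zero, cons_val_one, mul_one, one_mul, POVM.E_one] at key
    exact key.symm
  · refine En.lift_closed (P := ![A (ev 1), B (ev 2), A (ev 0), B (ev 0), A (ev 1)])
      (fun i => ?_) (e := ![0, 4]) (by decide)
      (u := ![fun _ => 1, fun _ => 1, f, fun _ => 1, fun _ => 1]) (fun i => ?_) (fun φ hφ => ?_)
      (S := {z : Fin 2 → V | z 1 = z 0 ∨ z 1 = -z 0})
      ((isClosed_eq (by fun_prop) (by fun_prop)).union (isClosed_eq (by fun_prop) (by fun_prop)))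
      (fun z hz h0 => h.end_supp hz h0) hz h0
    · fin_cases i
      exacts [h.lift.sym _, h.lift'.sym _, h.lift.sym _, h.lift'.sym _, h.lift.sym _]
    · fin_cases i
      exacts [BM.one, BM.one, hf, BM.one, BM.one]
    · have he : Function.Injective (![0, 4] : Fin 2 → Fin 5) := by decide
      have e0 := he.extend_apply φ (fun _ _ => (1 : ℂ)) 0
      have e4 := he.extend_apply φ (fun _ _ => (1 : ℂ)) 1
      have e1 := Function.extend_apply' (f := (![0, 4] : Fin 2 → Fin 5)) φ (fun _ _ => (1 : ℂ)) 1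
        (by decide)
      have e2 := Function.extend_apply' (f := (![0, 4] : Fin 2 → Fin 5)) φ (fun _ _ => (1 : ℂ)) 2
        (by decide)
      have e3 := Function.extend_apply' (f := (![0, 4] : Fin 2 → Fin 5)) φ (fun _ _ => (1 : ℂ)) 3
        (by decide)
      simp only [cons_val_zero, cons_val_one] at e0 e4
      simp [e0, e1, e2, e3, e4, POVM.E_one]

theorem Geo.AA (h : Geo I I' L Φ Ψ A B sc sc') {x x' : V} (hx : x ≠ 0) (hx' : x' ≠ 0)
    {f g : V → ℂ} (hf : BM f) (hg : BM g) : Commute ((A x).E f) ((A x').E g) := by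
  by_cases hc : x ⨯₃ x' = 0
  · obtain ⟨r, rfl⟩ := exists_smul_of_cross_eq_zero hx hc
    rw [h.lift.scal x hx r (left_ne_zero_of_smul hx') g hg]
    exact (h.lift.pvm x).commute hf (hg.comp (measurable_const_smul _))
  · obtain ⟨q, rfl, rfl⟩ := exists_ac_pair hc
    rw [← h.lift.covU _ (ev_ne_zero 0) f hf, ← h.lift.covU _ (ev_ne_zero 1) g hg]
    exact En.commute_conj q (En.AA01 h hf hg)

/-- a joint PVM lives on the support of the word -/
theorem joint_supp {n : ℕ} {P : Fin n → POVM V K} {J : POVM (Fin n → V) K} (hJ : J.IsPVM)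
    (h : ∀ f : Fin n → V → ℂ, (∀ i, BM (f i)) → J.E (fun z => ∏ i, f i (z i)) = word P f) :
    J.E (ic (supp (word P))) = 1 := by
  have hm : MeasurableSet (supp (word P)) := isClosed_supp.measurableSet
  rw [← J.E_one]
  refine J.E_congr_ae (BM.ic hm) BM.one fun η => ?_
  have h0 : J.ν η (supp (word P))ᶜ = 0 := by
    refine measure_null_of_locally_null _ fun z hz => ?_
    simp only [supp, Set.mem_compl_iff, Set.mem_ofPred_eq, not_forall, not_not] at hz
    obtain ⟨O, h1, h2⟩ := hz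
    have ho : IsOpen (Set.pi Set.univ fun i => interior (O i)) :=
      isOpen_set_pi Set.finite_univ fun i _ => isOpen_interior
    refine ⟨_, mem_nhdsWithin_of_mem_nhds (ho.mem_nhds fun i _ =>
      mem_interior_iff_mem_nhds.2 (h1 i)), J.ν_eq_zero ho.measurableSet ?_⟩
    have hb : ∀ i, BM (ic (interior (O i))) := fun i => BM.ic isOpen_interior.measurableSet
    have e : ic (Set.pi Set.univ fun i => interior (O i))
        = fun z => ∏ i, ic (interior (O i)) (z i) := funext fun w => by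
      by_cases hw : w ∈ Set.pi Set.univ fun i => interior (O i)
      · rw [ic_of_mem hw, Finset.prod_eq_one fun i _ => ic_of_mem (hw i trivial)]
      · rw [ic_of_notMem hw]
        simp only [Set.mem_pi, Set.mem_univ, true_imp_iff, not_forall] at hw
        obtain ⟨i, hi⟩ := hw
        exact (Finset.prod_eq_zero (Finset.mem_univ i) (ic_of_notMem hi)).symm
    rw [e, h _ hb, h2 _ hb fun i y hy => ic_of_notMem fun hy' => hy (interior_subset hy')]
    rfl
  filter_upwards [measure_eq_zero_iff_ae_notMem.1 h0] with z hz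
  exact ic_of_mem (not_not.1 hz)

namespace En

theorem cross (h : Geo I I' L Φ Ψ A B sc sc') {k : ℝ} (h5 : F5 A B k) {z : Fin 3 → V}
    (hz : z ∈ supp (word ![A (ev 0), A (ev 1), B (ev 2)])) (h0 : ∀ i, z i ≠ 0) :
    z 0 ⨯₃ z 1 = k • z 2 ∨ z 0 ⨯₃ z 1 = -(k • z 2) :=
  h5 _ _ _ (ev_ne_zero 2) (Or.inl Geo2.ev01) _
    (mem_supp_of_factor (W' := word ![A (ev 0), B (ev 2), A (ev 1)]) (e := ![0, 2, 1])
      (by decide) (fun f hf => ⟨1, 1, by
        rw [word_three, mul_assoc, (h.AB_inc (ev_ne_zero 1) (ev_ne_zero 2) (dot_ev (by decide))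
          (hf 1) (hf 2)).eq]
        simp [mul_assoc]⟩) hz) fun i => h0 _

/-- lines are functions of points -/
theorem commute_B2 (h : Geo I I' L Φ Ψ A B sc sc') {S : K →L[ℂ] K}
    (h₀ : ∀ f, BM f → Commute S ((A (ev 0)).E f)) (h₁ : ∀ f, BM f → Commute S ((A (ev 1)).E f))
    {g : V → ℂ} (hg : BM g) : Commute S ((B (ev 2)).E g) := by
  refine (h.lift'.sym (ev 2)).commute (fun u hu hev => ?_) hg
  obtain ⟨k, hk, h5⟩ := h.f5
  have c : ∀ {i : Fin 3}, i ≠ 2 → ∀ {f g : V → ℂ}, BM f → BM g →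
      Commute ((A (ev i)).E f) ((B (ev 2)).E g) := fun hij f g hf hg =>
    h.AB_inc (ev_ne_zero _) (ev_ne_zero _) (En.dot_ev hij) hf hg
  have hs : ∀ i, (![A (ev 0), A (ev 1), B (ev 2)] i).Sym := fun i => by
    fin_cases i
    exacts [h.lift.sym _, h.lift.sym _, h.lift'.sym _]
  obtain ⟨J, hJ, hE⟩ := POVM.exists_joint_fin (P := ![A (ev 0), A (ev 1), B (ev 2)])
    (fun i => by fin_cases i; exacts [h.lift.pvm _, h.lift.pvm _, h.lift'.pvm _])
    (fun i j f g hf hg => by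
      fin_cases i <;> fin_cases j
      exacts [h.AA (ev_ne_zero _) (ev_ne_zero _) hf hg, h.AA (ev_ne_zero _) (ev_ne_zero _) hf hg,
        c (by decide) hf hg, h.AA (ev_ne_zero _) (ev_ne_zero _) hf hg,
        h.AA (ev_ne_zero _) (ev_ne_zero _) hf hg, c (by decide) hf hg, (c (by decide) hg hf).symm,
        (c (by decide) hg hf).symm, (h.lift'.pvm _).commute hf hg])
  have mφ : Measurable fun z : Fin 3 → V => (z 0, z 1) := by fun_prop
  have p := J.isPoly1.comp mφ BM.one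
  have mH : Measurable fun q : V × V => k⁻¹ • (q.1 ⨯₃ q.2) := by
    refine Continuous.measurable (continuous_pi fun i => ?_)
    fin_cases i <;> simp [cross_apply] <;> fun_prop
  have key := (p.mul S 1).ext_prod (p.mul 1 S) (fun f g hf hg => by
    have := hE ![f, g, fun _ => 1] fun i => by fin_cases i; exacts [hf, hg, BM.one]
    simp only [Fin.prod_univ_three, cons_val_zero, cons_val_one, cons_val, mul_one, word_three,
      POVM.E_one] at this
    simp only [one_mul, mul_one, this]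
    exact ((h₀ f hf).mul_right (h₁ g hg)).eq) _ (hu.comp mH)
  have e2 := hE ![fun _ => 1, fun _ => 1, u] fun i => by fin_cases i; exacts [BM.one, BM.one, hu]
  simp only [Fin.prod_univ_three, cons_val_zero, cons_val_one, cons_val, one_mul, word_three,
    POVM.E_one] at e2
  have hO : MeasurableSet (Set.pi Set.univ fun _ : Fin 3 => ({0}ᶜ : Set V)) :=
    MeasurableSet.univ_pi fun _ => (measurableSet_singleton 0).compl
  have e3 : J.E (ic (Set.pi Set.univ fun _ : Fin 3 => ({0}ᶜ : Set V))) = 1 := by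
    have := hE (fun _ y => ic {0}ᶜ y * 1) fun _ => Cv1.bm_cut BM.one
    rw [← word_conc hs _ fun _ => BM.one, word_one] at this
    rw [← this]
    congr 1
    funext w
    by_cases hw : w ∈ Set.pi Set.univ fun _ : Fin 3 => ({0}ᶜ : Set V)
    · rw [ic_of_mem hw, Finset.prod_eq_one fun i _ => by rw [ic_of_mem (hw i trivial), one_mul]]
    · rw [ic_of_notMem hw]
      simp only [Set.mem_pi, Set.mem_univ, true_imp_iff, not_forall] at hw
      obtain ⟨i, hi⟩ := hw
      exact (Finset.prod_eq_zero (Finset.mem_univ i) (by rw [ic_of_notMem hi, zero_mul])).symm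
  have hm : MeasurableSet (supp (word ![A (ev 0), A (ev 1), B (ev 2)])) :=
    isClosed_supp.measurableSet
  have e4 := hJ.ic_mul_ic hm hO
  rw [joint_supp hJ hE, e3, mul_one] at e4
  have e5 : J.E (fun z => u (z 2)) = J.E fun z => u (k⁻¹ • (z 0 ⨯₃ z 1)) :=
    J.E_congr_of_conc (hm.inter hO) e4.symm (hu.comp (measurable_pi_apply 2))
      (hu.comp (mH.comp mφ)) fun z hz => by
        rcases cross h h5 hz.1 fun i => hz.2 i trivial with e | e
        · rw [e, inv_smul_smul₀ hk.ne']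
        · rw [e, smul_neg, inv_smul_smul₀ hk.ne', hev]
  simp only [one_mul, mul_one] at key
  rw [← e2, e5]
  exact key

theorem det (h : Geo I I' L Φ Ψ A B sc sc') : ∃ D > (0 : ℝ),
    ∀ z ∈ supp (word ![A (ev 0), A (ev 1), A (ev 2)]), (∀ i, z i ≠ 0) →
      |z 0 ⬝ᵥ (z 1 ⨯₃ z 2)| = D := by
  obtain ⟨k, hk, h5⟩ := h.f5
  obtain ⟨k', hk', h5'⟩ := h.symm.f5
  refine ⟨k * (k' * k), by positivity, fun z hz h0 => ?_⟩
  refine lift_closed (P := ![A (ev 0), A (ev 1), B (ev 2), A (ev 2)]) (fun i => ?_)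
    (e := ![0, 1, 3]) (by decide) (u := fun _ _ => 1) (fun _ => BM.one) (fun φ hφ => ?_)
    (S := {z : Fin 3 → V | |z 0 ⬝ᵥ (z 1 ⨯₃ z 2)| = k * (k' * k)})
    (isClosed_eq (by
      simp only [dotProduct, cross_apply, Fin.sum_univ_three, cons_val_zero, cons_val_one, cons_val]
      fun_prop) continuous_const) (fun z hz h0 => ?_) hz h0
  · fin_cases i
    exacts [h.lift.sym _, h.lift.sym _, h.lift'.sym _, h.lift.sym _]
  · have he : Function.Injective (![0, 1, 3] : Fin 3 → Fin 4) := by decide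
    have e0 := he.extend_apply φ (fun _ _ => (1 : ℂ)) 0
    have e1 := he.extend_apply φ (fun _ _ => (1 : ℂ)) 1
    have e3 := he.extend_apply φ (fun _ _ => (1 : ℂ)) 2
    have e2 := Function.extend_apply' (f := (![0, 1, 3] : Fin 3 → Fin 4)) φ (fun _ _ => (1 : ℂ)) 2
      (by decide)
    simp only [cons_val_zero, cons_val_one, cons_val] at e0 e1 e3
    simp [e0, e1, e2, e3, POVM.E_one]
  · have s012 := mem_supp_of_factor (W' := word ![A (ev 0), A (ev 1), B (ev 2)]) (e := ![0, 1, 2])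
      (by decide) (fun f hf => ⟨1, (A (ev 2)).E (f 3), by simp [mul_assoc]⟩) hz
    have s23 := mem_supp_of_factor (W' := word ![B (ev 2), A (ev 2)]) (e := ![2, 3])
      (by decide) (fun f hf => ⟨(A (ev 0)).E (f 0) * (A (ev 1)).E (f 1), 1, by
        simp [mul_assoc]⟩) hz
    have l : |z 2 ⬝ᵥ z 3| = k' * k := h.symm.opp hk' hk h5' h5 (by simp [ev_dot_ev]) s23
      fun i => h0 _
    have c : z 0 ⨯₃ z 1 = k • z 2 ∨ z 0 ⨯₃ z 1 = -(k • z 2) := cross h h5 s012 fun i => h0 _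
    change |z 0 ⬝ᵥ (z 1 ⨯₃ z 3)| = _
    rw [triple_product_permutation, triple_product_permutation, dotProduct_comm, ← l]
    rcases c with c | c <;> rw [c] <;> simp [abs_mul, abs_of_pos hk]

end En

theorem Geo.AB (h : Geo I I' L Φ Ψ A B sc sc') {x y : V} (hx : x ≠ 0) (hy : y ≠ 0)
    {f g : V → ℂ} (hf : BM f) (hg : BM g) : Commute ((A x).E f) ((B y).E g) := by
  obtain ⟨q, rfl⟩ := exists_ac_ev hy 2
  have h1 := h.covB (ev_ne_zero 2) hg (dl q)
  have h2 := h.lift.covU _ (ac_ne_zero (dl q)⁻¹ hx) f hf (dl q)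
  rw [dl_dl] at h1
  rw [← ac_mul, mul_inv_cancel, ac_one] at h2
  rw [← h1, ← h2]
  exact En.commute_conj _ (En.commute_B2 h
    (fun _ => h.AA (ac_ne_zero _ hx) (ev_ne_zero 0) hf)
    (fun _ => h.AA (ac_ne_zero _ hx) (ev_ne_zero 1) hf) hg)

theorem com : ComStmt := fun K _ _ _ I I' L Φ Ψ A B sc sc' h =>
  { AA := fun _ _ hx hx' _ _ => h.AA hx hx'
    AB := fun _ _ hx hy _ _ => h.AB hx hy
    lc := h.lc
    lc' := h.lc'
    cross := h.f5.imp fun k hk => ⟨hk.1, fun z hz => En.cross h hk.2 hz⟩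
    det := En.det h }

end Crest.Agent.N111
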