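import Crest.Agent.N111.E.Api

/-!
# Row 111, module F: opposite pairs are never incident (`Geo.opp0`, the statement `Geo.opp` with
`F5` unfolded).
-/

set_option autoImplicit false
set_option linter.unusedSectionVars false
set_option linter.unusedVariables false

namespace Crest.Agent.N111

open MeasureTheory Topology Filter Matrix
open scoped InnerProductSpace

variable {K : Type} [NormedAddCommGroup K] [InnerProductSpace ℂ K] [CompleteSpace K]

variable {I I' : Ind K} {L : ℕ → ℝ} {Φ Ψ A B : V → POVM V K} {sc sc' : ℝ → ℝ}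

theorem Opp.alg {a b a' b' : V} {k k' : ℝ} (hk : 0 < k) (hk' : 0 < k') (ha' : a' ≠ 0)
    (h1 : a ⨯₃ a' = k • b ∨ a ⨯₃ a' = -(k • b)) (h2 : b ⨯₃ b' = k' • a' ∨ b ⨯₃ b' = -(k' • a'))
    (h3 : a' ⬝ᵥ b' = 0) : |a ⬝ᵥ b'| = k * k' := by
  have e : ‖(a ⨯₃ a') ⨯₃ b'‖ = |a ⬝ᵥ b'| * ‖a'‖ := by
    rw [cross_cross_eq_smul_sub_smul, h3, zero_smul, sub_zero, norm_smul, Real.norm_eq_abs]
  have e' : ‖(a ⨯₃ a') ⨯₃ b'‖ = k * k' * ‖a'‖ := by
    rcases h1 with h1 | h1 <;> rcases h2 with h2 | h2 <;>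
      simp [h1, h2, norm_smul, abs_of_pos hk, abs_of_pos hk', mul_assoc]
  exact mul_right_cancel₀ (norm_ne_zero_iff.2 ha') (e.symm.trans e')

theorem Geo.opp0 (h : Geo I I' L Φ Ψ A B sc sc') {k k' : ℝ} (hk : 0 < k) (hk' : 0 < k')
    (h5 : ∀ x x' y : V, y ≠ 0 → (x ⨯₃ x' = y ∨ x ⨯₃ x' = -y) →
      ∀ z ∈ supp (word ![A x, B y, A x']), (∀ i, z i ≠ 0) →
        z 0 ⨯₃ z 2 = k • z 1 ∨ z 0 ⨯₃ z 2 = -(k • z 1))
    (h5' : ∀ x x' y : V, y ≠ 0 → (x ⨯₃ x' = y ∨ x ⨯₃ x' = -y) →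
      ∀ z ∈ supp (word ![B x, A y, B x']), (∀ i, z i ≠ 0) →
        z 0 ⨯₃ z 2 = k' • z 1 ∨ z 0 ⨯₃ z 2 = -(k' • z 1))
    {x y : V} (hxy : x ⬝ᵥ y = 1) {z : Fin 2 → V}
    (hz : z ∈ supp (word ![A x, B y])) (h0 : ∀ i, z i ≠ 0) : |z 0 ⬝ᵥ z 1| = k * k' := by
  obtain ⟨g, rfl, rfl⟩ := exists_ac_opp hxy
  rw [← supp_word_conj (P := ![A (ev 0), B (ev 0)]) (I.U.mem_unitary g) fun i f hf => by
    rw [URep.star_apply]
    fin_cases i
    exacts [h.lift.covU _ (ev_ne_zero 0) f hf g, h.covB (ev_ne_zero 0) hf g]] at hz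
  by_contra hn
  have hO := (isClosed_eq (by fun_prop : Continuous fun z : Fin 2 → V => |z 0 ⬝ᵥ z 1|)
    (continuous_const (y := k * k'))).isOpen_compl.mem_nhds hn
  rw [nhds_pi, mem_pi'] at hO
  obtain ⟨t, O, hO, hsub⟩ := hO
  have he : Function.Injective (![0, 3] : Fin 2 → Fin 4) := by decide
  obtain ⟨w, hw, w0, hO'⟩ := exists_lift_supp
    (isPoly_word ![A (ev 0), B (ev 2), A (ev 1), B (ev 0)]) (word_conc fun i => by
      fin_cases i
      exacts [h.lift.sym _, h.lift'.sym _, h.lift.sym _, h.lift'.sym _]) he (fun φ hφ => by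
      have e0 := he.extend_apply φ (fun _ _ => (1 : ℂ)) 0
      have e3 := he.extend_apply φ (fun _ _ => (1 : ℂ)) 1
      have e1 := Function.extend_apply' (f := (![0, 3] : Fin 2 → Fin 4)) φ (fun _ _ => (1 : ℂ)) 1
        (by decide)
      have e2 := Function.extend_apply' (f := (![0, 3] : Fin 2 → Fin 4)) φ (fun _ _ => (1 : ℂ)) 2
        (by decide)
      simp only [cons_val_zero, cons_val_one] at e0 e3
      rw [word_two, word_four, e0, e1, e2, e3, POVM.E_one, POVM.E_one, mul_one, mul_one])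
    hz h0 hO
  have s012 := mem_supp_of_factor (W' := word ![A (ev 0), B (ev 2), A (ev 1)]) (e := ![0, 1, 2])
    (by decide) (fun f hf => ⟨1, (B (ev 0)).E (f 3), by simp [mul_assoc]⟩) hw
  have s123 := mem_supp_of_factor (W' := word ![B (ev 2), A (ev 1), B (ev 0)]) (e := ![1, 2, 3])
    (by decide) (fun f hf => ⟨(A (ev 0)).E (f 0), 1, by simp [mul_assoc]⟩) hw
  have s23 := mem_supp_of_factor (W' := word ![A (ev 1), B (ev 0)]) (e := ![2, 3]) (by decide)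
    (fun f hf => ⟨(A (ev 0)).E (f 0) * (B (ev 2)).E (f 1), 1, by simp [mul_assoc]⟩) hw
  have e20 : ev 2 ⨯₃ ev 0 = ev 1 := by
    funext i; fin_cases i <;> simp [cross_apply, ev]
  exact hsub (show (fun i => w (![0, 3] i)) ∈ _ from fun i _ => hO' i) (Opp.alg hk hk' (w0 2)
    (h5 _ _ _ (ev_ne_zero 2) (Or.inl Geo2.ev01) _ s012 fun i => w0 _)
    (h5' _ _ _ (ev_ne_zero 1) (Or.inl e20) _ s123 fun i => w0 _)
    (h.incAB (ev_ne_zero 1) (ev_ne_zero 0) (by simp [ev_dot_ev]) _ s23))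

end Crest.Agent.N111
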