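import Crest.Agent.N111.F.Ccr
import Crest.Agent.N111.F.Opp

/-! # Row 111: the line through two points. -/

set_option autoImplicit false
set_option linter.unusedSectionVars false
set_option linter.unusedVariables false
set_option maxHeartbeats 400000

namespace Crest.Agent.N111

open MeasureTheory Topology Filter Matrix
open scoped InnerProductSpace

variable {K : Type} [NormedAddCommGroup K] [InnerProductSpace ℂ K] [CompleteSpace K]

variable {I I' : Ind K} {L : ℕ → ℝ} {Φ Ψ A B : V → POVM V K} {sc sc' : ℝ → ℝ}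


/-- the lifted line through two lifted points -/
def F5 (A B : V → POVM V K) (k : ℝ) : Prop :=
  ∀ x x' y : V, y ≠ 0 → (x ⨯₃ x' = y ∨ x ⨯₃ x' = -y) → ∀ z ∈ supp (word ![A x, B y, A x']),
    (∀ i, z i ≠ 0) → z 0 ⨯₃ z 2 = k • z 1 ∨ z 0 ⨯₃ z 2 = -(k • z 1)

namespace F5a

theorem dot_ev {i k : Fin 3} (h : i ≠ k) : ev i ⬝ᵥ ev k = 0 := by rw [ev_dot_ev, if_neg h]

theorem exists_ratio {a b c : V} (hb : b ≠ 0) (h1 : a ⬝ᵥ b = 0) (h2 : b ⬝ᵥ c = 0) :
    ∃ v : ℝ, a ⨯₃ c = v • b :=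
  exists_smul_of_cross_eq_zero hb (by
    rw [cross_cross_eq_smul_sub_smul', h1, h2, zero_smul, zero_smul, sub_zero])

theorem ratio_eq {u b : V} {v : ℝ} (hb : b ≠ 0) (h : u = v • b) : ‖u‖ / ‖b‖ = |v| := by
  rw [h, norm_smul, mul_div_cancel_right₀ _ (norm_ne_zero_iff.2 hb), Real.norm_eq_abs]

theorem alg {a b c d e : V} {κ : ℝ} (hκ : 0 < κ) (hb : b ≠ 0) (hd : d ≠ 0) (h1 : a ⬝ᵥ b = 0)
    (h2 : b ⬝ᵥ c = 0) (h3 : c ⬝ᵥ d = 0) (h4 : d ⬝ᵥ e = 0) (n1 : a ⨯₃ c ≠ 0) (n2 : c ⨯₃ e ≠ 0)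
    (n3 : b ⨯₃ d ≠ 0) (l1 : b ⬝ᵥ e ≠ 0 → |b ⬝ᵥ e| = κ) (l2 : d ⬝ᵥ a ≠ 0 → |d ⬝ᵥ a| = κ) :
    ‖a ⨯₃ c‖ * ‖d‖ = ‖c ⨯₃ e‖ * ‖b‖ := by
  obtain ⟨w, hw⟩ := exists_ratio hb h1 h2
  obtain ⟨w', hw'⟩ := exists_ratio hd h3 h4
  have w0 : w ≠ 0 := fun e => n1 (by rw [hw, e, zero_smul])
  have w0' : w' ≠ 0 := fun e => n2 (by rw [hw', e, zero_smul])
  have e1 : b ⬝ᵥ e ≠ 0 := fun e0 => n3 (by
    have : b ⨯₃ (c ⨯₃ e) = 0 := by
      rw [cross_cross_eq_smul_sub_smul', e0, dotProduct_comm, h2, zero_smul, zero_smul, sub_zero]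
    simpa [hw', w0'] using this)
  have e2 : w * (b ⬝ᵥ e) = w' * (d ⬝ᵥ a) := by
    have := triple_product_permutation e a c
    rw [hw, hw', dotProduct_smul, dotProduct_smul, dotProduct_comm e, dotProduct_comm a] at this
    exact this
  have e3 : d ⬝ᵥ a ≠ 0 := fun e0 => mul_ne_zero w0 e1 (by rw [e2, e0, mul_zero])
  have e4 := congrArg abs e2
  rw [abs_mul, abs_mul, l1 e1, l2 e3, mul_left_inj' hκ.ne'] at e4
  rw [hw, hw', norm_smul, norm_smul, Real.norm_eq_abs, Real.norm_eq_abs, e4]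
  ring

theorem inc3 (h : Geo I I' L Φ Ψ A B sc sc') {x x' y : V} (hx : x ≠ 0) (hx' : x' ≠ 0) (hy : y ≠ 0)
    (h1 : x ⬝ᵥ y = 0) (h2 : y ⬝ᵥ x' = 0) {z : Fin 3 → V} (hz : z ∈ supp (word ![A x, B y, A x']))
    (h0 : z 1 ≠ 0) : ∃ v : ℝ, z 0 ⨯₃ z 2 = v • z 1 :=
  exists_ratio h0
    (h.incAB hx hy h1 _ (mem_supp_of_factor (W' := word ![A x, B y]) (e := ![0, 1]) (by decide)
      (fun f hf => ⟨1, (A x').E (f 2), by simp⟩) hz))
    (h.symm.incAB hy hx' h2 _ (mem_supp_of_factor (W' := word ![B y, A x']) (e := ![1, 2])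
      (by decide) (fun f hf => ⟨(A x).E (f 0), 1, by simp [mul_assoc]⟩) hz))

theorem supp_conj (h : Geo I I' L Φ Ψ A B sc sc') (g : G) {y : V}
    (hy : ac (dl g) (ev 2) = y ∨ ac (dl g) (ev 2) = -y) :
    supp (word ![A (ev 0), B (ev 2), A (ev 1)])
      = supp (word ![A (ac g (ev 0)), B y, A (ac g (ev 1))]) :=
  supp_word_conj (I.U.mem_unitary g) fun i f hf => by
    rw [URep.star_apply]
    fin_cases i
    · exact h.lift.covU _ (ev_ne_zero 0) f hf g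
    · refine (h.covB (ev_ne_zero 2) hf g).trans ?_
      rcases hy with e | e
      · rw [e]; rfl
      · rw [e]
        refine h.lift'.neg (fun e0 => ac_ne_zero (dl g) (ev_ne_zero 2) ?_) hf
        rw [e, e0, neg_zero]
    · exact h.lift.covU _ (ev_ne_zero 1) f hf g

theorem supp_cyc (h : Geo I I' L Φ Ψ A B sc sc') : supp (word ![A (ev 0), B (ev 2), A (ev 1)])
    = supp (word ![A (ev 1), B (ev 0), A (ev 2)]) := by
  obtain ⟨g, h0, h1⟩ := exists_ac_pair (x := ev 1) (x' := ev 2) (Geo2.ev12 ▸ ev_ne_zero 0)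
  have := supp_conj h g (y := ev 0) (Or.inl (by rw [← Geo2.ev01, ← ac_cross, h0, h1, Geo2.ev12]))
  rwa [h0, h1] at this

end F5a

open F5a in
theorem Geo.w5_eq (h : Geo I I' L Φ Ψ A B sc sc') {z : Fin 5 → V} (hz : z ∈ supp (W5 A B))
    (h0 : ∀ i, z i ≠ 0) : ‖z 0 ⨯₃ z 2‖ / ‖z 1‖ = ‖z 2 ⨯₃ z 4‖ / ‖z 3‖ := by
  rw [div_eq_div_iff (norm_ne_zero_iff.2 (h0 1)) (norm_ne_zero_iff.2 (h0 3))]
  obtain ⟨κ, hκ, hl⟩ := h.level
  have cc : ∀ i k : Fin 5, Continuous fun z : Fin 5 → V => z i ⨯₃ z k := fun i k => by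
    refine continuous_pi fun j => ?_
    fin_cases j <;> simp [cross_apply] <;> fun_prop
  refine closure_minimal (t := {z : Fin 5 → V | ‖z 0 ⨯₃ z 2‖ * ‖z 3‖ = ‖z 2 ⨯₃ z 4‖ * ‖z 1‖})
    ?_ (isClosed_eq ((cc 0 2).norm.mul (by fun_prop)) ((cc 2 4).norm.mul (by fun_prop)))
    (h.nd5 hz h0)
  rintro z ⟨hz, h0, n1, n2, n3⟩
  have c : ∀ {i j : Fin 3}, i ≠ j → ∀ {f g : V → ℂ}, BM f → BM g →
      (A (ev i)).E f * (B (ev j)).E g = (B (ev j)).E g * (A (ev i)).E f := fun hij f g hf hg =>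
    h.AB_inc (ev_ne_zero _) (ev_ne_zero _) (dot_ev hij) hf hg
  have s01 := mem_supp_of_factor (W' := word ![A (ev 0), B (ev 2)]) (e := ![0, 1]) (by decide)
    (fun f hf => ⟨1, (A (ev 1)).E (f 2) * (B (ev 0)).E (f 3) * (A (ev 2)).E (f 4), by
      simp [W5, mul_assoc]⟩) hz
  have s12 := mem_supp_of_factor (W' := word ![B (ev 2), A (ev 1)]) (e := ![1, 2]) (by decide)
    (fun f hf => ⟨(A (ev 0)).E (f 0), (B (ev 0)).E (f 3) * (A (ev 2)).E (f 4), by
      simp [W5, mul_assoc]⟩) hz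
  have s23 := mem_supp_of_factor (W' := word ![A (ev 1), B (ev 0)]) (e := ![2, 3]) (by decide)
    (fun f hf => ⟨(A (ev 0)).E (f 0) * (B (ev 2)).E (f 1), (A (ev 2)).E (f 4), by
      simp [W5, mul_assoc]⟩) hz
  have s34 := mem_supp_of_factor (W' := word ![B (ev 0), A (ev 2)]) (e := ![3, 4]) (by decide)
    (fun f hf => ⟨(A (ev 0)).E (f 0) * (B (ev 2)).E (f 1) * (A (ev 1)).E (f 2), 1, by
      simp [W5, mul_assoc]⟩) hz
  have s14 := mem_supp_of_factor (W' := word ![B (ev 2), A (ev 2)]) (e := ![1, 4]) (by decide)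
    (fun f hf => ⟨(A (ev 0)).E (f 0) * (A (ev 1)).E (f 2), (B (ev 0)).E (f 3), by
      rw [W5, word_five, mul_assoc _ ((B (ev 0)).E (f 3)), ← c (by decide) (hf 4) (hf 3),
        mul_assoc ((A (ev 0)).E (f 0)), ← c (by decide) (hf 2) (hf 1)]
      simp [mul_assoc]⟩) hz
  have s03 := mem_supp_of_factor (W' := word ![A (ev 0), B (ev 0)]) (e := ![0, 3]) (by decide)
    (fun f hf => ⟨(B (ev 2)).E (f 1), (A (ev 1)).E (f 2) * (A (ev 2)).E (f 4), by
      rw [W5, word_five, c (by decide) (hf 0) (hf 1), mul_assoc _ ((A (ev 1)).E (f 2)),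
        c (by decide) (hf 2) (hf 3)]
      simp [mul_assoc]⟩) hz
  have s30 := supp_word_rev _ s03
  rw [show (fun i : Fin 2 => ![A (ev 0), B (ev 0)] i.rev) = ![B (ev 0), A (ev 0)] by
    funext i; fin_cases i <;> rfl] at s30
  exact alg hκ (h0 1) (h0 3)
    (h.incAB (ev_ne_zero 0) (ev_ne_zero 2) (dot_ev (by decide)) _ s01)
    (h.symm.incAB (ev_ne_zero 2) (ev_ne_zero 1) (dot_ev (by decide)) _ s12)
    (h.incAB (ev_ne_zero 1) (ev_ne_zero 0) (dot_ev (by decide)) _ s23)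
    (h.symm.incAB (ev_ne_zero 0) (ev_ne_zero 2) (dot_ev (by decide)) _ s34) n1 n2 n3
    (hl (ev 2) (ev 2) (by simp [ev_dot_ev]) _ s14) (hl (ev 0) (ev 0) (by simp [ev_dot_ev]) _ s30)

namespace F5a

/-- the ratio -/
noncomputable def rt (z : Fin 3 → V) : ℝ := ‖z 0 ⨯₃ z 2‖ / ‖z 1‖

theorem contAt_rt {z : Fin 3 → V} (h : z 1 ≠ 0) : ContinuousAt rt z := by
  have cc : Continuous fun z : Fin 3 → V => z 0 ⨯₃ z 2 := by
    refine continuous_pi fun j => ?_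
    fin_cases j <;> simp [cross_apply] <;> fun_prop
  exact cc.norm.continuousAt.div (continuous_apply 1).norm.continuousAt (norm_ne_zero_iff.2 h)

theorem rt_sg {z z' : Fin 3 → V} (h : ∀ k, z' k = z k ∨ z' k = -z k) : rt z' = rt z := by
  rcases h 0 with e0 | e0 <;> rcases h 1 with e1 | e1 <;> rcases h 2 with e2 | e2 <;>
    simp only [rt, e0, e1, e2, map_neg, LinearMap.neg_apply, norm_neg]

theorem rt_eq (h : Geo I I' L Φ Ψ A B sc sc') {z z' : Fin 3 → V}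
    (hz : z ∈ supp (word ![A (ev 0), B (ev 2), A (ev 1)])) (h0 : ∀ i, z i ≠ 0)
    (hz' : z' ∈ supp (word ![A (ev 0), B (ev 2), A (ev 1)])) (h0' : ∀ i, z' i ≠ 0) :
    rt z = rt z' := by
  by_contra hne
  obtain ⟨J, J', hJ, hJ', m, m', hd⟩ := t2_separation hne
  rw [supp_cyc h] at hz'
  have hW : I.CovW ![false, true, false] (word ![A (ev 1), B (ev 0), A (ev 2)]) := by
    have := h.covW ![false, true, false] (x := ![ev 1, ev 0, ev 2]) fun i => by
      fin_cases i <;> exact ev_ne_zero _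
    rwa [show (fun i => if ![false, true, false] i then B (![ev 1, ev 0, ev 2] i)
      else A (![ev 1, ev 0, ev 2] i)) = ![A (ev 1), B (ev 0), A (ev 2)] by
        funext i; fin_cases i <;> rfl] at this
  have n10 : (1 : Fin 3) ≠ 0 := by decide
  have hO : ∀ᶠ y in 𝓝 z, (∀ i, y i ≠ 0) ∧ rt y ∈ J :=
    (eventually_all.2 fun i => (continuous_apply i).continuousAt.eventually_ne (h0 i)).and
      ((contAt_rt (h0 1)).eventually (hJ.mem_nhds m))
  rw [Filter.Eventually, nhds_pi, mem_pi'] at hO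
  obtain ⟨t, O', hO', hsub⟩ := hO
  refine hz (fun i => interior (O' i)) (fun i => interior_mem_nhds.2 (hO' i)) fun f hf hf0 => ?_
  refine hW.sep n10 (fun g hg b => ?_)
    (Z := {y | y 1 ≠ 0 ∧ ∃ v : ℝ, y 0 ⨯₃ y 2 = v • y 1 ∧ |v| ∈ J'}) ?_ ?_ hz' ?_ ?_
  · rw [word_three]
    refine ((h.lift.commute_U (ev_ne_zero 1) (by simp [ac_tv, ev]) (hg 0)).mul_left ?_).mul_left
      (h.lift.commute_U (ev_ne_zero 2) (by simp [ac_tv, ev]) (hg 2))
    have h1 := congrArg (· * I.U (tv n10 b)) (h.covB (ev_ne_zero 0) (hg 1) (tv n10 b))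
    have h2 : ac (dl (tv n10 b)) (ev 0) = ev 0 := by simp [dl_tv, ac_tv, ev]
    simp only [h2, mul_assoc, ← map_mul, inv_mul_cancel, map_one, mul_one] at h1
    exact h1.symm
  · rintro y ⟨y1, v, e, hv⟩ y' hs
    rcases hs 0 with e0 | e0 <;> rcases hs 1 with e1 | e1 <;> rcases hs 2 with e2 | e2 <;>
      refine ⟨by simpa [e1] using y1, ?_⟩ <;>
      first
        | (refine ⟨v, ?_, hv⟩; simp [e0, e1, e2, e]; done)
        | (refine ⟨-v, ?_, by rwa [abs_neg]⟩; simp [e0, e1, e2, e])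
  · rintro y ⟨y1, v, e, hv⟩ ν
    refine ⟨ac_ne_zero _ y1, v, ?_, hv⟩
    change ac (ι ν) (y 0) ⨯₃ ac (ι ν) (y 2) = v • ac (ι (dl ν)) (y 1)
    rw [ac_cross, e, ac_smul, ι_dl]
  · filter_upwards [(continuous_apply 1).continuousAt.eventually_ne (h0' 1),
      (contAt_rt (h0' 1)).eventually (hJ'.mem_nhds m')] with y y1 hy y' hy' hs
    have y1' : y' 1 ≠ 0 := by rcases hs 1 with e | e <;> simpa [e] using y1
    obtain ⟨v, hv⟩ := inc3 h (ev_ne_zero 1) (ev_ne_zero 2) (ev_ne_zero 0) (dot_ev (by decide))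
      (dot_ev (by decide)) hy' y1'
    exact ⟨y1', v, hv, by rwa [← ratio_eq y1' hv, ← rt, rt_sg hs]⟩
  · intro O hO hZ g hg hg0
    have := (isPoly_word ![A (ev 0), B (ev 2), A (ev 1), B (ev 0), A (ev 2)]).nullOn_of_disjoint
      (O := ![interior (O' 0), interior (O' 1), interior (O' 2) ∩ O 0, O 1, {0}ᶜ ∩ O 2])
      (fun k => isSigmaCompact_of_isOpen ?_) (fun y hy hs => ?_)
      ![f 0, f 1, fun a => f 2 a * g 0 a, g 1, fun a => ic {0}ᶜ a * g 2 a] (fun k => ?_) fun k => ?_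
    · rw [word_five] at this
      simp only [cons_val_zero, cons_val_one, cons_val] at this
      rw [h.lift.pvm _ _ _ (hf 2) (hg 0), ← (h.lift.sym _).cut (hg 2)] at this
      rw [word_three, word_three, ← this]
      simp only [mul_assoc]
    · fin_cases k
      exacts [isOpen_interior, isOpen_interior, isOpen_interior.inter (hO 0), hO 1,
        isOpen_compl_singleton.inter (hO 2)]
    · have a1 : (∀ i, ![y 0, y 1, y 2] i ≠ 0) ∧ rt ![y 0, y 1, y 2] ∈ J := hsub fun i _ => by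
        fin_cases i
        exacts [interior_subset (hy 0), interior_subset (hy 1), interior_subset (hy 2).1]
      have s := mem_supp_of_factor (W' := word ![A (ev 1), B (ev 0), A (ev 2)]) (e := ![2, 3, 4])
        (by decide) (fun f hf => ⟨(A (ev 0)).E (f 0) * (B (ev 2)).E (f 1), 1, by
          simp [mul_assoc]⟩) hs
      obtain ⟨y3, v, e, hv⟩ := hZ _ s fun k => by
        fin_cases k
        exacts [(hy 2).2, hy 3, (hy 4).2]
      have a2 := h.w5_eq hs fun i => by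
        fin_cases i
        exacts [a1.1 0, a1.1 1, a1.1 2, y3, (hy 4).1]
      have a3 : ‖y 2 ⨯₃ y 4‖ / ‖y 3‖ = |v| := ratio_eq y3 e
      exact Set.disjoint_left.1 hd a1.2 (by rwa [← a3, ← a2] at hv)
    · fin_cases k
      exacts [hf 0, hf 1, (hf 2).mul (hg 0), hg 1, Cv1.bm_cut (hg 2)]
    · fin_cases k
      · exact hf0 0
      · exact hf0 1
      · intro a ha
        rcases not_and_or.1 ha with e | e
        · exact mul_eq_zero_of_left (hf0 2 a e) _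
        · exact mul_eq_zero_of_right _ (hg0 0 a e)
      · exact hg0 1
      · intro a ha
        rcases not_and_or.1 ha with e | e
        · exact mul_eq_zero_of_left (ic_of_notMem e) _
        · exact mul_eq_zero_of_right _ (hg0 2 a e)

end F5a

theorem F5a.exists_pt (h : Geo I I' L Φ Ψ A B sc sc') :
    ∃ y ∈ supp (word ![A (ev 0), B (ev 2), A (ev 1)]), (∀ i, y i ≠ 0) ∧ 0 < F5a.rt y := by
  have := I.nontrivial
  obtain ⟨w, hw, w0⟩ := exists_mem_supp_word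
    (P := ![A (ev 0), B (ev 2), A (ev 1), B (ev 0), A (ev 2)]) fun i => by
      fin_cases i
      exacts [h.lift.sym _, h.lift'.sym _, h.lift.sym _, h.lift'.sym _, h.lift.sym _]
  obtain ⟨y, hy, y0, n1, -⟩ := Set.Nonempty.of_closure ⟨w, h.nd5 hw w0⟩
  exact ⟨_, mem_supp_of_factor (W' := word ![A (ev 0), B (ev 2), A (ev 1)]) (e := ![0, 1, 2])
    (by decide) (fun f hf => ⟨1, (B (ev 0)).E (f 3) * (A (ev 2)).E (f 4), by
      simp [W5, mul_assoc]⟩) hy, fun i => y0 _,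
    div_pos (norm_pos_iff.2 n1) (norm_pos_iff.2 (y0 1))⟩

open F5a in
theorem Geo.f5 (h : Geo I I' L Φ Ψ A B sc sc') : ∃ k > (0 : ℝ), F5 A B k := by
  obtain ⟨y, s, y0, hk⟩ := exists_pt h
  refine ⟨rt y, hk, fun x x' b hb hx z hz h0 => ?_⟩
  have hc : x ⨯₃ x' ≠ 0 := by
    rcases hx with e | e <;> rw [e]
    exacts [hb, neg_ne_zero.2 hb]
  obtain ⟨g, rfl, rfl⟩ := exists_ac_pair hc
  rw [ac_cross, Geo2.ev01] at hx
  rw [← supp_conj h g hx] at hz
  obtain ⟨v, hv⟩ := inc3 h (ev_ne_zero 0) (ev_ne_zero 1) (ev_ne_zero 2) (dot_ev (by decide))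
    (dot_ev (by decide)) hz (h0 1)
  have e : |v| = rt y := (ratio_eq (h0 1) hv).symm.trans (rt_eq h hz h0 s y0)
  rw [← e, hv]
  rcases abs_choice v with e' | e' <;> rw [e']
  exacts [Or.inl rfl, Or.inr (by rw [neg_smul, neg_neg])]

/-- opposite pairs are never incident -/
theorem Geo.opp (h : Geo I I' L Φ Ψ A B sc sc') {k k' : ℝ} (hk : 0 < k) (hk' : 0 < k')
    (h5 : F5 A B k) (h5' : F5 B A k') {x y : V} (hxy : x ⬝ᵥ y = 1) {z : Fin 2 → V}
    (hz : z ∈ supp (word ![A x, B y])) (h0 : ∀ i, z i ≠ 0) : |z 0 ⬝ᵥ z 1| = k * k' :=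
  h.opp0 hk hk' h5 h5' hxy hz h0

end Crest.Agent.N111
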