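import Crest.Agent.N111.F.Toi

/-! # Row 111: the inversion `t ↦ t⁻¹`. -/

set_option autoImplicit false
set_option linter.unusedSectionVars false
set_option linter.unusedVariables false

namespace Crest.Agent.N111

open MeasureTheory Topology Filter Matrix
open scoped InnerProductSpace

variable {K : Type} [NormedAddCommGroup K] [InnerProductSpace ℂ K] [CompleteSpace K]

namespace InvA

variable {P : Fin 3 → POVM ℝ K} {c : ℝ × ℝ → ℂ}

theorem word3 (P : Fin 3 → POVM ℝ K) (f : Fin 3 → ℝ → ℂ) :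
    word P f = (P 0).E (f 0) * (P 1).E (f 1) * (P 2).E (f 2) := by
  simp [word, List.ofFn_succ, mul_assoc]

/-- weighted words in the coordinate `φ` -/
noncomputable def Wu (P : Fin 3 → POVM ℝ K) (u : Fin 3 → ℝ → ℂ) (φ : ℝ → ℝ)
    (f : Fin 3 → ℝ → ℂ) : K →L[ℂ] K := word P fun k t => u k t * f k (φ t)

theorem isPoly_Wu (P : Fin 3 → POVM ℝ K) {u : Fin 3 → ℝ → ℂ} (hu : ∀ k, BM (u k)) {φ : ℝ → ℝ}
    (hφ : Measurable φ) : IsPoly (Wu P u φ) :=
  (isPoly_word P).comp (φ := fun _ => φ) (fun _ => hφ) hu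

theorem isPoly_φ (P : Fin 3 → POVM ℝ K) {φ : ℝ → ℝ} (hφ : Measurable φ) :
    IsPoly fun f : Fin 3 → ℝ → ℂ => word P fun k t => f k (φ t) := by
  simpa only [one_mul] using
    (isPoly_word P).comp (φ := fun _ => φ) (u := fun _ _ => 1) (fun _ => hφ) fun _ => BM.one

theorem bm3 {f g h : ℝ → ℂ} (hf : BM f) (hg : BM g) (hh : BM h) : ∀ k, BM (![f, g, h] k) :=
  fun k => by fin_cases k <;> assumption

theorem toi_mul_ic (hP : (P 2).IsPVM) (hc : Integrable c) {φ : ℝ → ℝ} (hφ : Measurable φ)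
    {J : Set ℝ} (hJ : MeasurableSet J) (l : ℝ) :
    toi (fun f => word P fun k t => f k (φ t)) c l * (P 2).E (ic J)
      = toi (Wu P ![fun _ => 1, fun _ => 1, ic J] φ) c l := by
  have h1 := isPoly_φ P hφ
  rw [← one_mul (toi _ c l), toi_mul h1 hc]
  refine toi_congr (fun f hf => ?_) l
  rw [Wu, word3, word3, one_mul, mul_assoc, ← hP _ _ ((hf 2).comp hφ) (BM.ic hJ)]
  simp [mul_comm]

/-- **CUT** -/
theorem cut (hc : Integrable c) {R : ℝ} (hK : ∀ p : ℝ × ℝ, R < ‖p‖ → K2 c p = 0) {φ : ℝ → ℝ}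
    (hφ : Measurable φ) {J Z D' Z' : Set ℝ} (hJ : MeasurableSet J) (hZ : MeasurableSet Z)
    (hD' : IsCompact D') (hZ' : IsOpen Z') (h1 : D' ⊆ Z') (h2 : ∀ t ∈ J, φ t ∈ D')
    (h3 : ∀ t, φ t ∈ Z' → t ∈ Z) :
    ∀ᶠ l in atTop, toi (Wu P ![fun _ => 1, fun _ => 1, ic J] φ) c l
      = toi (Wu P ![ic Z, ic Z, ic J] φ) c l := by
  obtain ⟨δ, hδ, hth⟩ := hD'.exists_thickening_subset_open hZ' h1
  have p1 := isPoly_Wu P (bm3 BM.one BM.one (BM.ic hJ)) hφ
  have p2 := isPoly_Wu P (bm3 (BM.ic hZ) (BM.ic hZ) (BM.ic hJ)) hφ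
  filter_upwards [eventually_gt_atTop (|R| / δ)] with l hl
  have hl0 : 0 < l := lt_of_le_of_lt (by positivity) hl
  rw [div_lt_iff₀ hδ] at hl
  rw [← sub_eq_zero, toi_sub_W p1 p2 hc]
  refine toi_eq_zero (p1.sub p2) hc hK fun z hz => ?_
  have e2 : z 2 ∈ D' := by
    by_contra h
    refine hz ![Set.univ, Set.univ, D'ᶜ] (fun k => ?_) fun f hf h0 => ?_
    · fin_cases k
      exacts [univ_mem, univ_mem, hD'.isClosed.isOpen_compl.mem_nhds h]
    · have : (fun t => ic J t * f 2 (φ t)) = fun _ => 0 := funext fun t => by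
        by_cases ht : t ∈ J
        · rw [h0 2 _ (by simpa using h2 t ht), mul_zero]
        · rw [ic_of_notMem ht, zero_mul]
      simp [Wu, word3, this, POVM.E_zero]
  have far : ∀ y, y ∉ Z' → R < |l * (z 2 - y)| := fun y hy => by
    have : δ ≤ |z 2 - y| := by
      by_contra h
      exact hy (hth (Metric.mem_thickening_iff.2 ⟨_, e2, by
        rw [Real.dist_eq, abs_sub_comm]; exact not_le.1 h⟩))
    rw [abs_mul, abs_of_pos hl0]
    exact (le_abs_self R).trans_lt (hl.trans_le (by gcongr))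
  by_cases h0 : z 0 ∈ Z'
  · by_cases h1 : z 1 ∈ Z'
    · refine absurd (fun f hf h0 => ?_) (hz ![Z', Z', Set.univ] fun k => ?_)
      · have : ∀ k : Fin 3, (∀ y, y ∉ Z' → f k y = 0) →
            (fun t => ic Z t * f k (φ t)) = fun t => f k (φ t) := fun k hk => funext fun t => by
          by_cases ht : φ t ∈ Z'
          · rw [ic_of_mem (h3 t ht), one_mul]
          · rw [hk _ ht, mul_zero]
        simp [Wu, word3, this 0 (h0 0), this 1 (h0 1)]
      · fin_cases k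
        exacts [hZ'.mem_nhds h0, hZ'.mem_nhds h1, univ_mem]
    · refine (far _ h1).trans_le (le_trans (le_of_eq ?_) (norm_snd_le _))
      rw [Real.norm_eq_abs, ← abs_neg]
      congr 1
      ring
  · exact (far _ h0).trans_le (norm_fst_le ((_, _) : ℝ × ℝ))

theorem exists_cut {M : ℝ} (hM : 0 < M) : ∃ ϑ : ℝ → ℝ, ContDiff ℝ (⊤ : ℕ∞) ϑ ∧
    (∀ r, 1 / (2 * M) ≤ |r| → |r| ≤ 2 * M → ϑ r = 1) ∧
    ∀ r, ϑ r ≠ 0 → 1 / (4 * M) ≤ |r| ∧ |r| ≤ 3 * M := by
  let β : ContDiffBump (0 : ℝ) := ⟨2 * M, 3 * M, by positivity, by linarith⟩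
  let γ : ContDiffBump (0 : ℝ) := ⟨1 / (4 * M), 1 / (2 * M), by positivity,
    one_div_lt_one_div_of_lt (by positivity) (by linarith)⟩
  refine ⟨fun r => β r * (1 - γ r), β.contDiff.mul (contDiff_const.sub γ.contDiff),
    fun r h1 h2 => ?_, fun r h => ⟨?_, ?_⟩⟩
  · beta_reduce
    rw [β.one_of_mem_closedBall (by simpa using h2), γ.zero_of_le_dist (by simpa [γ] using h1)]
    simp
  · by_contra h'
    exact h (by beta_reduce; rw [γ.one_of_mem_closedBall (by simpa [γ] using (not_le.1 h').le)]; simp)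
  · by_contra h'
    exact h (by beta_reduce; rw [β.zero_of_le_dist (by simpa using (not_le.1 h').le)]; simp)

/-- the five dimensional density -/
theorem exists_five (hs : ContDiff ℝ (⊤ : ℕ∞) (K2 c)) {R : ℝ}
    (hK : ∀ p : ℝ × ℝ, R < ‖p‖ → K2 c p = 0) {M : ℝ} (hM : 0 < M) :
    ∃ d : (Fin 5 → ℝ) → ℂ, Integrable d ∧ Integrable (fun w => ‖d w‖ * ‖w‖) ∧
      ∀ (s y : ℝ) (r : Fin 3 → ℝ), (∀ k, 1 / (2 * M) ≤ |r k| ∧ |r k| ≤ 2 * M) →
        KN d ![s, y, r 0, r 1, r 2] = K2 c (s * r 0 * r 2, y * r 1 * r 2) := by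
  obtain ⟨ϑ, h1, h2, h3⟩ := exists_cut hM
  have h1' : ContDiff ℝ (⊤ : ℕ∞) fun r => (ϑ r : ℂ) := Complex.ofRealCLM.contDiff.comp h1
  obtain ⟨d, d1, d2, d3⟩ := exists_KN (f := fun p : Fin 5 → ℝ =>
    K2 c (p 0 * p 2 * p 4, p 1 * p 3 * p 4) * (ϑ (p 2) : ℂ) * (ϑ (p 3) : ℂ) * (ϑ (p 4) : ℂ))
    ((((hs.comp (by fun_prop)).mul (h1'.comp (by fun_prop))).mul
      (h1'.comp (by fun_prop))).mul (h1'.comp (by fun_prop)))
    (HasCompactSupport.intro (isCompact_closedBall 0 (3 * M + |R| * (4 * M) ^ 2)) fun p hp => by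
      by_contra h
      simp only [mul_eq_zero, not_or, Complex.ofReal_eq_zero] at h
      obtain ⟨⟨⟨k0, k2⟩, k3⟩, k4⟩ := h
      have hR : ‖((p 0 * p 2 * p 4, p 1 * p 3 * p 4) : ℝ × ℝ)‖ ≤ |R| :=
        (not_lt.1 fun h => k0 (hK _ h)).trans (le_abs_self R)
      have key : ∀ a b e : ℝ, ϑ b ≠ 0 → ϑ e ≠ 0 → |a * b * e| ≤ |R| → |a| ≤ |R| * (4 * M) ^ 2 :=
        fun a b e hb he h => by
          have b1 := (h3 b hb).1
          have e1 := (h3 e he).1
          rw [div_le_iff₀ (by positivity)] at b1 e1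
          rw [abs_mul, abs_mul] at h
          calc |a| = |a| * 1 * 1 := by ring
            _ ≤ |a| * (|b| * (4 * M)) * (|e| * (4 * M)) := by gcongr
            _ = |a| * |b| * |e| * (4 * M) ^ 2 := by ring
            _ ≤ _ := by gcongr
      have hp0 : 0 ≤ |R| * (4 * M) ^ 2 := by positivity
      refine hp (mem_closedBall_zero_iff.2 ((pi_norm_le_iff_of_nonneg (by positivity)).2 fun i => ?_))
      rw [Real.norm_eq_abs]
      fin_cases i
      · exact (key _ _ _ k2 k4 ((norm_fst_le ((_, _) : ℝ × ℝ)).trans hR)).trans (by linarith)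
      · exact (key _ _ _ k3 k4 ((norm_snd_le ((_, _) : ℝ × ℝ)).trans hR)).trans (by linarith)
      · exact (h3 _ k2).2.trans (by linarith)
      · exact (h3 _ k3).2.trans (by linarith)
      · exact (h3 _ k4).2.trans (by linarith))
  refine ⟨d, d1, d2, fun s y r hr => ?_⟩
  rw [d3]
  simp [h2 _ (hr 0).1 (hr 0).2, h2 _ (hr 1).1 (hr 1).2, h2 _ (hr 2).1 (hr 2).2]

/-- the five dimensional phases -/
noncomputable def p5 (l : ℝ) (ψ : ℝ → ℝ) (w : Fin 5 → ℝ) (k : Fin 3) (t : ℝ) : ℂ :=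
  ph l (w 0, w 1) k t * ex (w (k.addNat 2) * ψ t)

theorem integral_p5 (d : (Fin 5 → ℝ) → ℂ) (l : ℝ) (ψ : ℝ → ℝ) (z : Fin 3 → ℝ) :
    ∫ w, d w * ∏ k, p5 l ψ w k (z k)
      = KN d ![l * (z 2 - z 0), l * (z 1 - z 2), ψ (z 0), ψ (z 1), ψ (z 2)] := by
  refine integral_congr_ae (ae_of_all _ fun w => ?_)
  simp only [p5, ph, Fin.prod_univ_three, Fin.sum_univ_five, Matrix.cons_val_zero,
    Matrix.cons_val_one, Matrix.cons_val, ← ex_add]
  congr 2
  change _ + w 2 * _ + (_ + w 3 * _) + (_ + w 4 * _) = _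
  ring

theorem continuous_ph_t (l : ℝ) (w : ℝ × ℝ) (k : Fin 3) : Continuous (ph l w k) :=
  (continuous_ph k).comp (f := fun t : ℝ => ((l, w, t) : ℝ × (ℝ × ℝ) × ℝ)) (by fun_prop)
theorem continuous_ph_w (l : ℝ) (k : Fin 3) (t : ℝ) : Continuous fun w => ph l w k t :=
  (continuous_ph k).comp (f := fun w : ℝ × ℝ => ((l, w, t) : ℝ × (ℝ × ℝ) × ℝ)) (by fun_prop)

theorem kRep_p5 {d : (Fin 5 → ℝ) → ℂ} (hd : Integrable d) (l : ℝ) {ψ : ℝ → ℝ} (hψ : Measurable ψ)
    {Z : Set ℝ} (hZ : ContinuousOn ψ Z) : KRep _ volume d (p5 l ψ) fun _ => Z where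
  int := hd
  meas w k := (bm_ph _ _ _).1.mul (BM.ex (measurable_const.mul hψ)).1
  bd w k t := by rw [p5, norm_mul, norm_ph, norm_ex, one_mul]
  contω k t := ((continuous_ph_w l k t).comp (by fun_prop)).mul (continuous_ex.comp (by fun_prop))
  contY w k := (continuous_ph_t _ _ _).continuousOn.mul
    (continuous_ex.comp_continuousOn (continuousOn_const.mul hZ))

theorem kRep_ph (hc : Integrable c) (l : ℝ) {ψ : ℝ → ℝ} (hψ : Measurable ψ)
    {Z : Set ℝ} (hZ : ContinuousOn ψ Z) :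
    KRep _ volume c (fun w k t => ph l w k (ψ t)) fun _ => Z where
  int := hc
  meas w k := (bm_ph _ _ _).1.comp hψ
  bd w k t := (norm_ph _ _ _ _).le
  contω k t := continuous_ph_w l k _
  contY w k := (continuous_ph_t _ _ _).comp_continuousOn hZ

theorem norm_mul3 {a b e a' b' e' : K →L[ℂ] K} {ε : ℝ} (hb : ‖b‖ ≤ 1) (he : ‖e‖ ≤ 1)
    (ha' : ‖a'‖ ≤ 1) (hb' : ‖b'‖ ≤ 1) (h1 : ‖a - a'‖ ≤ ε) (h2 : ‖b - b'‖ ≤ ε) (h3 : ‖e - e'‖ ≤ ε) :
    ‖a * b * e - a' * b' * e'‖ ≤ 3 * ε := by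
  have hε : 0 ≤ ε := (norm_nonneg _).trans h1
  have : a * b * e - a' * b' * e' = (a - a') * b * e + a' * (b - b') * e + a' * b' * (e - e') := by
    noncomm_ring
  rw [this]
  have n3 : ∀ x y z : K →L[ℂ] K, ‖x * y * z‖ ≤ ‖x‖ * ‖y‖ * ‖z‖ := fun x y z =>
    (norm_mul_le _ _).trans (by gcongr; exact norm_mul_le _ _)
  have t1 : ‖(a - a') * b * e‖ ≤ ε * 1 * 1 := (n3 _ _ _).trans (by gcongr)
  have t2 : ‖a' * (b - b') * e‖ ≤ 1 * ε * 1 := (n3 _ _ _).trans (by gcongr)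
  have t3 : ‖a' * b' * (e - e')‖ ≤ 1 * 1 * ε := (n3 _ _ _).trans (by gcongr)
  linarith [norm_add₃_le (a := (a - a') * b * e) (b := a' * (b - b') * e) (c := a' * b' * (e - e'))]

/-- **LOC** -/
theorem loc (hc : Integrable c) (he : Ev c) (hs : ContDiff ℝ (⊤ : ℕ∞) (K2 c)) {R : ℝ}
    (hK : ∀ p : ℝ × ℝ, R < ‖p‖ → K2 c p = 0) {M : ℝ} (hM : 1 ≤ M) :
    ∃ C : ℝ, 0 ≤ C ∧ ∀ t₀ δ : ℝ, 1 / M ≤ |t₀| → |t₀| ≤ M → 0 < δ → δ ≤ 1 / (2 * M) →
      ∀ u : Fin 3 → ℝ → ℂ, (∀ k, Measurable (u k)) → (∀ k t, ‖u k t‖ ≤ 1) →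
      (∀ k t, t ∉ Metric.ball t₀ δ → u k t = 0) → ∀ l : ℝ,
      ‖toi (Wu P u Inv.inv) c l - toi (Wu P u id) c (t₀⁻¹ ^ 2 * l)‖ ≤ C * δ := by
  have hM0 : 0 < M := by linarith
  obtain ⟨d, d1, d2, d3⟩ := exists_five hs hK hM0
  refine ⟨(∫ w, ‖d w‖ * ‖w‖) * (6 * M ^ 2), mul_nonneg (integral_nonneg fun w => by positivity)
    (by positivity), fun t₀ δ h1 h2 hδ hδ' u hu hu1 hu0 l => ?_⟩
  set Z := Metric.ball t₀ δ with hZ
  have hub : ∀ k, BM (u k) := fun k => ⟨hu k, 1, hu1 k⟩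
  have hW := isPoly_Wu P hub measurable_id
  have e2 : 1 / M = 2 * (1 / (2 * M)) := by field_simp
  have e3 : 1 / M ≤ M := (div_le_one hM0).2 hM |>.trans hM
  have hr : ∀ t ∈ Z, 1 / (2 * M) ≤ |t| ∧ |t| ≤ 2 * M := fun t ht => by
    have h3 : |t - t₀| < δ := ht
    have h4 := abs_abs_sub_abs_le_abs_sub t t₀
    rw [abs_le] at h4
    constructor <;> linarith [h4.1, h4.2]
  have hpos : 0 < 1 / (2 * M) := by positivity
  have hne : ∀ t ∈ Z, t ≠ 0 := fun t ht => abs_pos.1 (hpos.trans_le (hr t ht).1)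
  have hri : ∀ t ∈ Z, 1 / (2 * M) ≤ |t⁻¹| ∧ |t⁻¹| ≤ 2 * M := fun t ht => by
    have h3 := abs_pos.2 (hne t ht)
    rw [abs_inv, one_div]
    refine ⟨inv_anti₀ h3 (hr t ht).2, inv_le_of_inv_le₀ (by positivity) ?_⟩
    rw [← one_div]
    exact (hr t ht).1
  have ht₀ : t₀ ∈ Z := Metric.mem_ball_self hδ
  have hconc : ∀ f : Fin 3 → ℝ → ℂ, (∀ k, BM (f k)) →
      Wu P u id f = Wu P u id fun k y => ic Z y * f k y := fun f _ => by
    unfold Wu
    congr 1
    funext k t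
    by_cases ht : t ∈ Z
    · simp [ic_of_mem ht]
    · simp [hu0 k t ht]
  have cinv : ContinuousOn (Inv.inv : ℝ → ℝ) Z := continuousOn_inv₀.mono fun t ht => hne t ht
  have K3 := kRep_p5 d1 l (ψ := fun _ => t₀⁻¹) measurable_const (Z := Z) continuousOn_const
  have K2' := kRep_p5 d1 l measurable_inv cinv
  have s1 : toi (Wu P u Inv.inv) c l = sInt volume d fun w => Wu P u id (p5 l Inv.inv w) := by
    refine hW.wd (fun _ => Metric.isOpen_ball) hconc (kRep_ph hc l measurable_inv cinv) K2'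
      isOpen_univ (fun _ _ _ => trivial) fun z _ hz => ?_
    rw [integral_ph c l fun k => (z k)⁻¹, integral_p5, d3 _ _ (fun k => (z k)⁻¹) fun k => hri _ (hz k)]
    have : c = fun w => c (-w) := funext fun w => (he w).symm
    rw [this, Fou.K2_neg, ← this]
    have := hne _ (hz 0)
    have := hne _ (hz 1)
    have := hne _ (hz 2)
    congr 1
    ext <;> simp only [Prod.fst_neg, Prod.snd_neg] <;> field_simp <;> ring
  have s2 : toi (Wu P u id) c (t₀⁻¹ ^ 2 * l)
      = sInt volume d fun w => Wu P u id (p5 l (fun _ => t₀⁻¹) w) := by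
    refine hW.wd (fun _ => Metric.isOpen_ball) hconc
      (kRep_ph hc _ measurable_id continuousOn_id) K3
      isOpen_univ (fun _ _ _ => trivial) fun z _ hz => ?_
    simp only [id]
    rw [integral_ph, integral_p5, d3 _ _ (fun _ => t₀⁻¹) fun _ => hri _ ht₀]
    congr 2 <;> ring
  have c2 := hW.sCont K2'.meas K2'.bd K2'.contω
  have c3 := hW.sCont K3.meas K3.bd K3.contω
  rw [s1, s2, ← sInt_sub d1 c2 c3]
  refine (norm_sInt_le' d1 (c2.sub c3) (b := fun w => ‖w‖ * (6 * M ^ 2 * δ))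
    (by simpa only [← mul_assoc] using ((d2.mul_const 6).mul_const (M ^ 2)).mul_const δ) fun w => ?_).trans (le_of_eq ?_)
  · have n1 : ∀ (ψ : ℝ → ℝ) (hψ : Measurable ψ) (k : Fin 3),
        ‖(P k).E fun t => u k t * p5 l ψ w k (id t)‖ ≤ 1 := fun ψ hψ k =>
      (P k).norm_E_le ((hu k).mul ((kRep_p5 d1 l hψ (Z := ∅) (continuousOn_empty _)).meas w k))
        zero_le_one fun t => by
          rw [Pi.mul_apply, norm_mul, p5, norm_mul, norm_ph, norm_ex, mul_one, mul_one]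
          exact hu1 k t
    have n2 : ∀ k : Fin 3, ‖(P k).E (fun t => u k t * p5 l Inv.inv w k (id t))
        - (P k).E fun t => u k t * p5 l (fun _ => t₀⁻¹) w k (id t)‖
          ≤ ‖w‖ * (2 * M ^ 2 * δ) := fun k => by
      have b2 : BM fun t => u k t * p5 l Inv.inv w k (id t) :=
        (hub k).mul ⟨K2'.meas w k, 1, K2'.bd w k⟩
      have b3 : BM fun t => u k t * p5 l (fun _ => t₀⁻¹) w k (id t) :=
        (hub k).mul ⟨K3.meas w k, 1, K3.bd w k⟩
      rw [← (P k).E_sub b2 b3]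
      refine (P k).norm_E_le (b2.sub b3).1 (by positivity) fun t => ?_
      by_cases ht : t ∈ Z
      · simp only [p5, id]
        rw [← mul_sub, ← mul_sub, norm_mul, norm_mul, norm_ph, one_mul]
        refine (mul_le_of_le_one_left (norm_nonneg _) (hu1 k t)).trans
          ((norm_ex_sub_ex_le _ _).trans ?_)
        rw [← mul_sub, abs_mul]
        gcongr
        · exact norm_le_pi_norm w _
        have h3 : |t - t₀| < δ := ht
        have h4 : |t₀⁻¹| ≤ M := by
          rw [abs_inv]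
          refine inv_le_of_inv_le₀ hM0 ?_
          rw [← one_div]
          exact h1
        have := hne t ht
        have := hne _ ht₀
        calc |t⁻¹ - t₀⁻¹| = |t⁻¹| * |t₀⁻¹| * |t - t₀| := by
              rw [← abs_mul, ← abs_mul, ← abs_neg]; congr 1; field_simp; ring
          _ ≤ 2 * M * M * δ := by gcongr; exact (hri t ht).2
          _ = _ := by ring
      · simp only [hu0 k t ht, zero_mul, sub_self, norm_zero]
        positivity
    rw [Wu, Wu, word3, word3]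
    exact (norm_mul3 (n1 _ measurable_inv 1) (n1 _ measurable_inv 2) (n1 _ measurable_const 0)
      (n1 _ measurable_const 1) (n2 0) (n2 1) (n2 2)).trans (le_of_eq (by ring))
  · simp only [← mul_assoc]
    rw [integral_mul_const, integral_mul_const, integral_mul_const]

theorem norm_sum_le {α : Type} (s : Finset α) {X E : α → K →L[ℂ] K} {a : ℝ} (ha : 0 ≤ a)
    (hX : ∀ n ∈ s, ‖X n‖ ≤ a) (hE : ∀ η, ∑ n ∈ s, ‖E n η‖ ^ 2 ≤ 1 * ‖η‖ ^ 2) :
    ‖∑ n ∈ s, X n * E n‖ ≤ a * √s.card := by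
  refine ContinuousLinearMap.opNorm_le_bound _ (by positivity) fun η => ?_
  rw [_root_.sum_apply]
  calc _ ≤ ∑ n ∈ s, a * ‖E n η‖ := norm_sum_le_of_le _ fun n hn =>
        ((X n).le_opNorm (E n η)).trans (by gcongr; exact hX n hn)
    _ = a * ∑ n ∈ s, 1 * ‖E n η‖ := by rw [Finset.mul_sum]; simp only [one_mul]
    _ ≤ a * (√(∑ n ∈ s, 1 ^ 2) * √(∑ n ∈ s, ‖E n η‖ ^ 2)) := by
        gcongr; exact Real.sum_mul_le_sqrt_mul_sqrt _ _ _
    _ ≤ _ := by
        rw [mul_assoc]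
        gcongr
        · simp
        · exact Real.sqrt_le_iff.2 ⟨norm_nonneg _, by simpa using hE η⟩

/-- the annulus -/
def An (M : ℝ) : Set ℝ := {t | 1 / M ≤ |t| ∧ |t| ≤ M}

theorem measurableSet_An (M : ℝ) : MeasurableSet (An M) :=
  (measurableSet_le measurable_const continuous_abs.measurable).inter
    (measurableSet_le continuous_abs.measurable measurable_const)

theorem smooth (hP : (P 2).IsPVM) (hc : Integrable c) (he : Ev c)
    (hs : ContDiff ℝ (⊤ : ℕ∞) (K2 c)) (hs' : HasCompactSupport (K2 c)) {M : ℕ} (hM : 1 ≤ M) :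
    AvT atTop (fun l => (toi (fun f => word P fun k t => f k t⁻¹) c l - toi (word P) c l)
      * (P 2).E (ic (An M))) 0 := by
  classical
  obtain ⟨R, -, hK⟩ := Fou.exists_radius hs'
  have hM1 : (1 : ℝ) ≤ M := by exact_mod_cast hM
  obtain ⟨C, hC, H⟩ := loc (P := P) hc he hs hK hM1
  have p1 := isPoly_φ P measurable_inv
  have c1 := sCont_toi p1 hc
  have c0 := sCont_toi (isPoly_word P) hc
  refine avT_of_approx le_rfl ((c1.sub c0).mul (SCont.const _)) fun ε hε => ?_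
  obtain ⟨N, hN4, hN⟩ : ∃ N : ℕ, 4 * M ≤ N ∧ C * (2 / N) * √(2 * M * N + 1) ≤ ε := by
    obtain ⟨N, hN⟩ := exists_nat_ge (max (4 * M : ℝ) (C ^ 2 * 4 * (3 * M) / ε ^ 2))
    have h4 : (4 * M : ℝ) ≤ N := (le_max_left _ _).trans hN
    have h5 := (le_max_right _ _).trans hN
    have hN0 : (0 : ℝ) < N := by linarith
    refine ⟨N, by exact_mod_cast h4, ?_⟩
    rw [← sq_le_sq₀ (by positivity) hε.le, mul_pow, Real.sq_sqrt (by positivity)]
    rw [div_le_iff₀ (by positivity)] at h5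
    calc _ ≤ (C * (2 / N)) ^ 2 * (3 * M * N) := by gcongr; nlinarith
      _ = C ^ 2 * 4 * (3 * M) / N := by field_simp; ring
      _ ≤ _ := by rw [div_le_iff₀ hN0]; linarith
  have h4 : (4 * M : ℝ) ≤ N := by exact_mod_cast hN4
  have hN0 : (0 : ℝ) < N := by linarith
  let J : ℤ → Set ℝ := fun n => An M ∩ {t | ⌊t * N⌋ = n}
  have hJ : ∀ n, MeasurableSet (J n) := fun n => (measurableSet_An M).inter
    ((measurable_id.mul_const _).floor (measurableSet_singleton n))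
  have hx : ∀ n, ∃ x ∈ An M, ∀ t ∈ J n, |t - x| ≤ 1 / N := fun n => by
    by_cases h : (J n).Nonempty
    · obtain ⟨x, hx, hx'⟩ := h
      refine ⟨x, hx, fun t ht => ?_⟩
      have h1 := Int.abs_sub_lt_one_of_floor_eq_floor (ht.2.trans (Eq.symm hx'))
      rw [← sub_mul, abs_mul, abs_of_pos hN0] at h1
      exact ((lt_div_iff₀ hN0).2 h1).le
    · exact ⟨1, ⟨by simpa using inv_le_one_of_one_le₀ hM1, by simpa using hM1⟩,
        fun t ht => absurd ⟨t, ht⟩ h⟩
  choose x hx hx' using hx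
  have hx0 : ∀ n, x n ≠ 0 := fun n => abs_pos.1 (lt_of_lt_of_le (by positivity) (hx n).1)
  have hxp : ∀ n, 0 < (x n)⁻¹ ^ 2 := fun n => sq_pos_of_ne_zero (inv_ne_zero (hx0 n))
  let s : Finset ℤ := Finset.Icc (-(M * N : ℤ)) (M * N)
  have hic : ∀ t, ic (An M) t = ∑ n ∈ s, ic (J n) t := fun t => by
    by_cases ht : t ∈ An M
    · have h1 := abs_le.1 ht.2
      rw [ic_of_mem ht, Finset.sum_eq_single_of_mem ⌊t * N⌋ (Finset.mem_Icc.2 ⟨Int.le_floor.2 ?_,
        Int.floor_le_iff.2 ?_⟩) fun n _ hn => ic_of_notMem fun h => hn h.2.symm,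
        ic_of_mem (show t ∈ J _ from ⟨ht, rfl⟩)]
      · push_cast; nlinarith
      · push_cast; nlinarith
    · rw [ic_of_notMem ht, Finset.sum_eq_zero fun n _ => ic_of_notMem fun h => ht h.1]
  have hE : (P 2).E (ic (An M)) = ∑ n ∈ s, (P 2).E (ic (J n)) := by
    rw [← (P 2).E_sum s fun n _ => BM.ic (hJ n), ← funext hic]
  have cs : ∀ n, SCont fun r => toi (word P) c ((x n)⁻¹ ^ 2 * r) - toi (word P) c r := fun n =>
    SCont.sub ⟨fun η => (c0.1 η).comp (continuous_const.mul continuous_id),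
      c0.2.imp fun _ h _ => h _⟩ c0
  refine ⟨fun r => ∑ n ∈ s, 1 * (toi (word P) c ((x n)⁻¹ ^ 2 * r) - toi (word P) c r)
    * (P 2).E (ic (J n)), ?_, ?_, ?_⟩
  · refine Finset.induction_on s (by simpa using SCont.const 0) fun n s hn ih => ?_
    simpa only [Finset.sum_insert hn] using
      (((SCont.const 1).mul (cs n)).mul (SCont.const _)).add ih
  · simpa only [mul_zero, zero_mul, Finset.sum_const_zero] using AvT.sum s
      (fun n _ => (avT_shift c0 (r := (x n)⁻¹ ^ 2) (hxp n)).mul 1 ((P 2).E (ic (J n))))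
      fun n _ => ((SCont.const 1).mul (cs n)).mul (SCont.const _)
  have key : ∀ n, ∀ᶠ r in atTop, ‖(toi (fun f => word P fun k t => f k t⁻¹) c r
      - toi (word P) c ((x n)⁻¹ ^ 2 * r)) * (P 2).E (ic (J n))‖ ≤ C * (2 / N) := fun n => by
    have hδ : 2 / (N : ℝ) ≤ 1 / (2 * M) := by
      rw [div_le_div_iff₀ hN0 (by positivity)]; linarith
    have hsub : Metric.closedBall (x n) (1 / N) ⊆ Metric.ball (x n) (2 / N) :=
      Metric.closedBall_subset_ball (by gcongr; norm_num)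
    have hne : ∀ t ∈ Metric.ball (x n) (2 / N), t ≠ 0 := fun t ht h0 => by
      have h3 : |t - x n| < 2 / N := ht
      rw [h0, zero_sub, abs_neg] at h3
      have e2 : 1 / (M : ℝ) = 2 * (1 / (2 * M)) := by field_simp
      have : 0 < 1 / (2 * (M : ℝ)) := by positivity
      linarith [(hx n).1]
    have a1 := cut (P := P) hc hK measurable_inv (hJ n)
      (Metric.isOpen_ball (x := x n) (ε := 2 / N)).measurableSet
      ((isCompact_closedBall (x n) (1 / N)).image_of_continuousOn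
        (continuousOn_inv₀.mono fun t ht => hne t (hsub ht)))
      (continuousOn_inv₀.isOpen_inter_preimage isOpen_compl_singleton
        (Metric.isOpen_ball (x := x n) (ε := 2 / N)))
      (by rintro _ ⟨t, ht, rfl⟩
          exact ⟨inv_ne_zero (hne t (hsub ht)), by simpa using hsub ht⟩)
      (fun t ht => ⟨t, hx' n t ht, rfl⟩) fun t ht => by simpa using ht.2
    have a2 := (tendsto_id.const_mul_atTop (hxp n)).eventually
      (cut (P := P) hc hK measurable_id (hJ n)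
        (Metric.isOpen_ball (x := x n) (ε := 2 / N)).measurableSet
        (isCompact_closedBall (x n) (1 / N)) Metric.isOpen_ball hsub (hx' n) fun t ht => ht)
    filter_upwards [a1, a2] with r h1 h2
    rw [sub_mul, toi_mul_ic hP hc measurable_inv (hJ n), h1,
      show toi (word P) c _ * _ = _ from toi_mul_ic hP hc measurable_id (hJ n) _]
    erw [h2]
    refine H (x n) _ (hx n).1 (hx n).2 (by positivity) hδ _
      (fun k => (bm3 (BM.ic Metric.isOpen_ball.measurableSet)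
        (BM.ic Metric.isOpen_ball.measurableSet) (BM.ic (hJ n)) k).1) (fun k t => ?_)
      (fun k t ht => ?_) r
    · fin_cases k <;> exact norm_ic_le _ _
    · fin_cases k
      exacts [ic_of_notMem ht, ic_of_notMem ht, ic_of_notMem fun h => ht (hsub (hx' n t h))]
  filter_upwards [(s.eventually_all).2 fun n _ => key n] with r hr
  rw [hE, Finset.mul_sum, ← Finset.sum_sub_distrib]
  have e : ∀ n ∈ s, (toi (fun f => word P fun k t => f k t⁻¹) c r - toi (word P) c r)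
      * (P 2).E (ic (J n)) - 1 * (toi (word P) c ((x n)⁻¹ ^ 2 * r) - toi (word P) c r)
      * (P 2).E (ic (J n)) = ((toi (fun f => word P fun k t => f k t⁻¹) c r
      - toi (word P) c ((x n)⁻¹ ^ 2 * r)) * (P 2).E (ic (J n))) * (P 2).E (ic (J n)) :=
    fun n _ => by rw [mul_assoc _ ((P 2).E _), hP.ic_idem (hJ n)]; noncomm_ring
  rw [Finset.sum_congr rfl e]
  refine (norm_sum_le s (by positivity) hr fun η => (P 2).sum_norm_E_sq_le s
    (fun n _ => BM.ic (hJ n)) (fun t => ?_) η).trans (le_trans (le_of_eq ?_) hN)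
  · have : ∀ n, ((‖ic (J n) t‖ ^ 2 : ℝ) : ℂ) = ic (J n) t := fun n => by
      by_cases h : t ∈ J n <;> simp [h]
    have h1 : ((∑ n ∈ s, ‖ic (J n) t‖ ^ 2 : ℝ) : ℂ) = ic (An M) t := by
      rw [Complex.ofReal_sum, hic]; simp only [this]
    have h2 := norm_ic_le (An M) t
    rw [← h1, Complex.norm_real] at h2
    exact (le_abs_self _).trans h2
  · congr 2
    have : (s.card : ℤ) = 2 * M * N + 1 := by
      rw [Int.card_Icc_of_le _ _ (by nlinarith [Int.natCast_nonneg M, Int.natCast_nonneg N])]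
      ring
    exact_mod_cast this

end InvA

open InvA in
/-- **INV** -/
theorem toi_inv {P : Fin 3 → POVM ℝ K} (hP : (P 2).IsPVM) {c : ℝ × ℝ → ℂ} (hc : Integrable c)
    (he : Ev c) :
    AvT atTop (fun l => (toi (fun f => word P fun k t => f k t⁻¹) c l - toi (word P) c l)
      * (P 2).E (ic {0}ᶜ)) 0 := by
  have p1 := isPoly_φ P measurable_inv
  have p0 := isPoly_word P
  refine avT_of_strong ((sCont_toi p1 hc).sub (sCont_toi p0 hc))
    (E := fun n => (P 2).E (ic (An ((n + 1 : ℕ) : ℝ)))) (fun η => (P 2).tendsto_E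
      (fun n => (BM.ic (measurableSet_An _)).1) (fun n => norm_ic_le _) (fun t => ?_) η) fun n => ?_
  · refine tendsto_const_nhds.congr' ?_
    by_cases ht : t = 0
    · refine Eventually.of_forall fun n => ?_
      beta_reduce
      rw [ic_of_notMem (by simp [ht]), ic_of_notMem fun h => ?_]
      have := h.1
      rw [ht, abs_zero] at this
      exact this.not_gt (by positivity)
    · filter_upwards [tendsto_natCast_atTop_atTop.eventually_ge_atTop |t|,
        tendsto_natCast_atTop_atTop.eventually_ge_atTop |t|⁻¹] with n h1 h2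
      rw [ic_of_mem (by simpa using ht), ic_of_mem (show t ∈ An _ from
        ⟨?_, by push_cast; linarith⟩)]
      rw [one_div]
      exact inv_le_of_inv_le₀ (abs_pos.2 ht) (by push_cast; linarith)
  · have e : ∀ c : ℝ × ℝ → ℂ, Integrable c → ∀ l,
        (toi (fun f => word P fun k t => f k t⁻¹) c l - toi (word P) c l)
          * (P 2).E (ic (An ((n + 1 : ℕ) : ℝ)))
        = toi (fun f => 1 * (word P fun k t => f k t⁻¹) * (P 2).E (ic (An ((n + 1 : ℕ) : ℝ)))) c l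
          - toi (fun f => 1 * word P f * (P 2).E (ic (An ((n + 1 : ℕ) : ℝ)))) c l :=
      fun c hc l => by rw [← toi_mul p1 hc, ← toi_mul p0 hc, one_mul, one_mul, sub_mul]
    simp only [e c hc]
    refine avT_toi_of_smooth (p1.mul _ _) (p0.mul _ _) le_rfl (fun c hc he h1 h2 => ?_) hc he
    simp only [← e c hc]
    exact smooth hP hc he h1 h2 (Nat.le_add_left 1 n)

end Crest.Agent.N111
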