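import Crest.Agent.N111.F.Toi

/-! # Row 111: the positive even kernels (helper66). -/

set_option autoImplicit false
set_option linter.unusedSectionVars false
set_option linter.unusedVariables false

namespace Crest.Agent.N111

open MeasureTheory Topology Filter
open scoped InnerProductSpace Convolution

namespace Ker

/-- the kernel `∫ χ(u - s) N(u + y)² χ(u) du` -/
noncomputable def kk (χ N : ℝ → ℝ) (p : ℝ × ℝ) : ℂ :=
  ∫ u, ((χ (u - p.1) * (N (u + p.2) * N (u + p.2)) * χ u : ℝ) : ℂ)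

theorem exists_rad {χ : ℝ → ℝ} (h : HasCompactSupport χ) : ∃ R, 0 < R ∧ ∀ x, R ≤ |x| → χ x = 0 :=
  h.exists_pos_le_norm

theorem contDiff_kk {χ N : ℝ → ℝ} (hχ : ContDiff ℝ (⊤ : ℕ∞) χ) (hχ' : HasCompactSupport χ)
    (hN : ContDiff ℝ (⊤ : ℕ∞) N) : ContDiff ℝ (⊤ : ℕ∞) (kk χ N) := by
  obtain ⟨R, hR, h0⟩ := exists_rad hχ'
  have h := contDiffOn_convolution_right_with_param_comp (n := ⊤) (μ := volume)
    (ContinuousLinearMap.lsmul ℝ ℝ : ℝ →L[ℝ] ℂ →L[ℝ] ℂ) (s := Set.univ) (v := fun _ : ℝ × ℝ => (0 : ℝ))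
    contDiffOn_const (f := fun _ : ℝ => (1 : ℝ))
    (g := fun (p : ℝ × ℝ) (x : ℝ) =>
      ((χ (-x - p.1) * (N (-x + p.2) * N (-x + p.2)) * χ (-x) : ℝ) : ℂ))
    isOpen_univ (isCompact_Icc (a := -R) (b := R))
    (fun p x _ hx => by
      rw [h0 (-x) (by
        rw [abs_neg]
        exact le_of_not_gt fun h => hx ⟨(abs_lt.1 h).1.le, (abs_lt.1 h).2.le⟩)]
      simp)
    (locallyIntegrable_const 1)
    (ContDiff.contDiffOn (Complex.ofRealCLM.contDiff.comp (f := fun q : (ℝ × ℝ) × ℝ =>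
      χ (-q.2 - q.1.1) * (N (-q.2 + q.1.2) * N (-q.2 + q.1.2)) * χ (-q.2)) (by fun_prop)))
  rw [contDiffOn_univ] at h
  convert h using 2 with p
  simp [kk, convolution_def]

theorem compact_kk {χ N : ℝ → ℝ} (hχ : HasCompactSupport χ) (hN : HasCompactSupport N) :
    HasCompactSupport (kk χ N) := by
  obtain ⟨R, hR, h0⟩ := exists_rad hχ
  obtain ⟨R', hR', h0'⟩ := exists_rad hN
  refine HasCompactSupport.intro (isCompact_closedBall 0 (2 * R + R')) fun p hp => ?_
  rw [mem_closedBall_zero_iff, not_le, Prod.norm_def, lt_max_iff, Real.norm_eq_abs,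
    Real.norm_eq_abs] at hp
  refine integral_eq_zero_of_ae (Eventually.of_forall fun u => ?_)
  by_cases hu : R ≤ |u|
  · simp [h0 u hu]
  rcases hp with hp | hp
  · have : R ≤ |u - p.1| := by linarith [abs_sub_abs_le_abs_sub p.1 u, abs_sub_comm p.1 u]
    simp [h0 _ this]
  · have : R' ≤ |u + p.2| := by
      have := abs_sub (u + p.2) u
      rw [add_sub_cancel_left] at this
      linarith
    simp [h0' _ this]

variable {K : Type} [NormedAddCommGroup K] [InnerProductSpace ℂ K] [CompleteSpace K]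

theorem key {χ N : ℝ → ℝ} (hχ : Continuous χ) (hχ' : HasCompactSupport χ) (hN : Continuous N)
    (hN' : HasCompactSupport N) {c : ℝ × ℝ → ℂ} (hc : Integrable c) (hK : K2 c = kk χ N)
    {P P' : POVM ℝ K} (hP : P.IsPVM) (hP' : P'.IsPVM) (l T : ℝ) (η : K)
    (hη : P.E (ic (Set.Icc (-T) T)) η = η) :
    Integrable (fun x : ℝ => ‖P'.E (fun t => (N (l * t - x) : ℂ))
        (P.E (fun t => (χ (l * t - x) : ℂ)) η)‖ ^ 2) ∧
      ⟪η, toi (word ![P, P', P]) c l η⟫_ℂ = ((∫ x : ℝ, ‖P'.E (fun t => (N (l * t - x) : ℂ))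
        (P.E (fun t => (χ (l * t - x) : ℂ)) η)‖ ^ 2 : ℝ) : ℂ) := by
  obtain ⟨R, hR, h0⟩ := exists_rad hχ'
  obtain ⟨B₁, hB₁⟩ := hχ.bounded_above_of_compact_support hχ'
  obtain ⟨B₂, hB₂⟩ := hN.bounded_above_of_compact_support hN'
  have hB₁0 : 0 ≤ B₁ := (norm_nonneg _).trans (hB₁ 0)
  have hB₂0 : 0 ≤ B₂ := (norm_nonneg _).trans (hB₂ 0)
  set B : ℝ := B₁ + B₂ * B₂ + 1 with hB
  have hB0 : 0 < B := by positivity
  set X : ℝ := |l| * (|T| + 1) + R with hX
  set a : ℝ → ℝ → ℂ := fun x t => (χ (l * t - x) : ℂ) with ha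
  set n : ℝ → ℝ → ℂ := fun x t => (N (l * t - x) : ℂ) with hn
  have ca : Continuous fun q : ℝ × ℝ => a q.1 q.2 := by simp only [ha]; fun_prop
  have cn : Continuous fun q : ℝ × ℝ => n q.1 q.2 := by simp only [hn]; fun_prop
  have na : ∀ x t, ‖a x t‖ ≤ B₁ := fun x t => by simpa [ha] using hB₁ _
  have nn : ∀ x t, ‖n x t‖ ≤ B₂ := fun x t => by simpa [hn] using hB₂ _
  have ba : ∀ x, BM (a x) := fun x =>
    ⟨(ca.comp (Continuous.prodMk_right x)).measurable, B₁, na x⟩
  have bn : ∀ x, BM (n x) := fun x =>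
    ⟨(cn.comp (Continuous.prodMk_right x)).measurable, B₂, nn x⟩
  have za : ∀ x t, x ∉ Set.Icc (-X) X → |t| ≤ |T| + 1 → a x t = 0 := fun x t hx ht => by
    have h1 : X < |x| := lt_of_not_ge fun h => hx (abs_le.1 h)
    have h2 : |l * t| ≤ |l| * (|T| + 1) := by
      rw [abs_mul]; exact mul_le_mul_of_nonneg_left ht (abs_nonneg l)
    have h3 : R ≤ |l * t - x| := by linarith [abs_sub_abs_le_abs_sub x (l * t), abs_sub_comm x (l * t)]
    simp [ha, h0 _ h3]
  have bI : BM (ic (Set.Icc (-T) T)) := BM.ic measurableSet_Icc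
  have hIT : ∀ t ∈ Set.Icc (-T) T, |t| ≤ |T| := fun t ht => (abs_le.2 ht).trans (le_abs_self T)
  set g : ℝ → ℝ := fun x => ‖P'.E (n x) (P.E (a x) η)‖ ^ 2 with hg
  have zg : ∀ x, x ∉ Set.Icc (-X) X → g x = 0 := fun x hx => by
    have e : (fun t => a x t * ic (Set.Icc (-T) T) t) = fun _ => 0 := funext fun t => by
      by_cases ht : t ∈ Set.Icc (-T) T
      · rw [za x t hx ((hIT t ht).trans (by linarith)), zero_mul]
      · rw [ic_of_notMem ht, mul_zero]
    have : P.E (a x) η = 0 := by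
      rw [← hη, ← mul_apply_eq_comp, ← hP _ _ (ba x) bI, e, P.E_zero, zero_apply]
    simp [hg, this]
  have sa : SCont fun x => P.E (a x) :=
    P.sCont_E (fun x => (ba x).1) na fun t => ca.comp (Continuous.prodMk_left t)
  have sn : SCont fun x => P'.E (n x) :=
    P'.sCont_E (fun x => (bn x).1) nn fun t => cn.comp (Continuous.prodMk_left t)
  have cg : Continuous g := ((sn.mul sa).1 η).norm.pow 2
  refine ⟨cg.integrable_of_hasCompactSupport (HasCompactSupport.intro isCompact_Icc zg), ?_⟩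
  have hW := isPoly_word ![P, P', P]
  have hW' := hW.mul 1 (P.E (ic (Set.Icc (-T) T)))
  set φ : ℝ → Fin 3 → ℝ → ℂ := fun x => ![fun t => (B : ℂ)⁻¹ * a x t,
    fun t => (B : ℂ)⁻¹ * (n x t * n x t), fun t => (B : ℂ)⁻¹ * a x t] with hφ
  have nB : ∀ z : ℂ, ‖z‖ ≤ B → ‖(B : ℂ)⁻¹ * z‖ ≤ 1 := fun z hz => by
    rw [norm_mul, norm_inv, Complex.norm_real, Real.norm_of_nonneg hB0.le]
    exact inv_mul_le_one_of_le₀ hz hB0.le
  have cφ : ∀ k, Continuous fun q : ℝ × ℝ => φ q.1 k q.2 := fun k => by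
    fin_cases k
    · exact continuous_const.mul ca
    · exact continuous_const.mul (cn.mul cn)
    · exact continuous_const.mul ca
  have nφ : ∀ x k t, ‖φ x k t‖ ≤ 1 := fun x k t => by
    have h1 : ‖a x t‖ ≤ B := (na x t).trans (by rw [hB]; nlinarith)
    have h2 : ‖n x t * n x t‖ ≤ B := by
      rw [norm_mul]
      exact (mul_le_mul (nn x t) (nn x t) (norm_nonneg _) hB₂0).trans (by rw [hB]; linarith)
    fin_cases k
    · exact nB _ h1
    · exact nB _ h2
    · exact nB _ h1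
  set Z : Fin 3 → Set ℝ := ![Set.univ, Set.univ, Set.Ioo (-(|T| + 1)) (|T| + 1)] with hZ
  have h₂ : KRep ℝ (volume.restrict (Set.Icc (-X) X)) (fun _ => (B : ℂ) ^ 3) φ Z :=
    ⟨integrable_const _, fun x k => ((cφ k).comp (Continuous.prodMk_right x)).measurable, nφ,
      fun k t => (cφ k).comp (Continuous.prodMk_left t),
      fun x k => ((cφ k).comp (Continuous.prodMk_right x)).continuousOn⟩
  have h₁ : KRep (ℝ × ℝ) volume c (ph l) Z :=
    ⟨hc, fun w k => (bm_ph l w k).1, fun w k t => (norm_ph l w k t).le,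
      fun k t => (continuous_ph k).comp (f := fun w : ℝ × ℝ => (l, w, t)) (by fun_prop),
      fun w k => ((continuous_ph k).comp (f := fun t : ℝ => (l, w, t)) (by fun_prop)).continuousOn⟩
  have hB' : (B : ℂ) ≠ 0 := Complex.ofReal_ne_zero.2 hB0.ne'
  have hwd := hW'.wd (Z := Z) (fun k => by
      fin_cases k
      · exact isOpen_univ
      · exact isOpen_univ
      · exact isOpen_Ioo)
    (fun f hf => by
      have bZ : BM (ic (Set.Ioo (-(|T| + 1)) (|T| + 1))) := BM.ic measurableSet_Ioo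
      have e : (fun t => ic (Set.Ioo (-(|T| + 1)) (|T| + 1)) t * f 2 t * ic (Set.Icc (-T) T) t)
          = fun t => f 2 t * ic (Set.Icc (-T) T) t := funext fun t => by
        by_cases ht : t ∈ Set.Icc (-T) T
        · have := abs_le.1 (hIT t ht)
          rw [ic_of_mem (show t ∈ Set.Ioo _ _ from ⟨by linarith, by linarith⟩), one_mul]
        · rw [ic_of_notMem ht, mul_zero, mul_zero]
      simp only [word_three, hZ, Matrix.cons_val_zero, Matrix.cons_val_one, Matrix.cons_val,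
        ic_univ, one_mul, mul_assoc]
      rw [← hP _ _ (bZ.mul (hf 2)) bI, e, hP _ _ (hf 2) bI])
    h₁ h₂ isOpen_univ (fun _ _ _ => trivial) fun z _ hz => by
      have hz2 : |z 2| ≤ |T| + 1 := (abs_lt.2 (hz 2)).le
      rw [integral_ph, hK, setIntegral_eq_integral_of_forall_compl_eq_zero fun x hx => by
        simp [hφ, Fin.prod_univ_three, za x (z 2) hx hz2], kk,
        ← integral_sub_left_eq_self _ volume (l * z 2)]
      refine integral_congr_ae (Eventually.of_forall fun x => ?_)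
      simp only [hφ, Fin.prod_univ_three, Matrix.cons_val_zero, Matrix.cons_val_one,
        Matrix.cons_val, ha, hn]
      rw [show l * z 2 - x - l * (z 2 - z 0) = l * z 0 - x by ring,
        show l * z 2 - x + l * (z 1 - z 2) = l * z 1 - x by ring]
      push_cast
      field_simp
  have e1 : toi (word ![P, P', P]) c l η
      = (1 * toi (word ![P, P', P]) c l * P.E (ic (Set.Icc (-T) T))) η := by
    rw [one_mul, mul_apply_eq_comp, hη]
  rw [e1, toi_mul hW hc, toi, hwd, inner_sInt h₂.int (hW'.sCont h₂.meas h₂.bd h₂.contω),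
    ← setIntegral_eq_integral_of_forall_compl_eq_zero zg, ← integral_complex_ofReal]
  refine integral_congr_ae (Eventually.of_forall fun x => ?_)
  have s1 : star (P.E (a x)) = P.E (a x) := P.isSelfAdjoint (ba x)
  have e2 : (g x : ℂ) = ⟪η, P.E (a x) (P'.E (fun t => n x t * n x t) (P.E (a x) η))⟫_ℂ := by
    rw [← ContinuousLinearMap.adjoint_inner_left, ← ContinuousLinearMap.star_eq_adjoint, s1]
    have := hP'.inner_E_E (bn x) (bn x) (P.E (a x) η) (P.E (a x) η)
    simp only [hn, Complex.conj_ofReal] at this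
    simp only [hn, ← this, hg, inner_self_eq_norm_sq_to_K]
    push_cast
    rfl
  simp only [e2, hφ, word_three, Matrix.cons_val_zero, Matrix.cons_val_one, Matrix.cons_val,
    one_mul, P.E_smul _ (ba x), P'.E_smul _ ((bn x).mul (bn x)), mul_apply_eq_comp, hη, smul_apply,
    map_smul, inner_smul_right]
  field_simp

theorem exists_ker {χ N : ℝ → ℝ} (hχ : ContDiff ℝ (⊤ : ℕ∞) χ) (hχ' : HasCompactSupport χ)
    (hN : ContDiff ℝ (⊤ : ℕ∞) N) (hN' : HasCompactSupport N) :
    ∃ c : ℝ × ℝ → ℂ, Integrable c ∧ Ev c ∧ ∀ (K : Type) [NormedAddCommGroup K]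
      [InnerProductSpace ℂ K] [CompleteSpace K] (P P' : POVM ℝ K), P.IsPVM → P'.IsPVM →
      ∀ l : ℝ, 0 < l → ∀ (T : ℝ) (η : K), P.E (ic (Set.Icc (-T) T)) η = η →
      Integrable (fun x : ℝ => ‖P'.E (fun t => (N (l * t - x) : ℂ))
        (P.E (fun t => (χ (l * t - x) : ℂ)) η)‖ ^ 2) ∧
      ∫ x : ℝ, ‖P'.E (fun t => (N (l * t - x) : ℂ)) (P.E (fun t => (χ (l * t - x) : ℂ)) η)‖ ^ 2
        ≤ (⟪η, toi (word ![P, P', P]) c l η⟫_ℂ).re := by
  obtain ⟨c, hc, -, hK, -⟩ := exists_K2 (contDiff_kk hχ hχ' hN) (compact_kk hχ' hN')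
  have h1 : (-1 : ℝ) ≠ 0 := by norm_num
  refine ⟨fun w => c w + dil (-1) c w, hc.add (integrable_dil hc h1), fun w => ?_,
    fun K _ _ _ P P' hP hP' l hl T η hη => ?_⟩
  · simp [dil, add_comm]
  · obtain ⟨i1, e1⟩ := key hχ.continuous hχ' hN.continuous hN' hc hK hP hP' l T η hη
    obtain ⟨-, e2⟩ := key hχ.continuous hχ' hN.continuous hN' hc hK hP hP' (-1 * l) T η hη
    refine ⟨i1, ?_⟩
    rw [toi_add (isPoly_word _) hc (integrable_dil hc h1), toi_dil (isPoly_word _) hc h1,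
      add_apply, inner_add_right, e1, e2, Complex.add_re, Complex.ofReal_re, Complex.ofReal_re]
    exact le_add_of_nonneg_right (integral_nonneg fun _ => sq_nonneg _)

end Ker

end Crest.Agent.N111
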