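import Crest.Agent.N111.F.Chart

/-! # Row 111: the scale average is a scalar; S7 and ND (fill the proofs IN PLACE). -/

set_option autoImplicit false
set_option maxHeartbeats 400000
set_option linter.unusedSectionVars false
set_option linter.unusedVariables false

namespace Crest.Agent.N111

open MeasureTheory Topology Filter Matrix
open scoped InnerProductSpace

variable {K : Type} [NormedAddCommGroup K] [InnerProductSpace ℂ K] [CompleteSpace K]

variable {I I' : Ind K} {L : ℕ → ℝ} {Φ Ψ A B : V → POVM V K} {sc sc' : ℝ → ℝ}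


/-- the scalar attached to three points on a line -/
def IsM (l : Filter ℕ) (P : Fin 3 → POVM V K) (Ψ : POVM V K) (m : (ℝ × ℝ → ℂ) → ℂ) : Prop :=
  ∀ c, Integrable c → Ev c → ∀ α β,
    AvT l (fun r => toi (Wc P α β) c r * gd (P 2) Ψ α β) (m c • gd (P 2) Ψ α β)

namespace S7a

variable {P : Fin 3 → POVM V K} {P₀ Ψ₀ : POVM V K} {c : ℝ × ℝ → ℂ}

theorem gd_mul (h : Flag P₀ Ψ₀) (α β α' β' : V) : gd P₀ Ψ₀ α β * gd P₀ Ψ₀ α' β' =
    P₀.E (ic (GA α β ∩ GA α' β')) * Ψ₀.E (ic (GB α β ∩ GB α' β')) := by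
  have mA := fun α β => (isOpen_GA α β).measurableSet
  have mB := fun α β => (isOpen_GB α β).measurableSet
  rw [gd, gd, ← h.pvm.ic_mul_ic (mA _ _) (mA _ _), ← h.pvm'.ic_mul_ic (mB _ _) (mB _ _),
    (h.comm _ _ (BM.ic (mA α' β')) (BM.ic (mB α β))).symm.mul_mul_mul_comm]

theorem commute_gd {Z : K →L[ℂ] K} (h1 : ∀ f, BM f → Commute Z (P₀.E f))
    (h2 : ∀ f, BM f → Commute Z (Ψ₀.E f)) (α β : V) : Commute Z (gd P₀ Ψ₀ α β) :=
  (h1 _ (BM.ic (isOpen_GA α β).measurableSet)).mul_right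
    (h2 _ (BM.ic (isOpen_GB α β).measurableSet))

theorem commute_toi (hc : Integrable c) {Z : K →L[ℂ] K}
    (h1 : ∀ i f, BM f → Commute Z ((P i).E f)) (α β : V) (r : ℝ) :
    Commute Z (toi (Wc P α β) c r) :=
  commute_sInt hc (sCont_ph (isPoly_Wc P α β) r) fun w => Commute.list_prod_right _ _ fun y hy => by
    obtain ⟨i, rfl⟩ := List.mem_ofFn.1 hy
    exact h1 i _ ((bm_ph r w i).comp (measurable_tc α β))

/-- the scale averages in the different charts glue -/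
theorem exists_M (h : ∀ i, Flag (P i) Ψ₀) (hc : Integrable c) (he : Ev c) (l : Ultrafilter ℕ)
    (hl : (l : Filter ℕ) ≤ atTop) : ∃ M : K →L[ℂ] K,
      (∀ α β, AvT l (fun r => toi (Wc P α β) c r * gd (P 2) Ψ₀ α β) (M * gd (P 2) Ψ₀ α β)) ∧
      ∀ Z : K →L[ℂ] K, (∀ i f, BM f → Commute Z ((P i).E f)) →
        (∀ f, BM f → Commute Z (Ψ₀.E f)) → Commute Z M := by
  have sD := fun α β => sCont_toi (isPoly_Wc P α β) hc
  choose Mc hMc using fun α β => exists_avT l (sD α β)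
  have cpt : ∀ α β α' β', Mc α' β' * (gd (P 2) Ψ₀ α β * gd (P 2) Ψ₀ α' β')
      = Mc α β * (gd (P 2) Ψ₀ α β * gd (P 2) Ψ₀ α' β') := fun α β α' β' => by
    have h1 := ((hMc α' β').sub (hMc α β) (sD _ _) (sD _ _)).mul 1
      (gd (P 2) Ψ₀ α β * gd (P 2) Ψ₀ α' β')
    simp only [one_mul, gd_mul (h 2)] at h1
    rw [← sub_eq_zero, ← sub_mul, gd_mul (h 2)]
    exact h1.unique ((chart_indep h hc he α β α' β').mono hl)
  let a : Fin 3 × Fin 3 → V := fun j => ev j.1
  let b : Fin 3 × Fin 3 → V := fun j => ev j.2 + (3 : ℝ) • ev j.1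
  obtain ⟨E, hE, hEc⟩ := (h 2).cover MeasurableSet.univ MeasurableSet.univ
    (S := fun j => GA (a j) (b j)) (T := fun j => GB (a j) (b j))
    (fun j => (isOpen_GA _ _).measurableSet) (fun j => (isOpen_GB _ _).measurableSet)
    fun u _ v _ hu hv huv => by
      have hu0 : u ≠ 0 := fun e => by simp [e] at hu
      have hv0 : v ≠ 0 := fun e => by simp [e] at hv
      obtain ⟨i, k, m, hik, him, hkm, h1, h2⟩ := exists_std_chart hu0 hv0 huv
      have := mem_std_chart hu0 hv0 hik him hkm h1 h2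
      exact ⟨(i, k), this.1, this.2.1⟩
  rw [ic_univ, (P 2).E_one, Ψ₀.E_one, one_mul] at hE
  refine ⟨∑ j, Mc (a j) (b j) * gd (P 2) Ψ₀ (a j) (b j) * E j, fun α β => ?_, fun Z h1 h2 => ?_⟩
  · have cg : ∀ j, Commute (gd (P 2) Ψ₀ α β) (E j) := fun j => hEc j _
      (fun f hf => (commute_gd (fun g hg => (h 2).pvm.commute hf hg)
        (fun g hg => (h 2).comm _ _ hf hg) α β).symm)
      fun f hf => (commute_gd (fun g hg => ((h 2).comm _ _ hg hf).symm)
        (fun g hg => (h 2).pvm'.commute hf hg) α β).symm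
    have e : (∑ j, Mc (a j) (b j) * gd (P 2) Ψ₀ (a j) (b j) * E j) * gd (P 2) Ψ₀ α β
        = Mc α β * gd (P 2) Ψ₀ α β := by
      conv_rhs => rw [← one_mul (gd (P 2) Ψ₀ α β), hE]
      rw [Finset.sum_mul, Finset.sum_mul, Finset.mul_sum]
      refine Finset.sum_congr rfl fun j _ => ?_
      change _ = Mc α β * (gd (P 2) Ψ₀ (a j) (b j) * E j * gd (P 2) Ψ₀ α β)
      rw [mul_assoc, mul_assoc (gd _ _ _ _), ← (cg j).eq, ← mul_assoc, mul_assoc (Mc _ _),
        ← cpt, ← mul_assoc (gd _ _ _ _), mul_assoc]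
    have := (hMc α β).mul 1 (gd (P 2) Ψ₀ α β)
    simp only [one_mul] at this
    rwa [e]
  · exact Commute.sum_right _ _ _ fun j _ => (((hMc _ _).commute
      (commute_toi hc h1 _ _)).mul_right (commute_gd (h1 2) h2 _ _)).mul_right (hEc j Z (h1 2) h2)

/-- covariance of the glued average -/
theorem conj_M {l : Filter ℕ} [l.NeBot] (h : Flag (P 2) Ψ₀) (hc : Integrable c) {M u v : K →L[ℂ] K}
    (hM : ∀ α β, AvT l (fun r => toi (Wc P α β) c r * gd (P 2) Ψ₀ α β) (M * gd (P 2) Ψ₀ α β))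
    (g : G) (huv : u * v = 1) (hvu : v * u = 1)
    (h1 : ∀ i f, BM f → Hom0 f → u * (P i).E f * v = (P i).E fun a => f (ac g⁻¹ a))
    (h2 : ∀ f, BM f → Hom0 f → u * Ψ₀.E f * v = Ψ₀.E fun a => f (ac (dl g⁻¹) a)) :
    u * M * v = M := by
  have cj : ∀ S T : K →L[ℂ] K, u * (S * T) * v = u * S * v * (u * T * v) := fun S T => by
    simp only [mul_assoc]
    rw [← mul_assoc v u, hvu, one_mul]
  have et : ∀ α β a, tc α β (ac g⁻¹ a) = tc (ac (dl g) α) (ac (dl g) β) a := fun α β a => by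
    rw [← tc_ac g, ac_ac_inv]
  have e1 : ∀ α β r, u * toi (Wc P α β) c r * v = toi (Wc P (ac (dl g) α) (ac (dl g) β)) c r :=
    fun α β r => by
      rw [toi_mul (isPoly_Wc P α β) hc]
      refine toi_congr (fun f hf => ?_) r
      rw [Wc, Wc, word, word, Ap2.conj_prod huv hvu]
      congr 2
      funext i
      rw [h1 i _ ((hf i).comp (measurable_tc α β)) fun z hz a => by rw [tc_smul α β hz]]
      simp only [et]
  have e2 : ∀ α β, u * gd (P 2) Ψ₀ α β * v = gd (P 2) Ψ₀ (ac (dl g) α) (ac (dl g) β) :=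
    fun α β => by
      rw [gd, gd, cj, h1 2 _ (BM.ic (isOpen_GA α β).measurableSet) (hom0_ic_GA α β),
        h2 _ (BM.ic (isOpen_GB α β).measurableSet) (hom0_ic_GB α β)]
      congr 2
      · funext a
        refine Set.indicator_eq_indicator ?_ rfl
        simp only [GA_eq, Set.mem_ofPred_eq, et]
      · funext a
        refine Set.indicator_eq_indicator ?_ rfl
        simp only [GB, Set.mem_ofPred_eq]
        rw [ac_cross, dl_dl, ← ac_dot_ac_dl g, map_inv, ac_ac_inv]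
  rw [← sub_eq_zero]
  refine h.eq_zero_of_gd fun α β => ?_
  have h3 := (hM (ac (dl g)⁻¹ α) (ac (dl g)⁻¹ β)).mul u v
  simp only [cj, e1, e2, ac_ac_inv] at h3
  rw [sub_mul, sub_eq_zero]
  exact h3.unique (hM α β)

theorem exists_gd_ne [Nontrivial K] (h : Flag P₀ Ψ₀) : ∃ α β, gd P₀ Ψ₀ α β ≠ 0 := by
  by_contra hc
  refine one_ne_zero (h.eq_zero_of_gd (T := 1) fun α β => ?_)
  rw [not_not.1 fun h0 => hc ⟨α, β, h0⟩, mul_zero]

theorem sCont_gd (hc : Integrable c) (α β : V) (S : K →L[ℂ] K) :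
    SCont fun r => toi (Wc P α β) c r * S :=
  (sCont_toi (isPoly_Wc P α β) hc).mul (SCont.const S)

end S7a

theorem Geo.exists_isM (h : Geo I I' L Φ Ψ A B sc sc') {x : Fin 3 → V} (hx : ∀ i, x i ≠ 0)
    (hx2 : ∀ i, x i 2 = 0) (l : Ultrafilter ℕ) (hl : (l : Filter ℕ) ≤ atTop) :
    ∃ m, IsM l (fun i => Φ (x i)) (Ψ (ev 2)) m := by
  have hF : ∀ i, Flag (Φ (x i)) (Ψ (ev 2)) := fun i =>
    h.flag (hx i) (ev_ne_zero 2) (by rw [dotProduct_comm, ev_dot, hx2])
  have key : ∀ c : ℝ × ℝ → ℂ, ∃ z : ℂ, Integrable c → Ev c → ∀ α β,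
      AvT l (fun r => toi (Wc (fun i => Φ (x i)) α β) c r * gd (Φ (x 2)) (Ψ (ev 2)) α β)
        (z • gd (Φ (x 2)) (Ψ (ev 2)) α β) := fun c => by
    by_cases hc : Integrable c ∧ Ev c
    swap
    · exact ⟨0, fun h1 h2 => absurd ⟨h1, h2⟩ hc⟩
    obtain ⟨M, hM, hZ⟩ := S7a.exists_M (P := fun i => Φ (x i)) hF hc.1 hc.2 l hl
    have h02 : (0 : Fin 3) ≠ 2 := by decide
    have hρ : ∀ ν, Commute M (I.ρ ν) := fun ν => by
      have e := S7a.conj_M (P := fun i => Φ (x i)) (hF 2) hc.1 hM (ι ν) (I.ρ.mul_inv_self ν)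
        (I.ρ.inv_mul_self ν) (fun i f hf h0 => by rw [h.pro.covρ _ (hx i) f hf h0, map_inv])
        fun f hf h0 => by rw [h.ρΨ (ev_ne_zero 2) hf h0, ι_dl, map_inv]
      have := congrArg (· * I.ρ ν) e
      simp only [mul_assoc, URep.inv_mul_self, mul_one] at this
      exact this.symm
    obtain ⟨z, rfl⟩ := I.erg_Q (T := M) ⟨I.mem_N.2 fun a ha => hZ a
        (fun i f hf => I.mem_N.1 (h.pro.mem (hx i) hf) a ha)
        fun f hf => I.mem_N.1 (h.memΨ (ev_ne_zero 2) hf) a ha, hρ⟩ h02 fun b =>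
      (hZ _ (fun i f hf => (h.pro.pre.commute (hx i) (z := 1)
        (by rw [ac_tv, hx2, mul_zero, zero_smul, add_zero, one_smul]) hf).symm)
        fun f hf => (Ind.commute_of_conj (by
          rw [h.covΨ (ev_ne_zero 2) hf, dl_tv, Ind.ac_tv_ev _ h02, one_smul])).symm).symm
    exact ⟨z, fun _ _ α β => by simpa only [smul_mul_assoc, one_mul] using hM α β⟩
  choose m hm using key
  exact ⟨m, hm⟩

section
variable {l : Filter ℕ} [l.NeBot] [Nontrivial K] {P : Fin 3 → POVM V K} {Ψ₀ : POVM V K}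
  {m : (ℝ × ℝ → ℂ) → ℂ} {c c' : ℝ × ℝ → ℂ}

theorem IsM.add (h : IsM l P Ψ₀ m) (hf : Flag (P 2) Ψ₀) (hc : Integrable c) (he : Ev c)
    (hc' : Integrable c') (he' : Ev c') : m (fun w => c w + c' w) = m c + m c' := by
  obtain ⟨α, β, h0⟩ := S7a.exists_gd_ne hf
  have h1 := h _ (hc.add hc') (fun w => by simp only [Pi.add_apply, he w, he' w]) α β
  have h2 := (h c hc he α β).add (h c' hc' he' α β) (S7a.sCont_gd hc α β _)
    (S7a.sCont_gd hc' α β _)
  simp only [← add_mul, ← toi_add (isPoly_Wc P α β) hc hc', ← add_smul] at h2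
  exact smul_left_injective ℂ h0 (h1.unique h2)
theorem IsM.smul (h : IsM l P Ψ₀ m) (hf : Flag (P 2) Ψ₀) (z : ℂ) (hc : Integrable c) (he : Ev c) :
    m (fun w => z * c w) = z * m c := by
  obtain ⟨α, β, h0⟩ := S7a.exists_gd_ne hf
  have h1 := h _ (hc.const_mul z) (fun w => by simp only [he w]) α β
  have h2 := (h c hc he α β).smul z
  simp only [← smul_mul_assoc, ← toi_smul (isPoly_Wc P α β) hc, smul_smul] at h2
  exact smul_left_injective ℂ h0 (h1.unique h2)
theorem IsM.bd (h : IsM l P Ψ₀ m) (hf : Flag (P 2) Ψ₀) (hc : Integrable c) (he : Ev c) :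
    ‖m c‖ ≤ 1 * ∫ w, ‖c w‖ := by
  obtain ⟨α, β, h0⟩ := S7a.exists_gd_ne hf
  have h1 := (h c hc he α β).norm_le (C := (∫ w, ‖c w‖) * 1 * ‖gd (P 2) Ψ₀ α β‖)
    (by positivity) fun r => (norm_mul_le _ _).trans (mul_le_mul_of_nonneg_right
      (norm_toi_le (isPoly_Wc P α β) hc zero_le_one (fun f => norm_Wc_le P α β) r) (norm_nonneg _))
  rw [norm_smul, mul_comm _ (1 : ℝ)] at h1
  exact le_of_mul_le_mul_right h1 (norm_pos_iff.2 h0)
theorem IsM.dil (h : IsM l P Ψ₀ m) (hf : Flag (P 2) Ψ₀) (hl : l ≤ atTop) (hc : Integrable c)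
    (he : Ev c) {r : ℝ} (hr : 0 < r) : m (dil r c) = m c := by
  obtain ⟨α, β, h0⟩ := S7a.exists_gd_ne hf
  have h1 := h _ (integrable_dil hc hr.ne') (fun w => by simp only [N111.dil, smul_neg, he _]) α β
  have h2 := h1.sub (h c hc he α β) (S7a.sCont_gd (integrable_dil hc hr.ne') α β _)
    (S7a.sCont_gd hc α β _)
  simp only [toi_dil (isPoly_Wc P α β) hc hr.ne'] at h2
  exact smul_left_injective ℂ h0 (sub_eq_zero.1
    (h2.unique ((avT_shift (S7a.sCont_gd hc α β (gd (P 2) Ψ₀ α β)) hr).mono hl)))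
end

/-- double operator integral with kernel `K2 c (0, l (t - t'))` -/
noncomputable def doi (P P' : POVM V K) (α β : V) (c : ℝ × ℝ → ℂ) (l : ℝ) : K →L[ℂ] K :=
  sInt volume c fun w => P.E (fun a => ex (w.2 * l * tc α β a))
    * P'.E fun a => ex (-(w.2 * l * tc α β a))

theorem sCont_doi (P P' : POVM V K) (α β : V) {c : ℝ × ℝ → ℂ} (hc : Integrable c) :
    SCont (doi P P' α β c) := by
  have hm := measurable_tc α β
  refine sCont_sInt (F := fun (l : ℝ) (w : ℝ × ℝ) => P.E (fun a => ex (w.2 * l * tc α β a))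
    * P'.E fun a => ex (-(w.2 * l * tc α β a))) hc (SCont.mul ?_ ?_)
  · exact P.sCont_E (C := 1) (fun p => by fun_prop) (fun p a => (norm_ex _).le)
      fun a => by fun_prop
  · exact P'.sCont_E (C := 1) (fun p => by fun_prop) (fun p a => (norm_ex _).le)
      fun a => by fun_prop

end Crest.Agent.N111
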