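import Crest.Agent.N111.E.Api
import Crest.Agent.N111.D.Mid
import Crest.Agent.N111.D.Inc

/-! # Row 111: opposite pairs, preliminaries: `PRep`, `coord_jm`, `LC`. -/

set_option autoImplicit false
set_option linter.unusedSectionVars false
set_option linter.unusedVariables false

namespace Crest.Agent.N111

open MeasureTheory Topology Filter Matrix
open scoped InnerProductSpace

variable {K : Type} [NormedAddCommGroup K] [InnerProductSpace ℂ K] [CompleteSpace K]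

variable {I I' : Ind K} {L : ℕ → ℝ} {Φ Ψ A B : V → POVM V K} {sc sc' : ℝ → ℝ}


/-- a representation of the projective kernel `(|b·a|/(‖b‖‖a‖))^{it}` off the incidence variety -/
structure PRep (θ t : ℝ) (c : (Fin 18 → ℝ) → ℂ) (φ ψ : (Fin 18 → ℝ) → V → ℂ) : Prop where
  int : Integrable c
  measφ : ∀ w, Measurable (φ w)
  measψ : ∀ w, Measurable (ψ w)
  bdφ : ∀ w a, ‖φ w a‖ ≤ 1
  bdψ : ∀ w a, ‖ψ w a‖ ≤ 1
  homφ : ∀ w, Hom0 (φ w)
  homψ : ∀ w, Hom0 (ψ w)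
  contφ : ∀ a, Continuous fun w => φ w a
  contψ : ∀ a, Continuous fun w => ψ w a
  jointφ : ContinuousOn (fun p : (Fin 18 → ℝ) × V => φ p.1 p.2) {p | p.2 ≠ 0}
  jointψ : ContinuousOn (fun p : (Fin 18 → ℝ) × V => ψ p.1 p.2) {p | p.2 ≠ 0}
  ker : ∀ b a : V, b ≠ 0 → a ≠ 0 → θ * (‖b‖ * ‖a‖) ≤ |b ⬝ᵥ a| →
    ∫ w, c w * (φ w b * ψ w a) = ex (t * (Real.log |b ⬝ᵥ a| - Real.log ‖b‖ - Real.log ‖a‖))

namespace S8a

/-- the phase of one slot -/
noncomputable def ph (u : Fin 3 × Fin 3 → Fin 18) (t : ℝ) (w : Fin 18 → ℝ) (a : V) : ℂ :=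
  ex (∑ q, w (u q) * Pj.pm a q.1 q.2 + t * (Real.log (a ⬝ᵥ a) / 2 - Real.log ‖a‖))

variable (u : Fin 3 × Fin 3 → Fin 18) (t : ℝ)

theorem meas_ph (w : Fin 18 → ℝ) : Measurable (ph u t w) := by
  have h1 : ∀ q : Fin 3 × Fin 3, Measurable fun a => Pj.pm a q.1 q.2 := fun q =>
    (measurable_pi_apply q.2).comp ((measurable_pi_apply q.1).comp Pj.measurable_pm)
  have h2 : Measurable fun a : V => a ⬝ᵥ a := by unfold dotProduct; fun_prop
  exact measurable_ex.comp ((Finset.measurable_sum _ fun q _ => (h1 q).const_mul _).add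
    (((h2.log.div_const 2).sub measurable_norm.log).const_mul t))

theorem hom_ph (w : Fin 18 → ℝ) : Hom0 (ph u t w) := fun z hz a => by
  by_cases ha : a = 0
  · rw [ha, smul_zero]
  rw [ph, ph, Pj.pm_smul hz, smul_dotProduct, dotProduct_smul, norm_smul, smul_eq_mul, smul_eq_mul,
    Real.log_mul hz (mul_ne_zero hz (Pj.dot_ne ha)), Real.log_mul hz (Pj.dot_ne ha),
    Real.log_mul (norm_ne_zero_iff.2 hz) (norm_ne_zero_iff.2 ha), Real.norm_eq_abs, Real.log_abs]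
  congr 3
  ring

theorem cont_ph (a : V) : Continuous fun w => ph u t w a := by unfold ph; fun_prop

theorem joint_ph :
    ContinuousOn (fun p : (Fin 18 → ℝ) × V => ph u t p.1 p.2) {p | p.2 ≠ 0} := by
  have h1 : ∀ q : Fin 3 × Fin 3, ContinuousOn (fun p : (Fin 18 → ℝ) × V => Pj.pm p.2 q.1 q.2)
      {p | p.2 ≠ 0} := fun q => (continuous_apply_apply q.1 q.2).comp_continuousOn
    (Pj.continuousOn_pm.comp continuous_snd.continuousOn fun _ h => h)
  refine continuous_ex.comp_continuousOn ((continuousOn_finsetSum _ fun q _ =>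
    ContinuousOn.mul (by fun_prop) (h1 q)).add (continuousOn_const.mul (ContinuousOn.sub
      ((ContinuousOn.log (by fun_prop) fun p h => Pj.dot_ne h).div_const 2)
      (ContinuousOn.log (by fun_prop) fun p h => norm_ne_zero_iff.2 h))))

theorem sum_pm (b a : V) : ∑ q : Fin 3 × Fin 3, Pj.pm b q.1 q.2 * Pj.pm a q.1 q.2 =
    (b ⬝ᵥ a) ^ 2 / ((b ⬝ᵥ b) * (a ⬝ᵥ a)) := by
  simp only [Pj.pm, div_mul_div_comm, ← Finset.sum_div]
  congr 1
  simp only [Fintype.sum_prod_type, dotProduct, Fin.sum_univ_three]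
  ring

theorem exists_m {δ : ℝ} (hδ : 0 < δ) : ∃ m : ℝ → ℝ, ContDiff ℝ (⊤ : ℕ∞) m ∧ (∀ s, 0 < m s) ∧
    ∀ s, δ ≤ s → m s = s := by
  refine ⟨fun s => δ + Real.smoothTransition (2 * s / δ - 1) * (s - δ), ?_, fun s => ?_,
    fun s hs => ?_⟩
  · exact contDiff_const.add ((Real.smoothTransition.contDiff.comp (by fun_prop)).mul (by fun_prop))
  · have h0 := Real.smoothTransition.nonneg (2 * s / δ - 1)
    have h1 := Real.smoothTransition.le_one (2 * s / δ - 1)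
    dsimp only
    rcases le_or_gt s (δ / 2) with h | h
    · rw [Real.smoothTransition.zero_of_nonpos (by rw [sub_nonpos, div_le_one hδ]; linarith)]
      simpa using hδ
    · nlinarith [mul_nonneg h0 (show 0 ≤ s - δ / 2 by linarith)]
  · dsimp only
    rw [Real.smoothTransition.one_of_one_le (by rw [le_sub_iff_add_le, le_div_iff₀ hδ]; linarith)]
    ring

end S8a

theorem exists_pRep {θ : ℝ} (hθ : 0 < θ) (t : ℝ) : ∃ c φ ψ, PRep θ t c φ ψ := by
  obtain ⟨m, hm, hm0, hm1⟩ := S8a.exists_m (δ := θ ^ 2 / 9) (by positivity)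
  let e : (Fin 3 × Fin 3) ⊕ (Fin 3 × Fin 3) ≃ Fin 18 := Fintype.equivFinOfCardEq (by simp)
  let β : ContDiffBump (0 : Fin 18 → ℝ) := ⟨1, 2, one_pos, one_lt_two⟩
  let S : (Fin 18 → ℝ) → ℝ := fun p => ∑ q, p (e (.inl q)) * p (e (.inr q))
  have hS : ContDiff ℝ (⊤ : ℕ∞) S := ContDiff.sum fun q _ => by fun_prop
  have hex : ContDiff ℝ (⊤ : ℕ∞) ex :=
    Complex.contDiff_exp.comp (contDiff_const.mul Complex.ofRealCLM.contDiff)
  obtain ⟨c, hc, -, hK⟩ := exists_KN (f := fun p => ex (t / 2 * Real.log (m (S p))) * (β p : ℂ))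
    ((hex.comp (contDiff_const.mul ((hm.comp hS).log fun p => (hm0 _).ne'))).mul
      (Complex.ofRealCLM.contDiff.comp β.contDiff))
    (β.hasCompactSupport.comp_left (g := fun r : ℝ => (r : ℂ)) Complex.ofReal_zero).mul_left
  refine ⟨c, S8a.ph (fun q => e (.inl q)) t, S8a.ph (fun q => e (.inr q)) t, hc, S8a.meas_ph _ t,
    S8a.meas_ph _ t, fun _ _ => (norm_ex _).le, fun _ _ => (norm_ex _).le, S8a.hom_ph _ t,
    S8a.hom_ph _ t, S8a.cont_ph _ t, S8a.cont_ph _ t, S8a.joint_ph _ t, S8a.joint_ph _ t,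
    fun b a hb ha h => ?_⟩
  let p : Fin 18 → ℝ := fun i =>
    Sum.elim (fun q => Pj.pm b q.1 q.2) (fun q => Pj.pm a q.1 q.2) (e.symm i)
  have hp : ‖p‖ ≤ 1 := (pi_norm_le_iff_of_nonneg zero_le_one).2 fun i => by
    have : ∀ (a : V) (q : Fin 3 × Fin 3), ‖Pj.pm a q.1 q.2‖ ≤ 1 := fun a q =>
      ((norm_le_pi_norm _ q.2).trans (norm_le_pi_norm (Pj.pm a) q.1)).trans (Pj.norm_pm_le a)
    simp only [p]
    rcases e.symm i with q | q <;> exact this _ q
  have h1 : S p = (b ⬝ᵥ a) ^ 2 / ((b ⬝ᵥ b) * (a ⬝ᵥ a)) := by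
    simp only [S, p, Equiv.symm_apply_apply, Sum.elim_inl, Sum.elim_inr, S8a.sum_pm]
  have pb := norm_pos_iff.2 hb
  have pa := norm_pos_iff.2 ha
  have qb : 0 < b ⬝ᵥ b := (pow_pos pb 2).trans_le (norm_sq_le_dot b)
  have qa : 0 < a ⬝ᵥ a := (pow_pos pa 2).trans_le (norm_sq_le_dot a)
  have h0 : b ⬝ᵥ a ≠ 0 := abs_pos.1 (lt_of_lt_of_le (by positivity) h)
  have h2 : θ ^ 2 / 9 ≤ S p := by
    rw [h1, div_le_div_iff₀ (by norm_num) (mul_pos qb qa), ← sq_abs (b ⬝ᵥ a)]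
    have a1 := mul_le_mul ((le_abs_self _).trans (abs_dot_le b b))
      ((le_abs_self _).trans (abs_dot_le a a)) qa.le (by positivity)
    nlinarith [pow_le_pow_left₀ (by positivity) h 2, mul_le_mul_of_nonneg_left a1 (sq_nonneg θ)]
  have h3 := congrFun hK p
  rw [β.one_of_mem_closedBall (mem_closedBall_zero_iff.2 hp), hm1 _ h2, h1, Complex.ofReal_one,
    mul_one, KN] at h3
  have h4 : ∀ w, c w * (S8a.ph (fun q => e (.inl q)) t w b * S8a.ph (fun q => e (.inr q)) t w a) =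
      c w * ex (∑ i, w i * p i) * ex (t * (Real.log (b ⬝ᵥ b) / 2 - Real.log ‖b‖) +
        t * (Real.log (a ⬝ᵥ a) / 2 - Real.log ‖a‖)) := fun w => by
    rw [S8a.ph, S8a.ph, mul_assoc, ← ex_add, ← ex_add, ← e.sum_comp, Fintype.sum_sum_type]
    simp only [p, Equiv.symm_apply_apply, Sum.elim_inl, Sum.elim_inr]
    congr 2
    ring
  simp only [h4]
  rw [integral_mul_const, h3, ← ex_add, Real.log_div (pow_ne_zero 2 h0) (mul_pos qb qa).ne',
    Real.log_mul qb.ne' qa.ne', Real.log_pow, Real.log_abs]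
  congr 1
  push_cast
  ring

/-- on the bad covectors the coordinate `jm μ` is almost maximal -/
theorem coord_jm (R : ℝ) {θ ε : ℝ} (hθ : 0 < θ) (hε : 0 < ε) : ∀ᶠ L in atTop, ∀ μ ∈ Sh L R,
    ∀ b : V, b ≠ 0 → θ * (‖ac (ι (dl μ)) b‖ * ‖pt μ‖) ≤ |ac (ι (dl μ)) b ⬝ᵥ pt μ| →
      ac (ι (dl μ)) b ⬝ᵥ pt μ = b (jm μ) ∧ |Real.log |b (jm μ)| - Real.log ‖b‖| ≤ ε ∧
      |Real.log ‖ac (ι (dl μ)) b‖ - Real.log ‖b‖ + 2 * L| ≤ R + |Real.log θ| + 2 := by
  have h0 : Tendsto (fun L : ℝ => 12 * Real.exp (3 * R) * (1 + 3 / θ) * Real.exp (-(3 * L)))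
      atTop (𝓝 0) := by
    simpa using (Real.tendsto_exp_neg_atTop_nhds_zero.comp
      (tendsto_id.const_mul_atTop three_pos)).const_mul (12 * Real.exp (3 * R) * (1 + 3 / θ))
  filter_upwards [h0.eventually (ge_mem_nhds (lt_min hε (show (0 : ℝ) < 1 / 3 by norm_num)))]
    with L hL μ hμ b hb h
  set d := ac (ι (dl μ)) b with hd
  have key : ∀ i, ac (ι μ) (ev i) ⬝ᵥ d = b i := fun i => by rw [hd, ι_dl, ac_dot_ac_dl, ev_dot]
  have e1 : d ⬝ᵥ pt μ = b (jm μ) := by rw [dotProduct_comm, pt, key]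
  rw [e1] at h
  have pp := norm_pos_iff.2 (pt_ne_zero μ)
  have pd : 0 < ‖d‖ := norm_pos_iff.2 (ac_ne_zero _ hb)
  have pb := norm_pos_iff.2 hb
  have pj : 0 < |b (jm μ)| := lt_of_lt_of_le (by positivity) h
  have l1 := Sh.le_nm hμ
  have l2 := abs_le.1 hμ.1
  rw [← norm_pt] at l1 l2
  set x := 12 * Real.exp (3 * R) * (1 + 3 / θ) * Real.exp (-(3 * L)) with hx
  have h1 : ‖b‖ ≤ (1 + x) * |b (jm μ)| := (pi_norm_le_iff_of_nonneg (by positivity)).2 fun i => by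
    obtain ⟨κ, r, e, -, hr⟩ := exists_decomp (pt_ne_zero μ) (ac (ι μ) (ev i))
    have a1 : ‖ac (ι μ) (ev i) ⨯₃ pt μ‖ ≤ 6 * Real.exp (L + R) := by
      rw [pt, ac_cross]
      have b1 := norm_cross_le (ev i) (ev (jm μ))
      rw [norm_ev, norm_ev] at b1
      calc _ ≤ 3 * nm (dl (ι μ)) * ‖ev i ⨯₃ ev (jm μ)‖ := norm_ac_le _ _
        _ ≤ 3 * Real.exp (L + R) * (2 * 1 * 1) := by gcongr; exact Sh.nm_dl_le hμ
        _ = _ := by ring
    set ρ := 12 * Real.exp (3 * R) * Real.exp (-(3 * L)) with hρ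
    have a2 : ‖r‖ ≤ ρ * ‖pt μ‖ := by
      refine le_of_mul_le_mul_right (hr.trans ?_) pp
      have : Real.exp (3 * R) * Real.exp (-(3 * L)) * Real.exp (2 * L - R) * Real.exp (2 * L - R) =
          Real.exp (L + R) := by
        simp only [← Real.exp_add]; congr 1; ring
      calc _ ≤ ρ * Real.exp (2 * L - R) * Real.exp (2 * L - R) := by rw [hρ]; linarith
        _ ≤ _ := by gcongr
    have a3 : |κ| ≤ 1 + ρ := by
      refine le_of_mul_le_mul_right ?_ pp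
      have b1 := norm_sub_le (ac (ι μ) (ev i)) r
      have b2 := norm_ac_ev_le (ι μ) i
      rw [sub_eq_of_eq_add e, norm_smul, Real.norm_eq_abs] at b1
      rw [← norm_pt] at b2
      linarith
    have a4 : |r ⬝ᵥ d| ≤ 3 / θ * ρ * |b (jm μ)| := by
      calc _ ≤ 3 * ‖r‖ * ‖d‖ := abs_dot_le r d
        _ ≤ 3 * (ρ * ‖pt μ‖) * ‖d‖ := by gcongr
        _ = 3 / θ * ρ * (θ * (‖d‖ * ‖pt μ‖)) := by field_simp
        _ ≤ _ := by gcongr
    rw [Real.norm_eq_abs, ← key i, e, add_dotProduct, smul_dotProduct, dotProduct_comm (pt μ), e1,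
      smul_eq_mul]
    refine (abs_add_le _ _).trans ?_
    rw [abs_mul, show x = ρ + 3 / θ * ρ by rw [hx, hρ]; ring]
    nlinarith [mul_le_mul_of_nonneg_right a3 pj.le]
  have h2 : Real.log |b (jm μ)| ≤ Real.log ‖b‖ := Real.log_le_log pj (norm_le_pi_norm b _)
  have x0 : 0 ≤ x := by positivity
  have h3 := Real.log_le_log pb h1
  rw [Real.log_mul (by positivity) pj.ne'] at h3
  have h4 := Real.log_le_sub_one_of_pos (show 0 < 1 + x by positivity)
  have h5 := Real.log_le_log (by positivity) (h.trans (norm_le_pi_norm b _))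
  rw [Real.log_mul hθ.ne' (by positivity), Real.log_mul pd.ne' pp.ne'] at h5
  have h6 : ‖b‖ ≤ 4 * (‖d‖ * ‖pt μ‖) := by
    have := abs_dot_le d (pt μ)
    rw [e1] at this
    nlinarith [(le_min_iff.1 hL).2, mul_pos pd pp]
  have h7 := Real.log_le_log pb h6
  rw [Real.log_mul four_ne_zero (by positivity), Real.log_mul pd.ne' pp.ne'] at h7
  have h8 : Real.log 4 ≤ 2 := by
    rw [show (4 : ℝ) = 2 ^ 2 by norm_num, Real.log_pow]
    have := Real.log_le_sub_one_of_pos two_pos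
    push_cast
    linarith
  refine ⟨e1, abs_le.2 ⟨?_, ?_⟩, abs_le.2 ⟨?_, ?_⟩⟩ <;>
    linarith [(le_min_iff.1 hL).1, neg_abs_le (Real.log θ), abs_nonneg (Real.log θ)]

theorem Ind.RB.tendsto_norm {Y : K →L[ℂ] K} {C : ℝ} (h : I.RB Y C) (hY : Y ∈ I.N) (η : K) :
    Tendsto (fun k : ℕ => ‖I.rw Y (I.U (al k) η)‖) atTop (𝓝 (‖I.rw Y I.ξ‖ / ‖I.ξ‖ * ‖η‖)) := by
  set T : K →L[ℂ] K := ContinuousLinearMap.adjoint (I.rw Y) ∘L I.rw Y with hT
  have e : ∀ ζ η, ⟪ζ, T η⟫_ℂ = ⟪I.rw Y ζ, I.rw Y η⟫_ℂ := fun ζ η => by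
    rw [hT, ContinuousLinearMap.comp_apply, ContinuousLinearMap.adjoint_inner_right]
  have hs : ∀ ζ η, HasSum (fun μ => ⟪I.j (Y (I.ρ μ⁻¹ ζ)), I.j (Y (I.ρ μ⁻¹ η))⟫_ℂ) ⟪ζ, T η⟫_ℂ :=
    fun ζ η => by simpa only [h.apply, e] using LG.hasSum_inner (I.rw Y ζ) (I.rw Y η)
  have hQ : T ∈ I.Q := by
    refine ⟨I.mem_N.2 fun a ha => ?_, fun ν => ?_⟩
    · ext η
      refine ext_inner_left ℂ fun ζ => ?_
      have h1 := hs (star a ζ) η
      have h2 := hs ζ (a η)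
      have ha' := I.star_C a ha
      have e : ∀ v w, ⟪star a v, w⟫_ℂ = ⟪v, a w⟫_ℂ := fun v w =>
        ContinuousLinearMap.adjoint_inner_left a w v
      simp only [← bes_comm_apply (I.Cρ _ ha' _), ← bes_comm_apply (I.mem_N.1 hY _ ha'),
        ← bes_comm_apply (I.Cj _ ha'), e] at h1
      simp only [← bes_comm_apply (I.Cρ _ ha _), ← bes_comm_apply (I.mem_N.1 hY a ha),
        ← bes_comm_apply (I.Cj _ ha)] at h2
      exact h1.unique h2
    · ext η
      refine ext_inner_left ℂ fun ζ => ?_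
      have h1 := hs (I.ρ ν⁻¹ ζ) η
      have h2 := (Equiv.mulLeft ν).hasSum_iff.2 (hs ζ (I.ρ ν η))
      simp only [Function.comp_def, Equiv.coe_mulLeft, _root_.mul_inv_rev, URep.mul_apply,
        URep.inv_apply_apply] at h2
      rw [← URep.inner_right] at h1
      exact h2.unique h1
  have e2 : ∀ v, (⟪v, T v⟫_ℂ).re = ‖I.rw Y v‖ ^ 2 := fun v => by
    rw [e]; exact inner_self_eq_norm_sq (𝕜 := ℂ) _
  have h1 := ((Complex.continuous_re.tendsto _).comp (I.mix_σ hQ η η)).sqrt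
  simp only [Function.comp_def, I.inner_σ, e2, Real.sqrt_sq (norm_nonneg _)] at h1
  convert h1 using 2
  rw [_root_.smul_apply, one_apply_eq_self, inner_smul_right, Ind.τ, inner_self_eq_norm_sq_to_K,
    ← RCLike.ofReal_pow, RCLike.ofReal_eq_complex_ofReal, Complex.re_mul_ofReal,
    Complex.div_ofReal_re, e2, ← div_pow, ← mul_pow, Real.sqrt_sq (by positivity)]

namespace S8a

/-- the annuli -/
def an (n : ℝ) : Set V := {b | b ≠ 0 ∧ |Real.log ‖b‖| ≤ n}

theorem meas_an (n : ℝ) : MeasurableSet (an n) := (measurableSet_singleton 0).compl.inter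
  (measurableSet_le (continuous_abs.measurable.comp measurable_norm.log) measurable_const)

theorem meas_far (M : ℝ) : MeasurableSet {b : V | M ≤ |Real.log ‖b‖|} :=
  measurableSet_le measurable_const (continuous_abs.measurable.comp measurable_norm.log)

theorem ev_an (n : ℝ) {s : ℝ} (b : V) : ic (an n) (s • -b) = ic (an n) (s • b) := by
  have : s • -b ∈ an n ↔ s • b ∈ an n := by simp only [an, Set.mem_ofPred_eq, smul_neg, norm_neg,
    neg_ne_zero]
  by_cases h : s • b ∈ an n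
  · rw [ic_of_mem h, ic_of_mem (this.2 h)]
  · rw [ic_of_notMem h, ic_of_notMem (mt this.1 h)]

theorem lc_key (h : Geo I I' L Φ Ψ A B sc sc')
    (hno : ∀ C : ℝ, ∃ᶠ k : ℕ in atTop, C < |Real.log (sc' (Real.exp (2 * k))) - 2 * L k|)
    {f g : V → ℂ} (hf : BM f) (hf0 : Hom0 f) (hc : ContinuousOn f {0}ᶜ) (hg : BM g) (hg0 : Hom0 g)
    {θ : ℝ} (hθ : 0 < θ) (hni : ∀ a b, f a ≠ 0 → g b ≠ 0 → θ * (‖a‖ * ‖b‖) ≤ |a ⬝ᵥ b|) (n : ℝ)
    {Bc : ℝ} {ζ : K} (hζ : I.Bes Bc ζ) :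
    (Φ (ev 0)).E f ((B (ev 0)).E (fun b => g b * ic (an n) b) ζ) = 0 := by
  obtain ⟨Cf, hCf0, hCf⟩ := hf.exists_nonneg
  obtain ⟨Cg, hCg0, hCg⟩ := hg.exists_nonneg
  have e0 := ev_ne_zero 0
  have hF : BM fun μ => f (pt μ) := hf.comp measurable_from_top
  have hgn : BM fun b => g b * ic (an n) b := hg.mul (BM.ic (meas_an n))
  set v := (B (ev 0)).E (fun b => g b * ic (an n) b) ζ with hv
  refine norm_le_zero_iff.1 (le_of_forall_pos_le_add fun ε' hε' => ?_)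
  obtain ⟨ε, hε, rfl⟩ : ∃ ε > (0 : ℝ), ε' = (Cf + 2) * ε :=
    ⟨ε' / (Cf + 2), by positivity, by field_simp⟩
  obtain ⟨R, hR⟩ := h.tight.seq v ε hε
  obtain ⟨D, hD0, hD⟩ := Ind.dinc_overlap hCf hCg hθ hni R
  have hM : Tendsto (fun M : ℕ => Bc ^ 2 * (D *
      ‖(B (ev 0)).E (ic {b : V | (M : ℝ) ≤ |Real.log ‖b‖|}) I.ξ‖ ^ 2)) atTop (𝓝 0) := by
    have := (B (ev 0)).tendsto_E (g := fun _ => 0) (fun M : ℕ => (BM.ic (meas_far M)).1)
      (fun _ => norm_ic_le _) (fun b => tendsto_const_nhds.congr' (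
        (tendsto_natCast_atTop_atTop.eventually_gt_atTop |Real.log ‖b‖|).mono fun M hM =>
          (ic_of_notMem (not_le.2 hM)).symm)) I.ξ
    simpa [POVM.E_zero] using ((this.norm.pow 2).const_mul D).const_mul (Bc ^ 2)
  obtain ⟨M, hM⟩ := (hM.eventually (ge_mem_nhds (pow_pos hε 2))).exists
  obtain ⟨k, hk, h1, h2, h3⟩ := ((hno (M + n + (R + |Real.log θ| + 2))).and_eventually (hR.and
    ((h.tight.1.eventually (coord_jm R hθ one_pos)).and
      (NormedAddGroup.tendsto_nhds_zero.1 (h.pro.strong f hf hf0 hc v) ε hε)))).exists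
  have hz := Real.exp_ne_zero (2 * k)
  have hs := h.lift'.sc_pos _ hz
  set s := sc' (Real.exp (2 * k)) with hsd
  have hG : BM fun b => g b * ic (an n) (s • b) :=
    hg.mul ((BM.ic (meas_an n)).comp (measurable_const_smul s))
  have e1 : I.U (al k) v = (B (ev 0)).E (fun b => g b * ic (an n) (s • b)) (I.U (al k) ζ) := by
    have := h.covB e0 hgn (al k)
    rw [dl_al, ac_al_ev0, show -2 * -(k : ℝ) = 2 * k by ring, h.lift'.scal _ e0 _ hz _ hgn] at this
    simp only [← hsd, hg0 s hs.ne'] at this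
    rw [← this, hv]
    simp only [mul_apply_eq_comp, URep.inv_apply_apply]
  set S := (finite_Sh (L k) R).toFinset with hS
  have hS' : ∀ μ, μ ∈ S ↔ μ ∈ Sh (L k) R := fun μ => Set.Finite.mem_toFinset _
  let e : Γ → V → ℂ := fun μ b =>
    f (pt μ) * (g (ac (ι (dl μ)) b) * ic (an n) (s • ac (ι (dl μ)) b))
  have he : ∀ μ, BM (e μ) := fun μ => (hG.comp (measurable_ac _)).const_mul _
  have hF1 : BM fun μ => f (pt μ) * ic (Sh (L k) R) μ := hF.mul (bm_ic_Γ _)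
  have h4 := (hζ.U (al k)).row_povm (B (ev 0)) (fun _ => h.memB e0) (h.memB e0 (BM.ic (meas_far M)))
    he S (D := D) fun b => le_trans (Finset.sum_le_sum fun μ _ => by
      by_cases hb : b = 0
      · simp [e, hb, an]
      · simp only [e, ic_of_mem (show b ∈ ({0}ᶜ : Set V) from hb), one_mul, norm_mul]
        gcongr
        exact mul_le_of_le_one_right (norm_nonneg _) (norm_ic_le _ _))
      (hD (L k) S (fun μ => (hS' μ).1) b)
  rw [(B (ev 0)).E_ic_star (meas_far M)] at h4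
  have h5 : ‖I.mJ (fun μ => f (pt μ) * ic (Sh (L k) R) μ) (I.U (al k) v)‖ ≤ ε := by
    refine le_of_sq_le_sq (le_trans (le_of_eq ?_) (h4.trans hM)) hε.le
    rw [LG.norm_sq_eq_sum (F := S) fun μ hμ => by
      rw [I.mJ_apply hF1, ic_of_notMem (mt (hS' μ).2 hμ), mul_zero, zero_smul]]
    refine Finset.sum_congr rfl fun μ hμ => ?_
    have a1 := h.ρB e0 hG (fun b => by simp only [hg0.ev b, ev_an]) μ⁻¹
    rw [inv_inv] at a1
    have a2 : (fun b => ic {b : V | (M : ℝ) ≤ |Real.log ‖b‖|} b * e μ b) = e μ := funext fun b => by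
      by_cases h0 : e μ b = 0
      · rw [h0, mul_zero]
      obtain ⟨b1, b2⟩ := mul_ne_zero_iff.1 h0
      obtain ⟨b2, b3⟩ := mul_ne_zero_iff.1 b2
      have b4 : s • ac (ι (dl μ)) b ∈ an n := by_contra fun c => b3 (ic_of_notMem c)
      have b5 : ac (ι (dl μ)) b ≠ 0 := right_ne_zero_of_smul b4.1
      have b6 := (h2 μ ((hS' μ).1 hμ) b (fun c => b5 (by rw [c, ac_zero])) (by
        rw [mul_comm ‖_‖, dotProduct_comm]; exact hni _ _ b1 b2)).2.2
      have b7 := b4.2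
      rw [norm_smul, Real.norm_of_nonneg hs.le, Real.log_mul hs.ne' (norm_ne_zero_iff.2 b5)] at b7
      rw [ic_of_mem, one_mul]
      have b8 := abs_le.1 b6
      have b9 := abs_le.1 b7
      rw [Set.mem_ofPred_eq, le_abs]
      rcases lt_abs.1 hk with c | c
      · right; linarith
      · left; linarith
    rw [I.mJ_apply hF1, ic_of_mem ((hS' μ).1 hμ), mul_one, e1,
      ← mul_apply_eq_comp ((B (ev 0)).E (ic _)), ← h.lift'.pvm _ _ _ (BM.ic (meas_far M)) (he μ),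
      a2, (B (ev 0)).E_smul _ (hG.comp (measurable_ac _)), ← a1]
    simp only [mul_apply_eq_comp, _root_.smul_apply, map_smul, URep.apply_inv_apply]
  have e2 : (fun μ => f (pt μ)) =
      fun μ => f (pt μ) * ic (Sh (L k) R) μ + f (pt μ) * ic (Sh (L k) R)ᶜ μ := funext fun μ => by
    by_cases hμ : μ ∈ Sh (L k) R <;> simp [hμ]
  have h6 : ‖I.mJ (fun μ => f (pt μ) * ic (Sh (L k) R)ᶜ μ) (I.U (al k) v)‖ ≤ Cf * ε :=
    (I.norm_mJ_mono (bm_ic_Γ (Sh (L k) R)ᶜ) hCf0 (fun μ => by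
      rw [norm_mul]; exact mul_le_mul_of_nonneg_right (hCf _) (norm_nonneg _)) _).trans
      (mul_le_mul_of_nonneg_left h1 hCf0)
  have h7 := norm_add_le (I.mJ (fun μ => f (pt μ) * ic (Sh (L k) R) μ) (I.U (al k) v))
    (I.mJ (fun μ => f (pt μ) * ic (Sh (L k) R)ᶜ μ) (I.U (al k) v))
  rw [← _root_.add_apply, ← I.mJ_add hF1 (hF.mul (bm_ic_Γ _)), ← e2] at h7
  have h8 := norm_sub_norm_le (I.J (I.U (al k) ((Φ (ev 0)).E f v)))
    (I.mJ (fun μ => f (pt μ)) (I.U (al k) v))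
  rw [I.norm_J, URep.norm_map, norm_sub_rev] at h8
  linarith

end S8a

/-- **LC** -/
theorem Geo.lc' (h : Geo I I' L Φ Ψ A B sc sc') : LC L sc' := by
  by_contra hno
  simp only [LC, not_exists, not_eventually, not_le] at hno
  refine h.pro.not_inc h.dual h.pro' h.inc (inc_of_ni (h.pro.proj _) (h.pro'.proj _)
    fun f g hf hf0 hc hg hg0 _ θ hθ hni => ?_)
  ext ζ
  have h1 : ∀ n : ℕ, (Φ (ev 0)).E f ((B (ev 0)).E (fun b => g b * ic (S8a.an n) b) ζ) = 0 :=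
    fun n => by
      set X := (Φ (ev 0)).E f * (B (ev 0)).E fun b => g b * ic (S8a.an n) b
      refine norm_le_zero_iff.1 (le_of_forall_pos_le_add fun ε hε => ?_)
      obtain ⟨Bc, ζ', -, h1, h2⟩ := I.exists_bes_near ζ (ε := ε / (‖X‖ + 1)) (by positivity)
      have h3 : X ζ' = 0 := S8a.lc_key h hno hf hf0 hc hg hg0 hθ hni n h1
      have h4 := X.le_opNorm (ζ - ζ')
      rw [map_sub, h3, sub_zero] at h4
      rw [le_div_iff₀ (by positivity)] at h2
      exact h4.trans (by nlinarith [norm_nonneg (ζ - ζ')])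
  obtain ⟨C, hC0, hC⟩ := hg.exists_nonneg
  have h2 := (((Φ (ev 0)).E f).continuous.tendsto _).comp ((B (ev 0)).tendsto_E
    (g := fun b => ic {0}ᶜ b * g b) (C := C) (fun n : ℕ => (hg.mul (BM.ic (S8a.meas_an n))).1)
    (fun n b => by
      rw [norm_mul]; exact (mul_le_of_le_one_right (norm_nonneg _) (norm_ic_le _ _)).trans (hC b))
    (fun b => by
      by_cases hb : b = 0
      · simp [hb, S8a.an]
      · refine tendsto_const_nhds.congr' (
          (tendsto_natCast_atTop_atTop.eventually_ge_atTop |Real.log ‖b‖|).mono fun n hn => ?_)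
        simp only [ic_of_mem (show b ∈ ({0}ᶜ : Set V) from hb),
          ic_of_mem (show b ∈ S8a.an n from ⟨hb, hn⟩), one_mul, mul_one]) ζ)
  simp only [Function.comp_def, h1] at h2
  rw [← (h.lift'.sym _).cut hg, h.lift'.hom0 (ev_ne_zero 0) hg hg0] at h2
  exact tendsto_nhds_unique h2 tendsto_const_nhds |>.symm ▸ rfl
theorem Geo.lc (h : Geo I I' L Φ Ψ A B sc sc') : LC L sc := h.symm.lc'

end Crest.Agent.N111
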