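import Crest.Agent.N111.F.S8c

/-! # Row 111: the core of S8 (opposite pairs), part 2: estimates. -/

set_option autoImplicit false
set_option linter.unusedSectionVars false
set_option linter.unusedVariables false

namespace Crest.Agent.N111

open MeasureTheory Topology Filter Matrix
open scoped InnerProductSpace

variable {K : Type} [NormedAddCommGroup K] [InnerProductSpace ℂ K] [CompleteSpace K]

variable {I I' : Ind K} {L : ℕ → ℝ} {Φ Ψ A B : V → POVM V K} {sc sc' : ℝ → ℝ}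

namespace S8k

variable {θ t C : ℝ} {c : Om → ℂ} {φ ψ : Om → V → ℂ} {g f : V → ℂ}

/-- the shell as a finite set -/
noncomputable def Sk (L R : ℝ) : Finset Γ := (finite_Sh L R).toFinset

theorem coe_Sk (L R : ℝ) : (Sk L R : Set Γ) = Sh L R := (finite_Sh L R).coe_toFinset
theorem mem_Sk {L R : ℝ} (μ : Γ) (h : μ ∈ Sk L R) : μ ∈ Sh L R := (finite_Sh L R).mem_toFinset.1 h

/-- the coordinate estimate -/
def CJ : Prop := ∀ R θ ε : ℝ, 0 < θ → 0 < ε → ∀ᶠ L in atTop, ∀ μ ∈ Sh L R, ∀ b : V, b ≠ 0 →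
  NI θ μ b → |Real.log |ac (ι (dl μ)) b ⬝ᵥ pt μ| - Real.log ‖b‖| ≤ ε

theorem Dat.bm_fg (D : Dat θ t C c φ ψ g f) (μ : Γ) :
    BM fun b => f (pt μ) * g (ac (ι (dl μ)) b) := (D.bmg.comp (measurable_ac _)).const_mul _

theorem row_sub {P : POVM V K} (hP : P.IsPVM) {e v : V → ℂ} (he : BM e) (hv : BM v) (p : ℂ)
    (t : ℝ) (x a : K) : ⟪I.j (P.E (fun b => (starRingEnd ℂ) (e b)) x), a⟫_ℂ
      - p * ⟪I.j (P.E (lg (-t)) (P.E (fun b => (starRingEnd ℂ) (v b)) x)), a⟫_ℂ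
      = ⟪I.j ((1 : K →L[ℂ] K) (P.E (fun b => (starRingEnd ℂ) (e b - p * (v b * lg t b))) x)), a⟫_ℂ := by
  have : P.E (fun b => (starRingEnd ℂ) (e b - p * (v b * lg t b)))
      = P.E (fun b => (starRingEnd ℂ) (e b))
        - (starRingEnd ℂ) p • (P.E (lg (-t)) * P.E fun b => (starRingEnd ℂ) (v b)) := by
    rw [← hP _ _ (bm_lg _) hv.conj, ← P.E_smul _ ((bm_lg _).mul hv.conj),
      ← P.E_sub he.conj (((bm_lg _).mul hv.conj).const_mul _)]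
    congr 1
    funext b
    simp only [map_sub, map_mul, conj_lg]
    ring
  rw [this]
  simp only [ContinuousLinearMap.one_apply, ContinuousLinearMap.sub_apply,
    ContinuousLinearMap.smul_apply, ContinuousLinearMap.mul_apply, map_sub, map_smul,
    inner_sub_left, inner_smul_left, Complex.conj_conj]

/-- **Part A**: the kernel is replaced by `‖b‖^{it}` -/
theorem partA (h : Geo I I' L Φ Ψ A B sc sc') (D : Dat θ t C c φ ψ g f) (hcj : CJ) (R : ℝ)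
    {Bc : ℝ} {ζ : K} (hB : 0 ≤ Bc) (hζ : I.Bes Bc ζ) (η : K) :
    Tendsto (fun k => Xp I L B t c φ ψ g f (ic (Sk (L k) R : Set Γ)) ζ η k - pk t (sk sc' k) (L k)
      * Mk I B g f ((B (ev 0)).E (lg (-t))) (Sk (L k) R) ζ η k) atTop (𝓝 0) := by
  obtain ⟨N, hN0, hN⟩ := row_ovl I R D.pos
  refine tendsto_of_le (N * Bc * (C * C * |t|) * ‖star (1 : K →L[ℂ] K) I.ξ‖ * ‖η‖) fun ε hε => ?_
  filter_upwards [h.tight.1.eventually (hcj R θ ε D.pos hε)] with k hk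
  have hb := fun μ => ((B (ev 0)).sInt_E D.int (D.ek (sk sc' k) (L k) μ).1
    (D.ek (sk sc' k) (L k) μ).2.1 (D.ek (sk sc' k) (L k) μ).2.2).1
  rw [Xp_fin h D, Mk, Finset.mul_sum, ← Finset.sum_sub_distrib]
  simp only [fun μ => row_sub (I := I) (h.lift'.pvm (ev 0)) (hb μ) (D.bm_fg μ)]
  have hC := D.C0
  refine (hN (L k) _ mem_Sk _ (h.lift'.sym _) (fun f => h.memB (ev_ne_zero 0)) 1 I.one_N _
    (fun μ => ((hb μ).sub (((D.bm_fg μ).mul (bm_lg t)).const_mul _)).conj) (C * C * |t| * ε)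
    (by positivity) (fun μ hμ b hb0 => ?_) Bc _ _ hB (hζ.U _)).trans (le_of_eq ?_)
  · have := D.ker_le (sk_pos h k) (L k) μ hb0 hε.le (hk μ (mem_Sk μ hμ) b hb0) rfl
    simpa only [Complex.norm_conj, ne_eq, map_eq_zero] using this
  · rw [URep.norm_map]; ring

/-- changing the row operator -/
theorem Mk_sub (h : Geo I I' L Φ Ψ A B sc sc') (D : Dat θ t C c φ ψ g f) (R : ℝ) {Bc : ℝ} {ζ : K}
    (hB : 0 ≤ Bc) (hζ : I.Bes Bc ζ) (η : K) : ∃ N : ℝ, ∀ Y ∈ I.N, ∀ Y' ∈ I.N, ∀ k,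
      ‖Mk I B g f Y (Sk (L k) R) ζ η k - Mk I B g f Y' (Sk (L k) R) ζ η k‖
        ≤ N * ‖star Y I.ξ - star Y' I.ξ‖ := by
  obtain ⟨N, hN0, hN⟩ := row_ovl I R D.pos
  refine ⟨N * Bc * (C * C) * ‖η‖, fun Y hY Y' hY' k => ?_⟩
  have hC := D.C0
  have := hN (L k) _ mem_Sk _ (h.lift'.sym (ev 0)) (fun f => h.memB (ev_ne_zero 0)) _
    (Ind.sub_N hY hY') _ (fun μ => (D.bm_fg μ).conj) (C * C) (by positivity)
    (fun μ hμ b hb0 => ⟨?_, fun h0 => D.ni _ _ (fun h => h0 (by simp [h])) fun h => h0 (by simp [h])⟩)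
    Bc _ (I.U (al k) η) hB (hζ.U (al k))
  · simp only [ContinuousLinearMap.sub_apply, map_sub, inner_sub_left, Finset.sum_sub_distrib,
      star_sub, URep.norm_map] at this
    exact this.trans (le_of_eq (by ring))
  · rw [Complex.norm_conj, norm_mul]
    exact mul_le_mul (D.bf _) (D.bg _) (norm_nonneg _) hC

theorem Mk_eq (h : Geo I I' L Φ Ψ A B sc sc') (D : Dat θ t C c φ ψ g f) {Y : K →L[ℂ] K} {C' : ℝ}
    (hY : I.RB Y C') (S : Finset Γ) (ζ η : K) (k : ℕ) : Mk I B g f Y S ζ η k =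
      ⟪I.rw Y (I.U (al k) ((B (ev 0)).E (fun b => (starRingEnd ℂ) (g b)) ζ)),
        I.mJ (fun μ => ic (S : Set Γ) μ * f (pt μ)) (I.U (al k) η)⟫_ℂ := by
  rw [inner_rw_fin hY S (bm_Γ fun μ => D.bf (pt μ)), Mk]
  refine Finset.sum_congr rfl fun μ _ => ?_
  rw [trB h D.bmg.conj (fun b => by simp only [D.hg.ev b])]
  simp only [D.hg _ (sk_pos h k).ne', map_mul]
  rw [POVM.E_smul _ _ (D.bmg.comp (measurable_ac _)).conj, ContinuousLinearMap.smul_apply,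
    map_smul, map_smul, inner_smul_left, Complex.conj_conj]

variable (I) in
/-- the limit of the norms of row operators along the flow -/
def TN : Prop := ∀ (Y : K →L[ℂ] K) (C : ℝ), I.RB Y C → Y ∈ I.N → ∀ η : K,
  Tendsto (fun k : ℕ => ‖I.rw Y (I.U (al k) η)‖) atTop (𝓝 (‖I.rw Y I.ξ‖ / ‖I.ξ‖ * ‖η‖))

theorem mJ_cut (I : Ind K) (S : Set Γ) {F : Γ → ℂ} (hF : BM F) :
    I.mJ (fun μ => ic S μ * F μ) = I.mJ F - I.mJ fun μ => ic Sᶜ μ * F μ := by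
  rw [← I.mJ_sub hF ((bm_ic_Γ _).mul hF)]
  congr 1
  funext μ
  by_cases h : μ ∈ S <;> simp [h]

/-- **Part B** for bounded row operators -/
theorem partB0 (h : Geo I I' L Φ Ψ A B sc sc') (D : Dat θ t C c φ ψ g f) (hTN : TN I)
    {Y : K →L[ℂ] K} {C' : ℝ} (hY : I.RB Y C') (hYN : Y ∈ I.N) (hY1 : ‖Y‖ ≤ 1) (ζ η : K) {δ R : ℝ}
    (hδ : 0 < δ) (hR : ∀ᶠ k : ℕ in atTop, ‖I.mJ (ic (Sh (L k) R)ᶜ) (I.U (al k) η)‖ ≤ δ)
    {ϑ : K} (hϑ : ϑ = (B (ev 0)).E (fun b => (starRingEnd ℂ) (g b)) ζ) :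
    ∀ᶠ k : ℕ in atTop, ‖Mk I B g f Y (Sk (L k) R) ζ η k
      - (starRingEnd ℂ) (I.tz Y) * ⟪ϑ, (Φ (ev 0)).E f η⟫_ℂ‖ ≤ ((‖ϑ‖ + 1) * (1 + C) + 1) * δ := by
  have hξ : 0 < ‖I.ξ‖ := norm_pos_iff.2 I.ξ_ne
  have h1 : ‖I.rw Y I.ξ‖ / ‖I.ξ‖ * ‖ϑ‖ < ‖ϑ‖ + 1 := by
    refine (mul_le_of_le_one_left (norm_nonneg _) ((div_le_one hξ).2 ?_)).trans_lt (lt_add_one _)
    refine (hY.norm_bes hYN I.bes_ξ zero_le_one).trans ?_
    rw [one_mul]
    exact ((star Y).le_opNorm _).trans (mul_le_of_le_one_left hξ.le (by rwa [norm_star]))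
  have h2 := (hTN Y C' hY hYN ϑ).eventually (eventually_le_nhds h1)
  have h3 := (Metric.tendsto_nhds.1 (h.pro.strong f D.bmf D.hf D.of η)) δ hδ
  have h4 := (Metric.tendsto_nhds.1 ((Complex.continuous_conj.tendsto _).comp
    (hY.mix hYN ((Φ (ev 0)).E f η) ϑ))) δ hδ
  filter_upwards [hR, h2, h3, h4] with k k1 k2 k3 k4
  rw [dist_zero_right] at k3
  simp only [Function.comp_apply, inner_conj_symm, map_mul, dist_eq_norm] at k4
  have hb : BM fun μ => f (pt μ) := bm_Γ fun μ => D.bf (pt μ)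
  have k5 : ‖I.mJ (fun μ => ic (Sh (L k) R)ᶜ μ * f (pt μ)) (I.U (al k) η)‖ ≤ C * δ :=
    (I.norm_mJ_mono (bm_ic_Γ _) D.C0 (fun μ => by
      rw [norm_mul, mul_comm]
      exact mul_le_mul_of_nonneg_right (D.bf _) (norm_nonneg _)) _).trans
      (mul_le_mul_of_nonneg_left k1 D.C0)
  rw [Mk_eq h D hY, ← hϑ, coe_Sk, mJ_cut I _ hb, ContinuousLinearMap.sub_apply]
  have e : ∀ (x a b d : LG K) (z : ℂ), ⟪x, a - d⟫_ℂ - z = ⟪x, a - b - d⟫_ℂ + (⟪x, b⟫_ℂ - z) :=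
    fun x a b d z => by simp only [inner_sub_right]; ring
  rw [e _ _ (I.J (I.U (al k) ((Φ (ev 0)).E f η)))]
  refine (norm_add_le _ _).trans ?_
  have k6 := (norm_inner_le_norm (𝕜 := ℂ) _ _).trans (mul_le_mul k2
    ((norm_sub_le _ _).trans (add_le_add k3.le k5)) (norm_nonneg _) (by positivity))
  exact (add_le_add k6 k4.le).trans (le_of_eq (by ring))

/-- **Part B** -/
theorem partB (h : Geo I I' L Φ Ψ A B sc sc') (D : Dat θ t C c φ ψ g f) (hTN : TN I)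
    {Y : K →L[ℂ] K} (hYN : Y ∈ I.N) (hY1 : ‖Y‖ ≤ 1) {Bc : ℝ} {ζ : K} (hB : 0 ≤ Bc)
    (hζ : I.Bes Bc ζ) (η : K) {δ R : ℝ}
    (hδ : 0 < δ) (hR : ∀ᶠ k : ℕ in atTop, ‖I.mJ (ic (Sh (L k) R)ᶜ) (I.U (al k) η)‖ ≤ δ)
    {ϑ : K} (hϑ : ϑ = (B (ev 0)).E (fun b => (starRingEnd ℂ) (g b)) ζ) :
    ∀ᶠ k : ℕ in atTop, ‖Mk I B g f Y (Sk (L k) R) ζ η k
      - (starRingEnd ℂ) (I.tz Y) * ⟪ϑ, (Φ (ev 0)).E f η⟫_ℂ‖ ≤ ((‖ϑ‖ + 1) * (1 + C) + 3) * δ := by
  obtain ⟨N, hN⟩ := Mk_sub h D R hB hζ η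
  have h0 := tendsto_iff_norm_sub_tendsto_zero.1 (I.tendsto_trunc Y)
  simp only [norm_sub_rev _ (star Y I.ξ)] at h0
  have h1 := h0.const_mul N
  have h2 := (h0.div_const ‖I.ξ‖).mul_const ‖⟪ϑ, (Φ (ev 0)).E f η⟫_ℂ‖
  rw [mul_zero] at h1
  rw [zero_div, zero_mul] at h2
  obtain ⟨s, s1, s2⟩ := ((h1.eventually (eventually_le_nhds hδ)).and
    (h2.eventually (eventually_le_nhds hδ))).exists
  have hs : Y * I.m (ic (s : Set Γ)) ∈ I.N := Ind.mul_N hYN (I.m_N (bm_ic_Γ _))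
  filter_upwards [partB0 h D hTN (I.rb_trunc Y s) hs ((norm_mul_le _ _).trans
    (mul_le_one₀ hY1 (norm_nonneg _) (I.norm_m_le zero_le_one (norm_ic_le _)))) ζ η hδ hR hϑ]
    with k hk
  have k1 := (hN Y hYN _ hs k).trans s1
  have k2 : ‖(starRingEnd ℂ) (I.tz (Y * I.m (ic (s : Set Γ)))) * ⟪ϑ, (Φ (ev 0)).E f η⟫_ℂ
      - (starRingEnd ℂ) (I.tz Y) * ⟪ϑ, (Φ (ev 0)).E f η⟫_ℂ‖ ≤ δ := by
    rw [← sub_mul, ← map_sub, norm_mul, Complex.norm_conj, norm_sub_rev]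
    exact (mul_le_mul_of_nonneg_right (Ind.norm_tz_sub_le hYN hs) (norm_nonneg _)).trans s2
  refine (norm_sub_le_norm_sub_add_norm_sub _ _ _).trans ((add_le_add k1
    ((norm_sub_le_norm_sub_add_norm_sub _ _ _).trans (add_le_add hk k2))).trans (le_of_eq ?_))
  ring

theorem Dat.c_ζ (D : Dat θ t C c φ ψ g f) (P : POVM V K) (ζ : K) :
    Continuous (fun w => P.E (fun b => (starRingEnd ℂ) (gw t φ g w b)) ζ) ∧
      ∀ w, ‖P.E (fun b => (starRingEnd ℂ) (gw t φ g w b)) ζ‖ ≤ C * ‖ζ‖ :=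
  ⟨(P.sCont_E (fun w => (D.bm_gw w).conj.1) (C := C)
      (fun w b => by rw [Complex.norm_conj]; exact D.b_gw w b)
      fun b => Complex.continuous_conj.comp (D.c_gw b)).1 ζ,
    fun w => P.norm_E_apply_le (D.bm_gw w).conj D.C0 ζ (Eventually.of_forall fun b => by
      rw [Complex.norm_conj]; exact D.b_gw w b)⟩

theorem Dat.c_η (D : Dat θ t C c φ ψ g f) (P : POVM V K) (η : K) :
    Continuous (fun w => P.E (fw ψ f w) η) ∧ ∀ w, ‖P.E (fw ψ f w) η‖ ≤ C * ‖η‖ :=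
  ⟨(P.sCont_E D.m_fw D.b_fw D.c_fw).1 η,
    fun w => P.norm_E_apply_le (D.bm_fw w) D.C0 η (Eventually.of_forall (D.b_fw w))⟩

theorem Dat.c_m (D : Dat θ t C c φ ψ g f) (I : Ind K) {χ : Γ → ℂ} (hχ : ∀ μ, ‖χ μ‖ ≤ 1) (L : ℝ)
    (η : K) : Continuous (fun w => I.m (fun μ => χ μ * (Fk t L μ * fw ψ f w (pt μ))) η) ∧
      ∀ w, ‖I.m (fun μ => χ μ * (Fk t L μ * fw ψ f w (pt μ))) η‖ ≤ C * ‖I.mJ χ η‖ :=
  ⟨(I.mP.sCont_E (f := fun w μ => χ μ * (Fk t L μ * fw ψ f w (pt μ))) (C := 1 * C)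
      (fun w => measurable_from_top) (fun w μ => (norm_mul_le _ _).trans
        (mul_le_mul (hχ μ) (D.b_Ffw L w μ) (norm_nonneg _) zero_le_one))
      fun μ => continuous_const.mul (continuous_const.mul (D.c_fw _))).1 η,
    fun w => (I.norm_m_apply_le _ _).trans (I.norm_mJ_mono (bm_Γ hχ) D.C0 (fun μ => by
      rw [norm_mul, mul_comm]
      exact mul_le_mul_of_nonneg_right (D.b_Ffw L w μ) (norm_nonneg _)) _)⟩

theorem Dat.int_Xp (D : Dat θ t C c φ ψ g f) {χ : Γ → ℂ} (hχ : ∀ μ, ‖χ μ‖ ≤ 1) (ζ η : K) (k : ℕ) :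
    Continuous (fun w => ⟪I.U (al k) ((B (ev 0)).E (fun b => (starRingEnd ℂ) (gw t φ g w b)) ζ),
      I.m (fun μ => χ μ * (Fk t (L k) μ * fw ψ f w (pt μ))) (I.U (al k) η)⟫_ℂ) ∧
    ∀ w, ‖⟪I.U (al k) ((B (ev 0)).E (fun b => (starRingEnd ℂ) (gw t φ g w b)) ζ),
      I.m (fun μ => χ μ * (Fk t (L k) μ * fw ψ f w (pt μ))) (I.U (al k) η)⟫_ℂ‖
        ≤ C * ‖ζ‖ * (C * ‖I.mJ χ (I.U (al k) η)‖) :=
  ⟨((I.U (al k)).continuous.comp (D.c_ζ _ ζ).1).inner (D.c_m I hχ _ _).1, fun w =>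
    (norm_inner_le_norm _ _).trans (mul_le_mul (by rw [URep.norm_map]; exact (D.c_ζ _ ζ).2 w)
      ((D.c_m I hχ _ _).2 w) (norm_nonneg _) (mul_nonneg D.C0 (norm_nonneg _)))⟩

/-- cutting to a set -/
theorem Xp_cut (D : Dat θ t C c φ ψ g f) (S : Set Γ) (ζ η : K) (k : ℕ) :
    ‖Xp I L B t c φ ψ g f (fun _ => 1) ζ η k - Xp I L B t c φ ψ g f (ic S) ζ η k‖
      ≤ (∫ w, ‖c w‖) * (C * ‖ζ‖ * (C * ‖I.mJ (ic Sᶜ) (I.U (al k) η)‖)) := by
  obtain ⟨a1, a2⟩ := D.int_Xp (I := I) (L := L) (B := B) (norm_ic_le S) ζ η k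
  obtain ⟨b1, b2⟩ := D.int_Xp (I := I) (L := L) (B := B) (norm_ic_le Sᶜ) ζ η k
  have e : Xp I L B t c φ ψ g f (fun _ => 1) ζ η k = Xp I L B t c φ ψ g f (ic S) ζ η k
      + Xp I L B t c φ ψ g f (ic Sᶜ) ζ η k := by
    rw [Xp, Xp, Xp, ← integral_add (integrable_mul D.int a1 a2) (integrable_mul D.int b1 b2)]
    congr 1
    funext w
    have hb := bm_Γ (D.b_Ffw (L k) w)
    simp only [one_mul, I.inner_m, mJ_cut I S hb, ContinuousLinearMap.sub_apply, inner_sub_right]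
    ring
  rw [e, add_sub_cancel_left]
  exact norm_integral_le D.int b2

variable (I L Φ B t c φ ψ g f) in
/-- the pairing that converges to the left-hand side -/
noncomputable def Xk (ζ η : K) (k : ℕ) : ℂ :=
  ∫ w, c w * ⟪(B (ev 0)).E (fun b => (starRingEnd ℂ) (gw t φ g w b)) ζ,
    I.σ k (I.m (Fk t (L k))) ((Φ (ev 0)).E (fw ψ f w) η)⟫_ℂ

/-- the boundary function is replaced by a position function -/
theorem Xk_sub (h : Geo I I' L Φ Ψ A B sc sc') (D : Dat θ t C c φ ψ g f) (ζ η : K) :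
    Tendsto (fun k => Xk I L Φ B t c φ ψ g f ζ η k - Xp I L B t c φ ψ g f (fun _ => 1) ζ η k)
      atTop (𝓝 0) := by
  have hC := D.C0
  have hF : ∀ k, ‖I.σ k (I.m (Fk t (L k)))‖ ≤ 1 := fun k => by
    rw [I.norm_σ]; exact I.norm_m_le zero_le_one fun μ => (norm_Fk _ _ _).le
  have a1 := fun k => (D.c_ζ (B (ev 0)) ζ).1.inner (𝕜 := ℂ)
    ((I.σ k (I.m (Fk t (L k)))).continuous.comp (D.c_η (Φ (ev 0)) η).1)
  simp only [Function.comp_apply] at a1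
  have a2 : ∀ k w, ‖⟪(B (ev 0)).E (fun b => (starRingEnd ℂ) (gw t φ g w b)) ζ,
      I.σ k (I.m (Fk t (L k))) ((Φ (ev 0)).E (fw ψ f w) η)⟫_ℂ‖ ≤ C * ‖ζ‖ * (1 * (C * ‖η‖)) :=
    fun k w => (norm_inner_apply_le (hF k) _ _).trans (mul_le_mul ((D.c_ζ _ ζ).2 w)
      (mul_le_mul_of_nonneg_left ((D.c_η _ η).2 w) zero_le_one) (by positivity) (by positivity))
  have b := fun k => D.int_Xp (I := I) (L := L) (B := B) (χ := fun _ => 1) (by simp) ζ η k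
  simp only [I.mJ_one, I.norm_J, URep.norm_map] at b
  have := dct D.int (fun k => (a1 k).sub (b k).1)
    (fun k w => (norm_sub_le _ _).trans (add_le_add (a2 k w) ((b k).2 w))) fun w => ?_
  · refine this.congr fun k => ?_
    rw [Xk, Xp, ← integral_sub (integrable_mul D.int (a1 k) (a2 k))
      (integrable_mul D.int (b k).1 (b k).2)]
    simp only [Pi.sub_apply, mul_sub]
  · have h1 := (tendsto_zero_iff_norm_tendsto_zero.1 (h.pro.strong _ (D.bm_fw w) (D.h_fw w)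
      (D.o_fw w) η)).const_mul (C * ‖ζ‖)
    rw [mul_zero] at h1
    refine squeeze_zero_norm (fun k => ?_) h1
    have hb : BM (Fk t (L k)) := bm_Γ fun μ => (norm_Fk _ _ _).le
    have hb' : BM fun μ => fw ψ f w (pt μ) := bm_Γ fun μ => D.b_fw w _
    simp only [Pi.sub_apply, one_mul, I.inner_σ, I.inner_m]
    rw [I.mJ_eq hb, I.mJ_eq (hb.mul hb'), ← mulG_mulG hb hb', ← I.mJ_eq hb', ← inner_sub_right,
      ← map_sub]
    refine (norm_inner_le_norm _ _).trans (mul_le_mul ?_ ?_ (norm_nonneg _) (by positivity))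
    · rw [I.norm_J, URep.norm_map]; exact (D.c_ζ _ ζ).2 w
    · exact (norm_mulG_apply_le zero_le_one (fun μ => (norm_Fk t (L k) μ).le) _).trans
        (by rw [one_mul, norm_sub_rev])

/-- **the main estimate** -/
theorem main (h : Geo I I' L Φ Ψ A B sc sc') (D : Dat θ t C c φ ψ g f) (hcj : CJ) (hTN : TN I)
    {Bc : ℝ} {ζ : K} (hB : 0 ≤ Bc) (hζ : I.Bes Bc ζ) (η : K) :
    Tendsto (fun k => Xk I L Φ B t c φ ψ g f ζ η k - pk t (sk sc' k) (L k) *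
      ((starRingEnd ℂ) (I.tz ((B (ev 0)).E (lg (-t)))) *
        ⟪ζ, (B (ev 0)).E g ((Φ (ev 0)).E f η)⟫_ℂ)) atTop (𝓝 0) := by
  rw [← inner_E_conj _ D.bmg]
  set ϑ := (B (ev 0)).E (fun b => (starRingEnd ℂ) (g b)) ζ with hϑ
  have hC := D.C0
  refine tendsto_of_le (1 + (∫ w, ‖c w‖) * (C * ‖ζ‖ * C) + 1 + ((‖ϑ‖ + 1) * (1 + C) + 3))
    fun δ hδ => ?_
  obtain ⟨R, hR⟩ := h.tight.seq η δ hδ
  filter_upwards [hR, Metric.tendsto_nhds.1 (Xk_sub h D ζ η) δ hδ,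
    Metric.tendsto_nhds.1 (partA h D hcj R hB hζ η) δ hδ,
    partB h D hTN (h.memB (ev_ne_zero 0) (bm_lg (-t)))
      ((B (ev 0)).norm_E_le (bm_lg _).1 zero_le_one fun b => (norm_lg _ b).le) hB hζ η hδ hR hϑ]
    with k k1 k2 k3 k4
  rw [dist_zero_right] at k2 k3
  have k5 := (Xp_cut (I := I) (L := L) (B := B) D (Sh (L k) R) ζ η k).trans
    (mul_le_mul_of_nonneg_left (mul_le_mul_of_nonneg_left (mul_le_mul_of_nonneg_left k1 hC)
      (by positivity)) (integral_nonneg fun w => norm_nonneg _))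
  rw [coe_Sk] at k3
  have k6 := norm_mul_le (pk t (sk sc' k) (L k)) _ |>.trans
    (mul_le_mul (norm_pk _ _ _).le k4 (norm_nonneg _) zero_le_one)
  rw [mul_sub] at k6
  refine (norm_sub_le_norm_sub_add_norm_sub _ _ _).trans ((add_le_add k2.le
    ((norm_sub_le_norm_sub_add_norm_sub _ _ _).trans (add_le_add k5
      ((norm_sub_le_norm_sub_add_norm_sub _ _ _).trans (add_le_add k3.le k6))))).trans (le_of_eq ?_))
  ring

theorem ext_bes (I : Ind K) {S T : K →L[ℂ] K}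
    (h : ∀ Bc ζ η, 0 ≤ Bc → I.Bes Bc ζ → ⟪ζ, S η⟫_ℂ = ⟪ζ, T η⟫_ℂ) : S = T := by
  ext η
  rw [← sub_eq_zero, ← inner_self_eq_zero (𝕜 := ℂ)]
  refine tendsto_nhds_unique (l := (atTop : Filter ℕ)) tendsto_const_nhds
    (tendsto_of_le ‖S η - T η‖ fun δ hδ => Eventually.of_forall fun _ => ?_)
  obtain ⟨Bc, ζ, h1, h2, h3⟩ := I.exists_bes_near (S η - T η) hδ
  have e : ⟪S η - T η, S η - T η⟫_ℂ = ⟪S η - T η - ζ, S η - T η⟫_ℂ := by
    rw [inner_sub_left _ ζ, inner_sub_right ζ, h Bc ζ η h1 h2, sub_self, sub_zero]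
  rw [e, mul_comm]
  exact (norm_inner_le_norm _ _).trans (mul_le_mul_of_nonneg_right h3 (norm_nonneg _))

/-- **S8**, core -/
theorem core (h : Geo I I' L Φ Ψ A B sc sc') (hcj : CJ) (hTN : TN I) :
    ∃ t₀ > (0 : ℝ), ∀ t, |t| < t₀ → ∃ z : ℂ, ∀ θ C c φ ψ g f, Dat θ t C c φ ψ g f →
      sInt volume c (fun w => (B (ev 0)).E (fun b => g b * lg t b * φ w b)
        * (A (ev 0)).E fun a => f a * lg t a * ψ w a) = z • ((Ψ (ev 0)).E g * (Φ (ev 0)).E f) := by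
  obtain ⟨l, hl, t₀, ht₀, H⟩ := h.lift.lift'
  refine ⟨t₀, ht₀, fun t ht => ?_⟩
  obtain ⟨ct, hct, hW⟩ := H t ht
  obtain ⟨p, hp⟩ := exists_tendsto_ultra l (f := fun k => pk t (sk sc' k) (L k)) (C := 1)
    (Eventually.of_forall fun k => (norm_pk _ _ _).le)
  refine ⟨p * (starRingEnd ℂ) (I.tz ((B (ev 0)).E (lg (-t)))) / ct,
    fun θ C c φ ψ g f D => ext_bes I fun Bc ζ η hB hζ => ?_⟩
  have hC := D.C0
  have h1 := (hp.mul_const ((starRingEnd ℂ) (I.tz ((B (ev 0)).E (lg (-t)))) *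
    ⟪ζ, (B (ev 0)).E g ((Φ (ev 0)).E f η)⟫_ℂ)).add ((main h D hcj hTN hB hζ η).mono_left hl)
  simp only [add_sub_cancel, add_zero] at h1
  have h2 := hW.integral (C := 1) (fun k => by
      rw [I.norm_σ]; exact I.norm_m_le zero_le_one fun μ => (norm_ex _).le) D.int
    (D.c_ζ (B (ev 0)) ζ).1 (D.c_η (Φ (ev 0)) η).1 (D := C * (‖ζ‖ + ‖η‖))
    (fun w => ((D.c_ζ _ ζ).2 w).trans (by gcongr; exact le_add_of_nonneg_right (norm_nonneg _)))
    (fun w => ((D.c_η _ η).2 w).trans (by gcongr; exact le_add_of_nonneg_left (norm_nonneg _)))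
  have h3 := tendsto_nhds_unique h2 h1
  have e : ∀ w, (A (ev 0)).E (fun a => f a * lg t a * ψ w a)
      = (A (ev 0)).E (lg t) * (Φ (ev 0)).E (fw ψ f w) := fun w => by
    rw [← h.lift.hom0 (ev_ne_zero 0) (D.bm_fw w) (D.h_fw w),
      ← h.lift.pvm _ _ _ (bm_lg t) (D.bm_fw w)]
    congr 1
    funext a
    rw [fw]
    ring
  have hs : SCont fun w => (B (ev 0)).E (gw t φ g w)
      * ((A (ev 0)).E (lg t) * (Φ (ev 0)).E (fw ψ f w)) :=
    ((B (ev 0)).sCont_E D.m_gw D.b_gw D.c_gw).mul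
      ((SCont.const _).mul ((Φ (ev 0)).sCont_E D.m_fw D.b_fw D.c_fw))
  simp only [e]
  refine (inner_sInt D.int hs ζ η).trans (mul_left_cancel₀ hct ?_)
  simp only [fun w => inner_E_conj (B (ev 0)) (D.bm_gw w), ContinuousLinearMap.smul_apply,
    map_smul, inner_smul_right, mul_left_comm _ ct, integral_const_mul] at h3
  simp only [ContinuousLinearMap.mul_apply, ContinuousLinearMap.smul_apply, inner_smul_right]
  rw [h3, ← h.lift'.hom0 (ev_ne_zero 0) D.bmg D.hg]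
  field_simp

end S8k

end Crest.Agent.N111
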