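import Crest.Agent.N111.F.Toi
import Crest.Agent.N111.F.S8a
import Crest.Agent.N111.F.S8d

/-! # Row 111: opposite pairs (fill the proofs IN PLACE). -/

set_option autoImplicit false
set_option linter.unusedSectionVars false
set_option linter.unusedVariables false

namespace Crest.Agent.N111

open MeasureTheory Topology Filter Matrix
open scoped InnerProductSpace

variable {K : Type} [NormedAddCommGroup K] [InnerProductSpace ℂ K] [CompleteSpace K]

variable {I I' : Ind K} {L : ℕ → ℝ} {Φ Ψ A B : V → POVM V K} {sc sc' : ℝ → ℝ}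


/-! `PRep`, `exists_pRep`, `coord_jm`, `Ind.RB.tendsto_norm`, `Geo.lc` are in `F/S8a`. -/

/-- **S8**, core -/
theorem Geo.s8_core (h : Geo I I' L Φ Ψ A B sc sc') : ∃ t₀ > (0 : ℝ), ∀ t, |t| < t₀ → ∃ z : ℂ,
    ∀ θ > (0 : ℝ), ∀ c φ ψ, PRep θ t c φ ψ → ∀ g f : V → ℂ, BM g → Hom0 g → BM f → Hom0 f →
      ContinuousOn f {0}ᶜ → (∀ b a, g b ≠ 0 → f a ≠ 0 → θ * (‖b‖ * ‖a‖) ≤ |b ⬝ᵥ a|) →
      sInt volume c (fun w => (B (ev 0)).E (fun b => g b * lg t b * φ w b)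
        * (A (ev 0)).E fun a => f a * lg t a * ψ w a) = z • ((Ψ (ev 0)).E g * (Φ (ev 0)).E f) := by
  obtain ⟨t₀, ht₀, H⟩ := S8k.core h (fun R θ ε hθ hε => (coord_jm R hθ hε).mono
    fun L hL μ hμ b hb hn => by
      obtain ⟨h1, h2, -⟩ := hL μ hμ b hb hn
      rwa [h1]) fun Y C hY hN η => hY.tendsto_norm hN η
  refine ⟨t₀, ht₀, fun t ht => (H t ht).imp fun z hz θ hθ c φ ψ P g f hg hg0 hf hf0 hfc hni => ?_⟩
  obtain ⟨Cg, hCg, bg⟩ := hg.exists_nonneg
  obtain ⟨Cf, hCf, bf⟩ := hf.exists_nonneg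
  exact hz θ (Cg + Cf) c φ ψ g f ⟨hθ, P.int, P.measφ, P.measψ, P.bdφ, P.bdψ, P.homφ, P.homψ,
    P.contφ, P.contψ, fun w => P.jointψ.comp (Continuous.prodMk_right w).continuousOn
      fun a ha => ha, P.ker, add_nonneg hCg hCf, hg.1, hf.1,
    fun b => (bg b).trans (le_add_of_nonneg_right hCf),
    fun a => (bf a).trans (le_add_of_nonneg_left hCg), hg0, hf0, hfc, hni⟩

end Crest.Agent.N111
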