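import Crest.Agent.N111.F.Toi
import Crest.Agent.N111.E.Api

/-! # Row 111: the core of S8 (opposite pairs), part 1: rows. -/

set_option autoImplicit false
set_option linter.unusedSectionVars false
set_option linter.unusedVariables false

namespace Crest.Agent.N111

open MeasureTheory Topology Filter Matrix
open scoped InnerProductSpace

variable {K : Type} [NormedAddCommGroup K] [InnerProductSpace ℂ K] [CompleteSpace K]

variable {I I' : Ind K} {L : ℕ → ℝ} {Φ Ψ A B : V → POVM V K} {sc sc' : ℝ → ℝ}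

namespace S8k

theorem tendsto_of_le {α : Type*} {l : Filter α} {a : α → ℂ} (C : ℝ)
    (h : ∀ δ > (0 : ℝ), ∀ᶠ k in l, ‖a k‖ ≤ C * δ) : Tendsto a l (𝓝 0) := by
  refine Metric.tendsto_nhds.2 fun ε hε => ?_
  have hC : 0 < |C| + 1 := by positivity
  filter_upwards [h (ε / (|C| + 1)) (by positivity)] with k hk
  rw [dist_zero_right]
  refine hk.trans_lt ?_
  rw [← mul_div_assoc, div_lt_iff₀ hC]
  nlinarith [le_abs_self C]

/-- finite Cauchy–Schwarz -/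
theorem cs {α : Type*} (S : Finset α) {x y : α → K} {X Y : ℝ} (hX : 0 ≤ X) (hY : 0 ≤ Y)
    (hx : ∑ μ ∈ S, ‖x μ‖ ^ 2 ≤ X ^ 2) (hy : ∑ μ ∈ S, ‖y μ‖ ^ 2 ≤ Y ^ 2) :
    ‖∑ μ ∈ S, ⟪x μ, y μ⟫_ℂ‖ ≤ X * Y := by
  refine (norm_sum_le _ _).trans ((Finset.sum_le_sum fun μ _ => norm_inner_le_norm _ _).trans ?_)
  refine (pow_le_pow_iff_left₀ (by positivity) (by positivity) two_ne_zero).1 ?_
  refine (Finset.sum_mul_sq_le_sq_mul_sq _ _ _).trans ?_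
  rw [mul_pow]
  exact mul_le_mul hx hy (by positivity) (by positivity)

/-- non-incidence of `μ` and `b` -/
def NI (θ : ℝ) (μ : Γ) (b : V) : Prop :=
  θ * (‖ac (ι (dl μ)) b‖ * ‖pt μ‖) ≤ |ac (ι (dl μ)) b ⬝ᵥ pt μ|

/-- **rows with bounded overlap** -/
theorem row_ovl (I : Ind K) (R : ℝ) {θ : ℝ} (hθ : 0 < θ) : ∃ N : ℝ, 0 ≤ N ∧
    ∀ (L : ℝ) (S : Finset Γ), (∀ μ ∈ S, μ ∈ Sh L R) → ∀ P : POVM V K, P.Sym →
    (∀ f, BM f → P.E f ∈ I.N) → ∀ Y ∈ I.N, ∀ e : Γ → V → ℂ, (∀ μ, BM (e μ)) → ∀ δ : ℝ, 0 ≤ δ →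
    (∀ μ ∈ S, ∀ b, b ≠ 0 → ‖e μ b‖ ≤ δ ∧ (e μ b ≠ 0 → NI θ μ b)) →
    ∀ (Bc : ℝ) (ζ η : K), 0 ≤ Bc → I.Bes Bc ζ →
      ‖∑ μ ∈ S, ⟪I.j (Y (P.E (e μ) (I.ρ μ⁻¹ ζ))), I.j (I.ρ μ⁻¹ η)⟫_ℂ‖
        ≤ N * Bc * δ * ‖star Y I.ξ‖ * ‖η‖ := by
  classical
  obtain ⟨N, hN⟩ := overlap R (Real.exp R / θ)
  refine ⟨√N, Real.sqrt_nonneg _, fun L S hS P hP hPN Y hY e he δ hδ h Bc ζ η hB hζ => ?_⟩
  refine cs S (by positivity) (norm_nonneg _) ?_ (I.sum_j_le η S)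
  have h0 : MeasurableSet ({0}ᶜ : Set V) := (measurableSet_singleton 0).compl
  have h1 := hζ.row_povm P hPN hY (e := fun μ b => ic {0}ᶜ b * e μ b)
    (fun μ => (BM.ic h0).mul (he μ)) S (D := N * δ ^ 2) fun b => ?_
  · simp only [fun μ => hP.cut (he μ)]
    refine h1.trans (le_of_eq ?_)
    rw [mul_pow, mul_pow, mul_pow, Real.sq_sqrt (Nat.cast_nonneg N)]
    ring
  · by_cases hb : b = 0
    · simp only [hb, Set.mem_compl_iff, Set.mem_singleton_iff, not_true_eq_false,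
        not_false_eq_true, ic_of_notMem, zero_mul, norm_zero, ne_eq, OfNat.ofNat_ne_zero,
        zero_pow, Finset.sum_const_zero]
      positivity
    · rw [← Finset.sum_filter_of_ne (p := fun μ => e μ b ≠ 0) fun μ _ hμ h' => hμ (by simp [h'])]
      refine (Finset.sum_le_card_nsmul _ _ (δ ^ 2) fun μ hμ => ?_).trans ?_
      · rw [ic_of_mem (show b ∈ ({0}ᶜ : Set V) from hb), one_mul]
        exact pow_le_pow_left₀ (norm_nonneg _) (h μ (Finset.mem_filter.1 hμ).1 b hb).1 2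
      · rw [nsmul_eq_mul]
        refine mul_le_mul_of_nonneg_right (Nat.cast_le.2 (hN L b hb _ fun μ hμ => ?_)) (sq_nonneg _)
        obtain ⟨h1, h2⟩ := Finset.mem_filter.1 hμ
        exact ⟨hS μ h1, norm_ac_dl_le hθ (hS μ h1) ((h μ h1 b hb).2 h2)⟩

/-- the dual scaling at time `k` -/
noncomputable def sk (sc' : ℝ → ℝ) (k : ℕ) : ℝ := sc' (Real.exp (-2 * -(k : ℝ)))

theorem sk_pos (h : Geo I I' L Φ Ψ A B sc sc') (k : ℕ) : 0 < sk sc' k :=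
  h.lift'.sc_pos _ (Real.exp_ne_zero _)

/-- transport of the dual PVM -/
theorem trB (h : Geo I I' L Φ Ψ A B sc sc') {u : V → ℂ} (hu : BM u) (he : Ev u) (k : ℕ) (μ : Γ)
    (ζ : K) : I.ρ μ⁻¹ (I.U (al k) ((B (ev 0)).E u ζ)) =
      (B (ev 0)).E (fun b => u (sk sc' k • ac (ι (dl μ)) b)) (I.ρ μ⁻¹ (I.U (al k) ζ)) := by
  have h1 := h.covB (ev_ne_zero 0) hu (al k)
  rw [dl_al, ac_al_ev0, h.lift'.scal _ (ev_ne_zero 0) _ (Real.exp_ne_zero _) u hu] at h1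
  have h2 := h.ρB (ev_ne_zero 0) (f := fun b => u (sk sc' k • b))
    (hu.comp (measurable_const_smul _)) (fun b => by simp only [smul_neg, he _]) μ⁻¹
  simp only [inv_inv] at h2
  rw [← h2, sk, ← h1]
  simp only [ContinuousLinearMap.mul_apply, URep.apply_inv_apply, URep.inv_apply_apply]

abbrev Om : Type := Fin 18 → ℝ

theorem integrable_mul {c : Om → ℂ} (hc : Integrable c) {a : Om → ℂ} (ha : Continuous a) {D : ℝ}
    (hD : ∀ w, ‖a w‖ ≤ D) : Integrable fun w => c w * a w :=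
  hc.mul_bdd ha.aestronglyMeasurable (Eventually.of_forall hD)

theorem norm_integral_le {c : Om → ℂ} (hc : Integrable c) {a : Om → ℂ} {D : ℝ}
    (hD : ∀ w, ‖a w‖ ≤ D) : ‖∫ w, c w * a w‖ ≤ (∫ w, ‖c w‖) * D := by
  rw [← integral_mul_const]
  refine norm_integral_le_of_norm_le (hc.norm.mul_const D) (Eventually.of_forall fun w => ?_)
  rw [norm_mul]
  exact mul_le_mul_of_nonneg_left (hD w) (norm_nonneg _)

theorem dct {c : Om → ℂ} (hc : Integrable c) {a : ℕ → Om → ℂ} (ha : ∀ k, Continuous (a k)) {D : ℝ}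
    (hD : ∀ k w, ‖a k w‖ ≤ D) (h0 : ∀ w, Tendsto (fun k => a k w) atTop (𝓝 0)) :
    Tendsto (fun k => ∫ w, c w * a k w) atTop (𝓝 0) := by
  have := tendsto_integral_of_dominated_convergence (μ := volume) (F := fun k w => c w * a k w)
    (f := fun _ => 0) (fun w => ‖c w‖ * D) (fun k => (integrable_mul hc (ha k) (hD k)).1)
    (hc.norm.mul_const D) (fun k => Eventually.of_forall fun w => by
      rw [norm_mul]; exact mul_le_mul_of_nonneg_left (hD k w) (norm_nonneg _))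
    (Eventually.of_forall fun w => by simpa using (h0 w).const_mul (c w))
  simpa using this

theorem inner_E_conj (P : POVM V K) {u : V → ℂ} (hu : BM u) (x y : K) :
    ⟪P.E (fun b => (starRingEnd ℂ) (u b)) x, y⟫_ℂ = ⟪x, P.E u y⟫_ℂ := by
  rw [← P.E_star hu, ContinuousLinearMap.star_eq_adjoint, ContinuousLinearMap.adjoint_inner_left]

/-- the parameter integral goes inside the POVM -/
theorem int_inner (P : POVM V K) {c : Om → ℂ} (hc : Integrable c) {u : Om → V → ℂ}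
    (hm : ∀ w, Measurable (u w)) {C : ℝ} (hb : ∀ w y, ‖u w y‖ ≤ C)
    (hcont : ∀ y, Continuous fun w => u w y) (x y : K) :
    ∫ w, c w * ⟪P.E (fun b => (starRingEnd ℂ) (u w b)) x, y⟫_ℂ
      = ⟪P.E (fun b => (starRingEnd ℂ) (∫ w, c w * u w b)) x, y⟫_ℂ := by
  obtain ⟨h1, h2⟩ := P.sInt_E hc hm hb hcont
  rw [inner_E_conj P h1, ← h2, inner_sInt hc (P.sCont_E hm hb hcont)]
  simp only [fun w => inner_E_conj P (BM.of_le (hm w) (hb w))]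

/-- position operators supported on a finite set -/
theorem inner_m_fin (I : Ind K) (S : Finset Γ) {F : Γ → ℂ} (hF : BM F) (ζ η : K) :
    ⟪ζ, I.m (fun μ => ic (S : Set Γ) μ * F μ) η⟫_ℂ
      = ∑ μ ∈ S, F μ * ⟪I.j (I.ρ μ⁻¹ ζ), I.j (I.ρ μ⁻¹ η)⟫_ℂ := by
  rw [← (I.hasSum_inner_m ((bm_ic_Γ _).mul hF) ζ η).tsum_eq,
    tsum_eq_sum (s := S) fun μ hμ => by simp [hμ]]
  exact Finset.sum_congr rfl fun μ hμ => by simp [hμ]

theorem inner_rw_fin {Y : K →L[ℂ] K} {C : ℝ} (h : I.RB Y C) (S : Finset Γ) {F : Γ → ℂ} (hF : BM F)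
    (ζ η : K) : ⟪I.rw Y ζ, I.mJ (fun μ => ic (S : Set Γ) μ * F μ) η⟫_ℂ
      = ∑ μ ∈ S, F μ * ⟪I.j (Y (I.ρ μ⁻¹ ζ)), I.j (I.ρ μ⁻¹ η)⟫_ℂ := by
  rw [← (LG.hasSum_inner _ _).tsum_eq]
  simp only [h.apply, I.mJ_apply ((bm_ic_Γ _).mul hF), inner_smul_right]
  rw [tsum_eq_sum (s := S) fun μ hμ => by simp [hμ]]
  exact Finset.sum_congr rfl fun μ hμ => by simp [hμ]

/-- the data of the statement -/
structure Dat (θ t C : ℝ) (c : Om → ℂ) (φ ψ : Om → V → ℂ) (g f : V → ℂ) : Prop where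
  pos : 0 < θ
  int : Integrable c
  mφ : ∀ w, Measurable (φ w)
  mψ : ∀ w, Measurable (ψ w)
  bφ : ∀ w a, ‖φ w a‖ ≤ 1
  bψ : ∀ w a, ‖ψ w a‖ ≤ 1
  hφ : ∀ w, Hom0 (φ w)
  hψ : ∀ w, Hom0 (ψ w)
  cφ : ∀ a, Continuous fun w => φ w a
  cψ : ∀ a, Continuous fun w => ψ w a
  oψ : ∀ w, ContinuousOn (ψ w) {0}ᶜ
  ker : ∀ b a : V, b ≠ 0 → a ≠ 0 → θ * (‖b‖ * ‖a‖) ≤ |b ⬝ᵥ a| →
    ∫ w, c w * (φ w b * ψ w a) = ex (t * (Real.log |b ⬝ᵥ a| - Real.log ‖b‖ - Real.log ‖a‖))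
  C0 : 0 ≤ C
  mg : Measurable g
  mf : Measurable f
  bg : ∀ b, ‖g b‖ ≤ C
  bf : ∀ a, ‖f a‖ ≤ C
  hg : Hom0 g
  hf : Hom0 f
  of : ContinuousOn f {0}ᶜ
  ni : ∀ b a, g b ≠ 0 → f a ≠ 0 → θ * (‖b‖ * ‖a‖) ≤ |b ⬝ᵥ a|

/-- the function on lines -/
noncomputable def gw (t : ℝ) (φ : Om → V → ℂ) (g : V → ℂ) (w : Om) (b : V) : ℂ :=
  g b * lg t b * φ w b
/-- the function on points -/
noncomputable def fw (ψ : Om → V → ℂ) (f : V → ℂ) (w : Om) (a : V) : ℂ := f a * ψ w a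
/-- the level function -/
noncomputable def Fk (t L : ℝ) (μ : Γ) : ℂ := ex (t * (Real.log (nm (ι μ)) - 2 * L))
/-- the phase -/
noncomputable def pk (t s L : ℝ) : ℂ := ex (t * (Real.log s - 2 * L))

variable {θ t C : ℝ} {c : Om → ℂ} {φ ψ : Om → V → ℂ} {g f : V → ℂ}

theorem norm_Fk (t L : ℝ) (μ : Γ) : ‖Fk t L μ‖ = 1 := norm_ex _
theorem norm_pk (t s L : ℝ) : ‖pk t s L‖ = 1 := norm_ex _

namespace Dat
variable (D : Dat θ t C c φ ψ g f)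
include D

theorem bmg : BM g := .of_le D.mg D.bg
theorem bmf : BM f := .of_le D.mf D.bf
theorem m_gw (w : Om) : Measurable (gw t φ g w) := (D.mg.mul (bm_lg t).1).mul (D.mφ w)
theorem b_gw (w : Om) (b : V) : ‖gw t φ g w b‖ ≤ C := by
  rw [gw, norm_mul, norm_mul, norm_lg, mul_one]
  exact (mul_le_of_le_one_right (norm_nonneg _) (D.bφ w b)).trans (D.bg b)
theorem c_gw (b : V) : Continuous fun w => gw t φ g w b := continuous_const.mul (D.cφ b)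
theorem ev_gw (w : Om) : Ev (gw t φ g w) := fun b => by
  rw [gw, gw, D.hg.ev, ev_lg, (D.hφ w).ev]
theorem bm_gw (w : Om) : BM (gw t φ g w) := .of_le (D.m_gw w) (D.b_gw w)
theorem m_fw (w : Om) : Measurable (fw ψ f w) := D.mf.mul (D.mψ w)
theorem b_fw (w : Om) (a : V) : ‖fw ψ f w a‖ ≤ C := by
  rw [fw, norm_mul]
  exact (mul_le_of_le_one_right (norm_nonneg _) (D.bψ w a)).trans (D.bf a)
theorem c_fw (a : V) : Continuous fun w => fw ψ f w a := continuous_const.mul (D.cψ a)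
theorem h_fw (w : Om) : Hom0 (fw ψ f w) := fun z hz a => by rw [fw, fw, D.hf z hz, D.hψ w z hz]
theorem o_fw (w : Om) : ContinuousOn (fw ψ f w) {0}ᶜ := D.of.mul (D.oψ w)
theorem bm_fw (w : Om) : BM (fw ψ f w) := .of_le (D.m_fw w) (D.b_fw w)
theorem b_Ffw (L : ℝ) (w : Om) (μ : Γ) : ‖Fk t L μ * fw ψ f w (pt μ)‖ ≤ C := by
  rw [norm_mul, norm_Fk, one_mul]; exact D.b_fw w _

/-- the kernel -/
theorem ker_eq {s : ℝ} (hs : 0 < s) (L : ℝ) (μ : Γ) {b : V} (hb : b ≠ 0) :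
    ∫ w, c w * (Fk t L μ * fw ψ f w (pt μ) * gw t φ g w (s • b))
      = pk t s L * (f (pt μ) * g b * ex (t * Real.log |b ⬝ᵥ pt μ|)) := by
  have e : ∀ w, c w * (Fk t L μ * fw ψ f w (pt μ) * gw t φ g w (s • b))
      = (f (pt μ) * g b * (Fk t L μ * lg t (s • b))) * (c w * (φ w b * ψ w (pt μ))) := fun w => by
    rw [fw, gw, D.hg s hs.ne', D.hφ w s hs.ne']; ring
  simp only [e, integral_const_mul]
  by_cases h1 : g b = 0
  · simp [h1]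
  by_cases h2 : f (pt μ) = 0
  · simp [h2]
  rw [D.ker b _ hb (pt_ne_zero μ) (D.ni _ _ h1 h2), lg_smul t hs hb, lg, Fk, pk, norm_pt,
    mul_assoc, ← ex_add, ← ex_add, ← ex_add, mul_left_comm (ex _), ← ex_add]
  congr 2
  ring

theorem ker_le {s : ℝ} (hs : 0 < s) (L : ℝ) (μ : Γ) {b : V} (hb : b ≠ 0) {ε : ℝ} (hε : 0 ≤ ε)
    (hcj : NI θ μ b → |Real.log |ac (ι (dl μ)) b ⬝ᵥ pt μ| - Real.log ‖b‖| ≤ ε) {z : ℂ}
    (hz : z = (∫ w, c w * (Fk t L μ * fw ψ f w (pt μ) * gw t φ g w (s • ac (ι (dl μ)) b)))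
      - pk t s L * (f (pt μ) * g (ac (ι (dl μ)) b) * lg t b)) :
    ‖z‖ ≤ C * C * |t| * ε ∧ (z ≠ 0 → NI θ μ b) := by
  have hC := D.C0
  rw [D.ker_eq hs L μ (ac_ne_zero _ hb), ← mul_sub, ← mul_sub] at hz
  have key : z ≠ 0 → NI θ μ b := fun h0 =>
    D.ni _ _ (fun h => h0 (by simp [hz, h])) fun h => h0 (by simp [hz, h])
  refine ⟨?_, key⟩
  by_cases h0 : z = 0
  · rw [h0, norm_zero]; positivity
  rw [hz, norm_mul, norm_pk, one_mul, norm_mul, norm_mul, mul_assoc _ |t|]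
  refine mul_le_mul (mul_le_mul (D.bf _) (D.bg _) (norm_nonneg _) hC)
    ((norm_ex_sub_ex_le _ _).trans ?_) (norm_nonneg _) (by positivity)
  rw [← mul_sub, abs_mul]
  exact mul_le_mul_of_nonneg_left (hcj (key h0)) (abs_nonneg _)

end Dat

variable (I B L t c φ ψ g f) in
/-- the pairing with the position operators -/
noncomputable def Xp (χ : Γ → ℂ) (ζ η : K) (k : ℕ) : ℂ :=
  ∫ w, c w * ⟪I.U (al k) ((B (ev 0)).E (fun b => (starRingEnd ℂ) (gw t φ g w b)) ζ),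
    I.m (fun μ => χ μ * (Fk t (L k) μ * fw ψ f w (pt μ))) (I.U (al k) η)⟫_ℂ

variable (I B g f) in
/-- the rows without kernel -/
noncomputable def Mk (Y : K →L[ℂ] K) (S : Finset Γ) (ζ η : K) (k : ℕ) : ℂ :=
  ∑ μ ∈ S, ⟪I.j (Y ((B (ev 0)).E (fun b => (starRingEnd ℂ) (f (pt μ) * g (ac (ι (dl μ)) b)))
    (I.ρ μ⁻¹ (I.U (al k) ζ)))), I.j (I.ρ μ⁻¹ (I.U (al k) η))⟫_ℂ

theorem meas_sd (s : ℝ) (μ : Γ) : Measurable fun b => s • ac (ι (dl μ)) b :=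
  (measurable_ac _).const_smul s

theorem Dat.ek (D : Dat θ t C c φ ψ g f) (s L : ℝ) (μ : Γ) :
    (∀ w, Measurable fun b => Fk t L μ * fw ψ f w (pt μ) * gw t φ g w (s • ac (ι (dl μ)) b)) ∧
    (∀ w b, ‖Fk t L μ * fw ψ f w (pt μ) * gw t φ g w (s • ac (ι (dl μ)) b)‖ ≤ C * C) ∧
    ∀ b, Continuous fun w => Fk t L μ * fw ψ f w (pt μ) * gw t φ g w (s • ac (ι (dl μ)) b) :=
  ⟨fun w => measurable_const.mul ((D.m_gw w).comp (meas_sd s μ)),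
    fun w b => (norm_mul_le _ _).trans
      (mul_le_mul (D.b_Ffw L w μ) (D.b_gw w _) (norm_nonneg _) D.C0),
    fun b => (continuous_const.mul (D.c_fw _)).mul (D.c_gw _)⟩

/-- the finite formula -/
theorem Xp_fin (h : Geo I I' L Φ Ψ A B sc sc') (D : Dat θ t C c φ ψ g f) (S : Finset Γ) (ζ η : K)
    (k : ℕ) : Xp I L B t c φ ψ g f (ic (S : Set Γ)) ζ η k = ∑ μ ∈ S,
      ⟪I.j ((B (ev 0)).E (fun b => (starRingEnd ℂ) (∫ w, c w * (Fk t (L k) μ * fw ψ f w (pt μ)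
        * gw t φ g w (sk sc' k • ac (ι (dl μ)) b)))) (I.ρ μ⁻¹ (I.U (al k) ζ))),
        I.j (I.ρ μ⁻¹ (I.U (al k) η))⟫_ℂ := by
  have e : ∀ w, ⟪I.U (al k) ((B (ev 0)).E (fun b => (starRingEnd ℂ) (gw t φ g w b)) ζ),
      I.m (fun μ => ic (S : Set Γ) μ * (Fk t (L k) μ * fw ψ f w (pt μ))) (I.U (al k) η)⟫_ℂ
      = ∑ μ ∈ S, ⟪(B (ev 0)).E (fun b => (starRingEnd ℂ) (Fk t (L k) μ * fw ψ f w (pt μ)
        * gw t φ g w (sk sc' k • ac (ι (dl μ)) b))) (I.ρ μ⁻¹ (I.U (al k) ζ)),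
        I.j (I.j (I.ρ μ⁻¹ (I.U (al k) η)))⟫_ℂ := fun w => by
    rw [inner_m_fin I S (bm_Γ (D.b_Ffw (L k) w))]
    refine Finset.sum_congr rfl fun μ _ => ?_
    have hb : BM fun b => gw t φ g w (sk sc' k • ac (ι (dl μ)) b) :=
      (D.bm_gw w).comp (meas_sd _ μ)
    rw [trB h (D.bm_gw w).conj (fun b => by simp only [D.ev_gw w b]), I.inner_j,
      inner_E_conj _ hb, inner_E_conj _ (hb.const_mul _), POVM.E_smul _ _ hb,
      ContinuousLinearMap.smul_apply, inner_smul_right]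
  simp only [Xp, e, Finset.mul_sum]
  rw [integral_finset_sum _ fun μ _ => ?_]
  · refine Finset.sum_congr rfl fun μ _ => ?_
    obtain ⟨h1, h2, h3⟩ := D.ek (sk sc' k) (L k) μ
    rw [int_inner _ D.int h1 h2 h3, I.inner_j]
  · obtain ⟨h1, h2, h3⟩ := D.ek (sk sc' k) (L k) μ
    simp only [fun w => inner_E_conj (B (ev 0)) (BM.of_le (h1 w) (h2 w))]
    refine integrable_mul D.int (continuous_const.inner (((B (ev 0)).sCont_E h1 h2 h3).1 _))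
      fun w => norm_inner_apply_le ((B (ev 0)).norm_E_le (h1 w) (mul_nonneg D.C0 D.C0) (h2 w)) _ _

end S8k

end Crest.Agent.N111
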