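import Crest.Agent.N111.F.Star2

/-! # Row 111, (**): the caps attached to a shell. -/

set_option autoImplicit false

namespace Crest.Agent.N111.St

open MeasureTheory Topology Filter Matrix
open scoped InnerProductSpace

/-- distortion at the scale `nm m * nm m⁻¹` -/
theorem distort {m : G} {a a' : V} {ρ : ℝ} (ha : a ≠ 0) (ha' : a' ≠ 0) (hρ : ρ ≤ 1 / 2)
    (h : 18 * (nm m * nm m⁻¹) * ‖a ⨯₃ a'‖ ≤ ρ * (‖a‖ * ‖a'‖)) :
    ‖ac m a ⨯₃ ac m a'‖ ≤ 2 * ρ * (‖ac m a‖ * ‖ac m a'‖) ∧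
    |Real.log ‖ac m a‖ - Real.log ‖a‖ - (Real.log ‖ac m a'‖ - Real.log ‖a'‖)| ≤ 4 * ρ := by
  obtain ⟨κ, r, e, -, hr⟩ := exists_decomp ha a'
  rw [← cross_anticomm, norm_neg] at hr
  have h0 : 0 < ‖a‖ := norm_pos_iff.2 ha
  have h0' : 0 < ‖a'‖ := norm_pos_iff.2 ha'
  have hm := (nm_pos m).le
  have hm' := (nm_pos m⁻¹).le
  have h1 : ‖a'‖ ≤ 3 * nm m⁻¹ * ‖ac m a'‖ := by
    simpa only [← ac_mul, inv_mul_cancel, ac_one] using norm_ac_le m⁻¹ (ac m a')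
  have h2 : 9 * (nm m * nm m⁻¹) * ‖r‖ ≤ ρ * ‖a'‖ := by
    refine le_of_mul_le_mul_left (a := ‖a‖) ?_ h0
    nlinarith [mul_le_mul_of_nonneg_left hr (show 0 ≤ 9 * (nm m * nm m⁻¹) by positivity)]
  have hρ0 : 0 ≤ ρ := nonneg_of_mul_nonneg_left (le_trans (by positivity) h2) h0'
  have h3 : 1 ≤ 9 * (nm m * nm m⁻¹) := by
    have := h1.trans (mul_le_mul_of_nonneg_left (norm_ac_le m a') (by positivity))
    exact le_of_mul_le_mul_right (a := ‖a'‖) (by linarith) h0'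
  have h4 : ‖r‖ ≤ ρ * ‖a'‖ := (le_mul_of_one_le_left (norm_nonneg _) h3).trans h2
  have h5 : ‖ac m r‖ ≤ ρ * ‖ac m a'‖ := by
    refine le_of_mul_le_mul_left (a := 3 * nm m⁻¹) ?_ (by have := nm_pos m⁻¹; positivity)
    nlinarith [mul_le_mul_of_nonneg_left (norm_ac_le m r) (show 0 ≤ 3 * nm m⁻¹ by positivity),
      mul_le_mul_of_nonneg_left h1 hρ0]
  have e' : ac m a' = κ • ac m a + ac m r := by rw [e, ac_add, ac_smul]
  have hκ : κ ≠ 0 := fun e0 => by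
    rw [e0, zero_smul, zero_add] at e
    rw [← e] at h4; nlinarith
  constructor
  · nth_rewrite 1 [e']
    rw [map_add, map_smul, cross_self, smul_zero, zero_add]
    nlinarith [norm_cross_le (ac m a) (ac m r),
      mul_le_mul_of_nonneg_left h5 (norm_nonneg (ac m a))]
  · have k1 := abs_log_sub_le (y := ‖κ • a‖) h0' hρ
      ((abs_norm_sub_norm_le _ _).trans (by rwa [show a' - κ • a = r by rw [e]; abel]))
    have k2 := abs_log_sub_le (y := ‖κ • ac m a‖) (norm_pos_iff.2 (ac_ne_zero m ha')) hρ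
      ((abs_norm_sub_norm_le _ _).trans (by
        rwa [show ac m a' - κ • ac m a = ac m r by rw [e']; abel]))
    rw [norm_smul, Real.log_mul (norm_ne_zero_iff.2 hκ) h0.ne'] at k1
    rw [norm_smul, Real.log_mul (norm_ne_zero_iff.2 hκ) (norm_ne_zero_iff.2 (ac_ne_zero m ha))] at k2
    rw [abs_le] at k1 k2 ⊢
    constructor <;> linarith [k1.1, k1.2, k2.1, k2.2]

theorem fam_shell {f N g : V → ℂ} (hf : BM f) (hf0 : Hom0 f) (hfc : ContinuousOn f {0}ᶜ)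
    (hN : BM N) {B θ : ℝ} (hfB : ∀ a, ‖f a‖ ≤ B) (hNB : ∀ a, ‖N a‖ ≤ B) (hθ : 0 < θ)
    (h₁ : ∀ a b, N a ≠ 0 → g b ≠ 0 → θ * (‖a‖ * ‖b‖) ≤ |a ⬝ᵥ b|)
    (h₂ : ∀ a b, f a ≠ 0 → g b ≠ 0 → θ * (‖a‖ * ‖b‖) ≤ |a ⬝ᵥ b|) (t R C : ℝ) :
    ∃ R₁ ≥ (0 : ℝ), ∃ n₀ : ℕ, ∀ ε > (0 : ℝ), ∃ η > (0 : ℝ), ∀ (L u : ℝ) (F : Finset Γ),
      |3 * L - u| ≤ C → (∀ μ ∈ F, μ ∈ Sh L R ∧ g (pt μ) ≠ 0) →
      Fam F (fun μ a => f (ac (ι (dl μ)) a) * cz (ι (dl μ)) t a)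
        (fun μ a => ic {0}ᶜ a * N (ac (ι (dl μ)) a)) B R₁ η ε (Real.exp u) n₀ := by
  obtain ⟨n₀, hn⟩ := overlap R (Real.exp R / θ)
  refine ⟨6 * Real.exp (R + C) * (Real.exp R / θ) ^ 2, by positivity, n₀, fun ε hε => ?_⟩
  have hB : 0 ≤ B := (norm_nonneg _).trans (hfB 0)
  obtain ⟨δ, hδ, hu⟩ := hf0.unif hfc (half_pos hε)
  obtain ⟨ρ₀, hρ₀, hρ₁⟩ := exists_eps (x := B * (|t| * 4)) (by positivity) (half_pos hε)
  set ρ := min (min (1 / 2) (δ / 2)) ρ₀ with hρ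
  have hρ0 : 0 < ρ := by positivity
  refine ⟨ρ / (18 * Real.exp (2 * R + C)), by positivity, fun L u F hLu hF => ?_⟩
  have hcz : ∀ m a, ‖cz m t a‖ = 1 := fun m a => norm_ex _
  have con : ∀ μ ∈ F, ∀ a, f (ac (ι (dl μ)) a) ≠ 0 ∨ N (ac (ι (dl μ)) a) ≠ 0 →
      ‖ac (ι (dl μ)) a‖ ≤ Real.exp R / θ * Real.exp (-2 * L) * ‖a‖ := fun μ hμ a ha =>
    norm_ac_dl_le hθ (hF μ hμ).1 (ha.elim (h₂ _ _ · (hF μ hμ).2) (h₁ _ _ · (hF μ hμ).2))
  have n1 : ∀ μ ∈ F, nm (ι (dl μ)) ≤ Real.exp (L + R) := fun μ hμ => by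
    rw [ι_dl]; exact Sh.nm_dl_le (hF μ hμ).1
  have n2 : ∀ μ ∈ F, nm (ι (dl μ))⁻¹ ≤ Real.exp (2 * L + R) := fun μ hμ => by
    rw [ι_dl, ← nm_dl, dl_dl]; exact Sh.nm_le (hF μ hμ).1
  rw [abs_le] at hLu
  refine ⟨fun μ => (hf.comp (measurable_ac _)).mul (bm_cz _ _),
    fun μ => Cv1.bm_cut (hN.comp (measurable_ac _)), fun μ a => by rw [norm_mul, hcz, mul_one]; exact hfB _,
    fun μ a => ?_, fun μ => by simp, fun μ hμ a a' ha ha' => ?_, fun a ha F' hF' h0 => ?_,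
    fun μ hμ a a' ha ha' hc => ?_⟩
  · rw [norm_mul]
    exact (mul_le_of_le_one_left (norm_nonneg _) (norm_ic_le _ _)).trans (hNB _)
  · have c1 := con μ hμ a (ha.imp left_ne_zero_of_mul right_ne_zero_of_mul)
    have c2 := con μ hμ a' (Or.inl (left_ne_zero_of_mul ha'))
    have e : a ⨯₃ a' = ac (dl (ι (dl μ))⁻¹) (ac (ι (dl μ)) a ⨯₃ ac (ι (dl μ)) a') := by
      simp only [← ac_cross, ← ac_mul, inv_mul_cancel, ac_one]
    have c3 : ‖a ⨯₃ a'‖ ≤ 3 * Real.exp (L + R) * (2 * (Real.exp R / θ * Real.exp (-2 * L) * ‖a‖) *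
        (Real.exp R / θ * Real.exp (-2 * L) * ‖a'‖)) := by
      rw [e]
      refine (norm_ac_le _ _).trans ?_
      rw [nm_dl, inv_inv]
      have := n1 μ hμ
      gcongr
      exact (norm_cross_le _ _).trans (by gcongr)
    have c4 : Real.exp u * Real.exp (L + R) * Real.exp (-2 * L) * Real.exp (-2 * L)
        ≤ Real.exp (R + C) := by
      simp only [← Real.exp_add]; exact Real.exp_le_exp.2 (by linarith [hLu.1, hLu.2])
    nlinarith [mul_le_mul_of_nonneg_left c3 (Real.exp_pos u).le, mul_le_mul_of_nonneg_left c4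
      (show 0 ≤ 6 * (Real.exp R / θ) ^ 2 * (‖a‖ * ‖a'‖) by positivity)]
  · exact hn L a ha F' fun μ hμ => ⟨(hF μ (hF' hμ)).1,
      con μ (hF' hμ) a (Or.inl (left_ne_zero_of_mul (h0 μ hμ)))⟩
  · have c1 : nm (ι (dl μ)) * nm (ι (dl μ))⁻¹ ≤ Real.exp (2 * R + C) * Real.exp u :=
      (mul_le_mul (n1 μ hμ) (n2 μ hμ) (nm_pos _).le (Real.exp_pos _).le).trans (by
        simp only [← Real.exp_add]; exact Real.exp_le_exp.2 (by linarith [hLu.1, hLu.2]))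
    rw [div_mul_eq_mul_div, le_div_iff₀ (by positivity)] at hc
    obtain ⟨d1, d2⟩ := distort (m := ι (dl μ)) (ρ := ρ) ha ha'
      ((min_le_left _ _).trans (min_le_left _ _)) (by
        nlinarith [mul_le_mul_of_nonneg_right c1 (norm_nonneg (a ⨯₃ a'))])
    have d3 := hu _ _ (ac_ne_zero _ ha) (ac_ne_zero _ ha') (d1.trans (by
      gcongr; linarith [(min_le_left _ ρ₀).trans (min_le_right (1 / 2) (δ / 2))]))
    have d4 : ‖cz (ι (dl μ)) t a - cz (ι (dl μ)) t a'‖ ≤ |t| * 4 * ρ₀ := by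
      refine (norm_ex_sub_ex_le _ _).trans ?_
      rw [← mul_sub, abs_mul, mul_assoc]
      gcongr
      linarith [min_le_right (min (1 / 2) (δ / 2)) ρ₀]
    rw [show ∀ x y z w : ℂ, x * y - z * w = (x - z) * y + z * (y - w) from fun _ _ _ _ => by ring]
    refine (norm_add_le _ _).trans ?_
    rw [norm_mul, norm_mul, hcz, mul_one]
    nlinarith [mul_le_mul (hfB (ac (ι (dl μ)) a')) d4 (norm_nonneg _) hB]

theorem std_dot {i k m : Fin 3} (hik : i ≠ k) (him : i ≠ m) (hkm : k ≠ m) (b : V) :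
    |(ev i ⨯₃ (ev k + (3 : ℝ) • ev i)) ⬝ᵥ b| = |b m| := by
  fin_cases i <;> fin_cases k <;> fin_cases m <;>
    simp_all [ev, cross_apply, dotProduct, Fin.sum_univ_three]

variable {K : Type} [NormedAddCommGroup K] [InnerProductSpace ℂ K] [CompleteSpace K]

/-- families of caps are small at suitable scales -/
theorem fam_small {P Cc Q : POVM V K} (hP : Flag P Q) (hC : Cc.IsPVM)
    (hCQ : ∀ f h, BM f → BM h → Commute (Cc.E f) (Q.E h))
    (e0 : ∀ c, Integrable c → Ev c → ∀ α β,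
      AvT atTop (fun l => toi (Wc ![P, Cc, P] α β) c l * gd P Q α β) 0) (ξ : K) (B : ℝ) {R : ℝ}
    (hR : 0 ≤ R) (n₀ : ℕ) {δ : ℝ} (hδ : 0 < δ) : ∃ ε > (0 : ℝ), ∀ η > (0 : ℝ), ∃ᶠ u in atTop,
      ∀ F φ N, Fam F φ N B R η ε (Real.exp u) n₀ → ∑ μ ∈ F, ‖Cc.E (N μ) (P.E (φ μ) ξ)‖ ^ 2 ≤ δ := by
  let J := {j : Fin 3 × Fin 3 × Fin 3 // j.1 ≠ j.2.1 ∧ j.1 ≠ j.2.2 ∧ j.2.1 ≠ j.2.2}
  let S : J → Set V := fun j => {0}ᶜ ∩ {a | ‖a‖ ≤ 2 * |a j.1.1|}
  let T : J → Set V := fun j => {0}ᶜ ∩ {b | ‖b‖ = |b j.1.2.2|}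
  have mS : ∀ j, MeasurableSet (S j) := fun j => (measurableSet_singleton 0).compl.inter
    (isClosed_le (by fun_prop) (by fun_prop)).measurableSet
  have mT : ∀ j, MeasurableSet (T j) := fun j => (measurableSet_singleton 0).compl.inter
    (isClosed_eq (by fun_prop) (by fun_prop)).measurableSet
  obtain ⟨E, hE, -⟩ := hP.cover MeasurableSet.univ MeasurableSet.univ mS mT
    fun a _ b _ ha hb hab => by
      have ha0 : a ≠ 0 := norm_ne_zero_iff.1 (by rw [ha]; exact one_ne_zero)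
      have hb0 : b ≠ 0 := norm_ne_zero_iff.1 (by rw [hb]; exact one_ne_zero)
      obtain ⟨i, k, m, h1, h2, h3, h4, h5⟩ := exists_std_chart ha0 hb0 hab
      exact ⟨⟨(i, k, m), h1, h2, h3⟩, ⟨ha0, h5⟩, hb0, h4⟩
  rw [ic_univ, P.E_one, Q.E_one, mul_one] at hE
  set X : J → K →L[ℂ] K := fun j => P.E (ic (S j)) * Q.E (ic (T j)) * E j with hX
  have x1 : ∀ j, P.E (ic (S j)) (X j ξ) = X j ξ := fun j => by
    rw [← mul_apply_eq_comp, hX, ← mul_assoc, ← mul_assoc, hP.pvm.ic_idem (mS j)]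
  have x2 : ∀ j, Q.E (ic (T j)) (X j ξ) = X j ξ := fun j => by
    rw [← mul_apply_eq_comp, hX, ← mul_assoc, ← mul_assoc,
      ← (hP.comm _ _ (BM.ic (mS j)) (BM.ic (mT j))).eq, mul_assoc (P.E _), hP.pvm'.ic_idem (mT j)]
  let α : J → V := fun j => ev j.1.1
  let β : J → V := fun j => ev j.1.2.1 + (3 : ℝ) • ev j.1.1
  have hS : ∀ j, ∀ a ∈ S j, a ∈ GA (α j) (β j) ∧ tc (α j) (β j) a ∈ Set.Icc (1 : ℝ) 5 :=
    fun j a ha => by
      have := mem_std_chart ha.1 (ev_ne_zero j.1.2.2) j.2.1 j.2.2.1 j.2.2.2 (by rw [norm_ev]; simp [ev])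
        ha.2
      exact ⟨this.1, this.2.2⟩
  have hT : ∀ j, ∀ b ∈ T j, b ≠ 0 ∧ 1 * ‖b‖ ≤ |(α j ⨯₃ β j) ⬝ᵥ b| := fun j b hb =>
    ⟨hb.1, by rw [std_dot j.2.1 j.2.2.1 j.2.2.2, one_mul]; exact hb.2.le⟩
  have x3 : ∀ j, gd P Q (α j) (β j) (X j ξ) = X j ξ := fun j => by
    rw [gd, mul_apply_eq_comp, Q.E_apply_congr (BM.ic (isOpen_GB _ _).measurableSet) (BM.ic (mT j))
      ((ae_mem Q (mT j) (x2 j)).mono fun b hb => by
        rw [ic_of_mem hb, ic_of_mem (show b ∈ GB (α j) (β j) from abs_pos.1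
          ((mul_pos one_pos (norm_pos_iff.2 hb.1)).trans_le (hT j b hb).2))]), x2,
      P.E_apply_congr (BM.ic (isOpen_GA _ _).measurableSet) (BM.ic (mS j))
      ((ae_mem P (mS j) (x1 j)).mono fun a ha => by rw [ic_of_mem ha, ic_of_mem (hS j a ha).1]), x1]
  obtain ⟨n, hn⟩ : ∃ n : ℝ, n = ((Finset.univ : Finset J).card : ℝ) := ⟨_, rfl⟩
  have hn0 : 0 ≤ n := hn ▸ Nat.cast_nonneg _
  obtain ⟨e, he, he'⟩ := exists_eps (x := n * ∑ j, 4 * B ^ 2 * n₀ * ‖X j ξ‖ ^ 2) (by positivity)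
    (half_pos hδ)
  refine ⟨√e, Real.sqrt_pos.2 he, fun η hη => ?_⟩
  choose c c1 c2 c3 C hC0 hest using fun j => chart_est hP hC hCQ (α j) (β j) (mS j) (mT j)
    (T := 5) (by norm_num) one_pos (fun a ha => ⟨(hS j a ha).1.1, abs_le.2
      ⟨by linarith [(hS j a ha).2.1], (hS j a ha).2.2⟩⟩) (hT j) (x1 j) (x2 j) B hR hη n₀
  let D : J → ℝ → K →L[ℂ] K := fun j l => ((n * C j : ℝ) : ℂ) • (star (X j) *
    (toi (Wc ![P, Cc, P] (α j) (β j)) (c j) l * gd P Q (α j) (β j)) * X j)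
  have sD : ∀ j, SCont (D j) := fun j => Py.sCont_smul _ (((SCont.const _).mul
    ((sCont_toi (isPoly_Wc _ _ _) (c1 j)).mul (SCont.const _))).mul (SCont.const _))
  have aD := AvT.sum Finset.univ (fun j _ =>
    ((e0 _ (c1 j) (c2 j) (α j) (β j)).mul (star (X j)) (X j)).smul ((n * C j : ℝ) : ℂ))
    fun j _ => sD j
  simp only [mul_zero, zero_mul, smul_zero, Finset.sum_const_zero] at aD
  have iD : ∀ l, (⟪ξ, (∑ j, D j l) ξ⟫_ℂ).re =
      ∑ j, n * C j * (⟪X j ξ, toi (Wc ![P, Cc, P] (α j) (β j)) (c j) l (X j ξ)⟫_ℂ).re := fun l => by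
    rw [_root_.sum_apply, inner_sum, Complex.re_sum]
    refine Finset.sum_congr rfl fun j _ => ?_
    simp only [D, _root_.smul_apply, mul_apply_eq_comp, x3, inner_smul_right,
      ContinuousLinearMap.star_eq_adjoint, ContinuousLinearMap.adjoint_inner_right,
      Complex.re_ofReal_mul]
  have sD' : SCont fun l => ∑ j, D j l := by
    induction (Finset.univ : Finset J) using Finset.cons_induction with
    | empty => simpa using SCont.const (0 : K →L[ℂ] K)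
    | cons j s hj ih => simpa only [Finset.sum_cons] using (sD j).add ih
  have fr := aD.frequently_lt sD' ξ (fun l hl => by
    rw [iD]
    exact Finset.sum_nonneg fun j _ => mul_nonneg (mul_nonneg hn0 (hC0 j).le)
      (c3 j l hl)) (half_pos hδ)
  refine (fr.and_eventually (Real.tendsto_exp_atTop.eventually (eventually_all.2 hest))).mono
    fun u ⟨h1, h2⟩ F φ N hF => ?_
  rw [iD] at h1
  have h3 : ∀ μ, ‖Cc.E (N μ) (P.E (φ μ) ξ)‖ ^ 2 ≤ n * ∑ j, ‖Cc.E (N μ) (P.E (φ μ) (X j ξ))‖ ^ 2 :=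
    fun μ => by
      nth_rewrite 1 [show ξ = ∑ j, X j ξ by rw [← _root_.sum_apply, ← hE]; rfl]
      rw [map_sum, map_sum, hn]
      exact (pow_le_pow_left₀ (norm_nonneg _) (norm_sum_le _ _) 2).trans sq_sum_le_card_mul_sum_sq
  refine (Finset.sum_le_sum fun μ _ => h3 μ).trans ?_
  rw [← Finset.mul_sum, Finset.sum_comm]
  refine (mul_le_mul_of_nonneg_left (Finset.sum_le_sum fun j _ => h2 j F φ N _ hF)
    hn0).trans ?_
  rw [Finset.sum_add_distrib, mul_add, Real.sq_sqrt he.le, Finset.mul_sum _ _ n, Finset.mul_sum _ _ n]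
  rw [Finset.mul_sum, Finset.sum_mul] at he'
  have h4 : ∑ j, n * (4 * B ^ 2 * n₀ * e * ‖X j ξ‖ ^ 2) ≤ δ / 2 :=
    (Finset.sum_congr rfl fun j _ => by ring).trans_le he'
  simp only [← mul_assoc n (C _)]
  linarith

end Crest.Agent.N111.St
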