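import Crest.Agent.N111.F.E0
import Crest.Agent.N111.F.Star3

/-! # Row 111: the relation (**). -/

set_option autoImplicit false
set_option linter.unusedSectionVars false
set_option linter.unusedVariables false

namespace Crest.Agent.N111

open MeasureTheory Topology Filter Matrix
open scoped InnerProductSpace

variable {K : Type} [NormedAddCommGroup K] [InnerProductSpace ℂ K] [CompleteSpace K]

variable {I I' : Ind K} {L : ℕ → ℝ} {Φ Ψ A B : V → POVM V K} {sc sc' : ℝ → ℝ}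

theorem KF.eq_zero_of_small' {z : K} {B : ℝ} (h : ∀ δ : ℝ, 0 < δ → ‖z‖ ≤ B * δ) : z = 0 :=
  norm_eq_zero.1 (Complex.ofReal_eq_zero.1 (KF.eq_zero_of_small (B := B) (by simpa using h)))

/-- the row estimate, in the dual orientation -/
theorem St.core (h : Geo I I' L Φ Ψ A B sc sc') {N f g : V → ℂ} (hN : BM N) (hN0 : Hom0 N)
    (hf : BM f) (hf0 : Hom0 f) (hfc : ContinuousOn f {0}ᶜ) (hg : BM g) (hg0 : Hom0 g)
    (hgc : ContinuousOn g {0}ᶜ) {θ : ℝ} (hθ : 0 < θ)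
    (h₁ : ∀ a b, N a ≠ 0 → g b ≠ 0 → θ * (‖a‖ * ‖b‖) ≤ |a ⬝ᵥ b|)
    (h₂ : ∀ a b, f a ≠ 0 → g b ≠ 0 → θ * (‖a‖ * ‖b‖) ≤ |a ⬝ᵥ b|) (t : ℝ) :
    (Φ (ev 0)).E g * star ((Ψ (ev 1)).E N * (Ψ (ev 0)).E f * (B (ev 0)).E (lg t)) = 0 := by
  classical
  set Z := (Ψ (ev 1)).E N * (Ψ (ev 0)).E f * (B (ev 0)).E (lg t) with hZ
  obtain ⟨C, hC0, hC⟩ := exists_bound_pi (f := ![N, f, g]) fun k => by fin_cases k <;> assumption
  have hNC : ∀ a, ‖N a‖ ≤ C := hC 0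
  have hfC : ∀ a, ‖f a‖ ≤ C := hC 1
  have hgC : ∀ a, ‖g a‖ ≤ C := hC 2
  have e0 := ev_ne_zero 0
  have e1 := ev_ne_zero 1
  have hU : ∀ (k : ℕ) (η : K), ∃ z : ℂ, ‖z‖ = 1 ∧
      I.U (al k) (star Z η) = z • star Z (I.U (al k) η) := fun k η => by
    have a0 := ac_al_ev0 (-k)
    have a1 := ac_al_of (-k) (a := ev 1) (by simp [ev])
    rw [← dl_al] at a0 a1
    have c0 := h.pro'.pre.commute e0 a0 hf.conj
    have c1 := h.pro'.pre.commute e1 a1 hN.conj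
    have c2 := h.lift'.conj_lg e0 a0 (-t)
    rw [h.dual.U_eq, dl_dl] at c0 c1 c2
    rw [h.dual.U_eq, map_inv, dl_dl] at c2
    refine ⟨_, norm_ex (-t * Real.log (sc' (Real.exp (-2 * -k)))), ?_⟩
    rw [hZ, star_mul, star_mul, h.lift'.star_lg, POVM.E_star _ hf, POVM.E_star _ hN,
      ← _root_.smul_apply, ← smul_mul_assoc, ← c2]
    simp only [mul_apply_eq_comp, ← bes_comm_apply c1.symm, ← bes_comm_apply c0.symm,
      URep.inv_apply_apply]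
  have hρ : ∀ μ : Γ, I.ρ μ⁻¹ * Z * I.ρ μ =
      (Ψ (ev 1)).E (fun a => ic {0}ᶜ a * N (ac (ι (dl μ)) a)) * (Ψ (ev 0)).E
        (fun a => f (ac (ι (dl μ)) a) * cz (ι (dl μ)) t a) * (B (ev 0)).E (lg t) := fun μ => by
    have c0 := h.ρΨ e0 hf hf0 μ⁻¹
    have c1 := h.ρΨ e1 hN hN0 μ⁻¹
    have c2 := h.lift'.ρ_lg e0 (dl μ⁻¹) t
    rw [h.dual.ρ_eq, h.dual.ρ_eq, ← map_inv dl, dl_dl, dl_dl] at c2
    rw [inv_inv] at c0 c1 c2
    rw [← (h.pro'.proj _).sym.cut (hN.comp (measurable_ac _)),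
      h.pro'.pvm _ _ _ (hf.comp (measurable_ac _)) (bm_cz _ _), mul_assoc ((Ψ (ev 1)).E _),
      mul_assoc _ _ ((B _).E _),
      ← (h.lift'.commute_Φ e0 (bm_lg t) (bm_cz _ _)).eq, ← c0, ← c1, ← c2, hZ]
    refine ContinuousLinearMap.ext fun v => ?_
    simp only [mul_apply_eq_comp, URep.apply_inv_apply]
  have hZN : Z ∈ I.N := Ind.mul_N (Ind.mul_N (h.memΨ e1 hN) (h.memΨ e0 hf)) (h.memB e0 (bm_lg t))
  obtain ⟨C₀, hC₀⟩ := h.lift.lc_dense h.tight.1 h.lc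
  have small : ∀ R, ∀ δ > (0 : ℝ), ∃ᶠ k in atTop, ∀ F : Finset Γ,
      (∀ μ ∈ F, μ ∈ Sh (L k) R ∧ g (pt μ) ≠ 0) →
      ∑ μ ∈ F, ‖(I.ρ μ⁻¹ * Z * I.ρ μ) I.ξ‖ ^ 2 ≤ δ := fun R δ hδ => by
    obtain ⟨R₁, hR₁, n₀, hfam⟩ := St.fam_shell hf hf0 hfc hN hfC hNC hθ h₁ h₂ t R C₀
    have fl := fun i (hi : ev i ⬝ᵥ ev 2 = 0) => h.symm.flag (ev_ne_zero i) (ev_ne_zero 2) hi
    obtain ⟨ε, hε, hs⟩ := St.fam_small (fl 0 (by simp [ev])) (h.pro'.pvm (ev 1))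
      (fl 1 (by simp [ev])).comm (fun c hc he α β => h.symm.e0 hc he α β)
      ((B (ev 0)).E (lg t) I.ξ) C hR₁ n₀ hδ
    obtain ⟨η, hη, hfam⟩ := hfam ε hε
    refine frequently_atTop.2 fun k₀ => ?_
    obtain ⟨u, hu, k, hk, hku⟩ := ((hs η hη).and_eventually (hC₀ k₀)).exists
    refine ⟨k, hk, fun F hF => ?_⟩
    simpa only [hρ, mul_apply_eq_comp] using hu F _ _ (hfam _ _ F hku hF)
  have bes : ∀ (D : ℝ) (η : K), 0 ≤ D → I.Bes D η → (Φ (ev 0)).E g (star Z η) = 0 := by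
    intro D η hD hη
    refine KF.eq_zero_of_small' (B := 1 + C + C * D) fun δ hδ => ?_
    obtain ⟨R, hR⟩ := h.tight.seq (star Z η) δ hδ
    have hs := Metric.tendsto_nhds.1 (h.pro.strong g hg hg0 hgc (star Z η)) δ hδ
    obtain ⟨k, h1, h2, h3⟩ := ((small R (δ ^ 2) (by positivity)).and_eventually (hR.and hs)).exists
    rw [dist_zero_right] at h3
    obtain ⟨z, hz, hz'⟩ := hU k η
    have bg : BM fun μ => g (pt μ) := bm_Γ fun μ => hgC _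
    have b1 : ∀ S : Set Γ, BM fun μ => g (pt μ) * ic S μ := fun S => bg.mul (bm_ic_Γ S)
    have h4 : ‖I.mJ (fun μ => g (pt μ) * ic (Sh (L k) R)ᶜ μ) (I.U (al k) (star Z η))‖ ≤ C * δ :=
      (I.norm_mJ_mono (bm_ic_Γ _) hC0 (fun μ => by rw [norm_mul]; gcongr; exact hgC _) _).trans
        (by gcongr)
    have h5 : ‖I.mJ (fun μ => g (pt μ) * ic (Sh (L k) R) μ) (I.U (al k) (star Z η))‖
        ≤ C * D * δ := by
      refine LG.norm_le (by positivity) fun F => ?_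
      set F' := F.filter fun μ => μ ∈ Sh (L k) R ∧ g (pt μ) ≠ 0 with hF'
      have r := (hη.U (al k)).row (Y := fun μ => star (I.ρ μ⁻¹ * Z * I.ρ μ)) (fun μ => Ind.star_N
        (Ind.mul_N (Ind.mul_N (I.ρ_N _) hZN) (I.ρ_N _))) F'
      simp only [star_star] at r
      have r' := r.trans (mul_le_mul_of_nonneg_left
        (h1 F' fun μ hμ => (Finset.mem_filter.1 hμ).2) (sq_nonneg D))
      rw [← Finset.sum_subset (Finset.filter_subset (fun μ => μ ∈ Sh (L k) R ∧ g (pt μ) ≠ 0) F)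
        fun μ hμ hn => ?_]
      · refine (Finset.sum_le_sum fun μ _ => ?_).trans
          (((Finset.mul_sum _ _ (C ^ 2)).symm.trans_le
            (mul_le_mul_of_nonneg_left r' (sq_nonneg C))).trans_eq (by ring))
        rw [I.mJ_apply (b1 _), hz', map_smul, map_smul, norm_smul, norm_smul, hz, one_mul, mul_pow,
          star_mul _ (I.ρ μ), star_mul (I.ρ μ⁻¹), URep.star_apply, URep.star_apply, inv_inv]
        simp only [mul_apply_eq_comp, URep.apply_inv_apply]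
        gcongr
        rw [norm_mul]
        exact (mul_le_of_le_one_right (norm_nonneg _) (norm_ic_le _ _)).trans (hgC _)
      · rw [Finset.mem_filter, not_and, not_and, not_not] at hn
        rw [I.mJ_apply (b1 _)]
        by_cases hμ' : μ ∈ Sh (L k) R
        · simp [hn hμ hμ']
        · simp [hμ']
    have h6 := I.mJ_add (b1 (Sh (L k) R)) (b1 (Sh (L k) R)ᶜ)
    simp only [ic_compl, ← mul_add, add_sub_cancel, mul_one] at h6
    have h7 := norm_sub_norm_le (I.J (I.U (al k) ((Φ (ev 0)).E g (star Z η))))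
      (I.mJ (fun μ => g (pt μ)) (I.U (al k) (star Z η)))
    rw [norm_sub_rev, I.norm_J, URep.norm_map] at h7
    have h8 : ‖I.mJ (fun μ => g (pt μ)) (I.U (al k) (star Z η))‖ ≤ C * D * δ + C * δ := by
      rw [h6, _root_.add_apply]
      simp only [ic_compl] at h4
      exact (norm_add_le _ _).trans (add_le_add h5 h4)
    linarith
  refine ContinuousLinearMap.ext fun η => KF.eq_zero_of_small'
    (B := ‖(Φ (ev 0)).E g * star Z‖) fun δ hδ => ?_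
  obtain ⟨D, η', hD, hη', hd⟩ := I.exists_bes_near η hδ
  rw [show ((Φ (ev 0)).E g * star Z) η = ((Φ (ev 0)).E g * star Z) (η - η') by
    rw [map_sub, mul_apply_eq_comp _ _ η', bes D η' hD hη', sub_zero]]
  exact (ContinuousLinearMap.le_opNorm _ _).trans (by gcongr)

theorem St.star_lg (h : Geo I I' L Φ Ψ A B sc sc') {N f g : V → ℂ} (hN : BM N) (hN0 : Hom0 N)
    (hf : BM f) (hf0 : Hom0 f) (hfc : ContinuousOn f {0}ᶜ) (hg : BM g) (hg0 : Hom0 g)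
    (hgc : ContinuousOn g {0}ᶜ) {θ : ℝ} (hθ : 0 < θ)
    (h₁ : ∀ a b, N a ≠ 0 → g b ≠ 0 → θ * (‖a‖ * ‖b‖) ≤ |a ⬝ᵥ b|)
    (h₂ : ∀ a b, f a ≠ 0 → g b ≠ 0 → θ * (‖a‖ * ‖b‖) ≤ |a ⬝ᵥ b|) (t : ℝ) :
    (Φ (ev 1)).E N * (Φ (ev 0)).E f * (A (ev 0)).E (lg t) * (Ψ (ev 0)).E g = 0 := by
  have := congrArg star (St.core h.symm hN hN0 hf hf0 hfc hg.conj
    (fun z hz a => by simp only [hg0 z hz a]) (Complex.continuous_conj.comp_continuousOn hgc) hθ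
    (fun a b ha hb => h₁ a b ha fun e => hb (by simp [e]))
    (fun a b ha hb => h₂ a b ha fun e => hb (by simp [e])) t)
  rwa [star_mul, star_star, ← POVM.E_star _ hg, star_star, star_zero] at this

/-- **(\*\*)** -/
theorem Geo.star2 (h : Geo I I' L Φ Ψ A B sc sc') {N f g : V → ℂ} (hN : BM N) (hN0 : Hom0 N)
    (hf : BM f) (hf0 : Hom0 f) (hfc : ContinuousOn f {0}ᶜ) (hg : BM g) (hg0 : Hom0 g)
    (hgc : ContinuousOn g {0}ᶜ) {θ : ℝ} (hθ : 0 < θ)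
    (h₁ : ∀ a b, N a ≠ 0 → g b ≠ 0 → θ * (‖a‖ * ‖b‖) ≤ |a ⬝ᵥ b|)
    (h₂ : ∀ a b, f a ≠ 0 → g b ≠ 0 → θ * (‖a‖ * ‖b‖) ≤ |a ⬝ᵥ b|) :
    (Φ (ev 1)).E N * (Φ (ev 0)).E f * (Ψ (ev 0)).E g = 0 := by
  have := St.star_lg h hN hN0 hf hf0 hfc hg hg0 hgc hθ h₁ h₂ 0
  rwa [show lg 0 = fun _ => 1 from funext fun a => by simp [lg], POVM.E_one, mul_one] at this

/-- **(\*\*)** with a lifted function in the middle slot -/
theorem Geo.star2L (h : Geo I I' L Φ Ψ A B sc sc') {N f g : V → ℂ} (hN : BM N) (hN0 : Hom0 N)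
    (hf : BM f) (hf0 : Hom0 f) (hfc : ContinuousOn f {0}ᶜ) (hg : BM g) (hg0 : Hom0 g)
    (hgc : ContinuousOn g {0}ᶜ) {θ : ℝ} (hθ : 0 < θ)
    (h₁ : ∀ a b, N a ≠ 0 → g b ≠ 0 → θ * (‖a‖ * ‖b‖) ≤ |a ⬝ᵥ b|)
    (h₂ : ∀ a b, f a ≠ 0 → g b ≠ 0 → θ * (‖a‖ * ‖b‖) ≤ |a ⬝ᵥ b|) {F : V → ℂ} (hF : BM F) :
    (Φ (ev 1)).E N * (A (ev 0)).E (fun a => F a * f a) * (Ψ (ev 0)).E g = 0 := by
  have e0 := ev_ne_zero 0
  have pW : ∀ {u : V → ℂ}, BM u → IsPoly1 fun F : V → ℂ =>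
      (Φ (ev 1)).E N * (A (ev 0)).E (fun a => u a * F a) * (Ψ (ev 0)).E g := fun hu =>
    (((A (ev 0)).isPoly1.comp measurable_id hu).mul _ _)
  have p0 : IsPoly1 fun _ : V → ℂ => (0 : K →L[ℂ] K) :=
    ⟨fun _ _ _ _ => by simp, fun _ _ _ => by simp, fun _ _ _ _ _ _ _ => tendsto_const_nhds⟩
  have k1 : ∀ t u, BM u → Hom0 u → (Φ (ev 1)).E N * (A (ev 0)).E (fun a => f a * lg t a * u a)
      * (Ψ (ev 0)).E g = 0 := fun t => (pW (hf.mul (bm_lg t))).ext_hom0 p0 fun u hu hu0 huc => by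
    have hh : Hom0 fun a => f a * u a := fun z hz a => by simp only [hf0 z hz a, hu0 z hz a]
    rw [← St.star_lg h hN hN0 (hf.mul hu) hh (hfc.mul huc) hg hg0 hgc hθ h₁
      (fun a b ha => h₂ a b (left_ne_zero_of_mul ha)) t, ← h.lift.hom0 e0 (hf.mul hu) hh,
      mul_assoc _ _ ((A _).E (lg t)), ← h.lift.pvm _ _ _ (hf.mul hu) (bm_lg t)]
    simp only [mul_right_comm]
  have k2 := (pW hf).ext_lift p0 (by
    rw [h.lift.pvm _ _ _ hf (BM.ic (measurableSet_singleton 0)), h.lift.zero]; simp)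
    (fun u hu hu0 t => by
      rw [← k1 t u hu hu0]; simp only [mul_assoc, mul_comm (lg t _)])
    (fun a => F (sg a)) (hF.comp measurable_sg) (Ap2.ev_sg F)
  rw [← k2, h.lift.conc _ _ (hF.mul hf)]
  simp only [hf0.ev.sg, mul_comm]

end Crest.Agent.N111
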