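import Crest.Agent.N111.F.Chart

/-! # Row 111, (**): scalar lemmas (partition of unity, the positive kernel, chart geometry). -/

set_option autoImplicit false

namespace Crest.Agent.N111.St

open MeasureTheory Topology Filter Matrix
open scoped ContDiff

/-- a smooth partition of unity along `ℤ` -/
noncomputable def ch (x : ℝ) : ℝ := Real.smoothTransition (x + 1) - Real.smoothTransition x

theorem ch_nonneg (x : ℝ) : 0 ≤ ch x := sub_nonneg.2 (Real.smoothTransition.monotone (by linarith))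

theorem ch_le_one (x : ℝ) : ch x ≤ 1 := by
  rw [ch]; linarith [Real.smoothTransition.le_one (x + 1), Real.smoothTransition.nonneg x]

theorem ch_eq_zero {x : ℝ} (h : 1 ≤ |x|) : ch x = 0 := by
  rcases le_abs'.1 h with h | h
  · rw [ch, Real.smoothTransition.zero_of_nonpos (by linarith),
      Real.smoothTransition.zero_of_nonpos (by linarith), sub_self]
  · rw [ch, Real.smoothTransition.one_of_one_le (by linarith),
      Real.smoothTransition.one_of_one_le h, sub_self]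

theorem st_symm (x : ℝ) : Real.smoothTransition (1 - x) = 1 - Real.smoothTransition x := by
  have := (Real.smoothTransition.pos_denom x).ne'
  simp only [Real.smoothTransition, sub_sub_cancel]
  rw [add_comm (expNegInvGlue (1 - x))]
  field_simp; ring

theorem ch_neg (x : ℝ) : ch (-x) = ch x := by
  rw [ch, ch, show -x + 1 = 1 - x by ring, show -x = 1 - (x + 1) by ring, st_symm, st_symm]; ring

@[fun_prop] theorem contDiff_ch : ContDiff ℝ ∞ ch :=
  (Real.smoothTransition.contDiff.comp (by fun_prop)).sub Real.smoothTransition.contDiff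

@[fun_prop] theorem continuous_ch : Continuous ch := contDiff_ch.continuous

theorem sum_ch {y θ : ℝ} {M : ℕ} (h0 : 0 ≤ θ) (h1 : θ ≤ 1) (hy : |y| + 1 ≤ M) :
    ∑ n ∈ Finset.range (2 * M), ch (y - (n + θ - M)) = 1 := by
  have := Finset.sum_range_sub' (fun n : ℕ => Real.smoothTransition (y - (n + θ - M) + 1)) (2 * M)
  have h2 := abs_le.1 (show |y| ≤ M - 1 by linarith)
  rw [Real.smoothTransition.one_of_one_le (by push_cast; linarith),
    Real.smoothTransition.zero_of_nonpos (x := y - ((2 * M : ℕ) + θ - M) + 1)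
      (by push_cast; linarith), sub_zero] at this
  rw [← this]
  refine Finset.sum_congr rfl fun n _ => ?_
  rw [ch]; congr 2; push_cast; ring

/-- a plateau function -/
noncomputable def nu (R y : ℝ) : ℝ := Real.smoothTransition (2 - (y / R) ^ 2)

theorem nu_nonneg (R y : ℝ) : 0 ≤ nu R y := Real.smoothTransition.nonneg _
theorem nu_le_one (R y : ℝ) : nu R y ≤ 1 := Real.smoothTransition.le_one _
theorem nu_neg (R y : ℝ) : nu R (-y) = nu R y := by rw [nu, nu, neg_div, neg_sq]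

theorem nu_eq_one {R y : ℝ} (hR : 0 < R) (h : |y| ≤ R) : nu R y = 1 := by
  refine Real.smoothTransition.one_of_one_le ?_
  have : |y / R| ≤ 1 := by rwa [abs_div, abs_of_pos hR, div_le_one hR]
  nlinarith [sq_abs (y / R), abs_nonneg (y / R)]

theorem nu_eq_zero {R y : ℝ} (hR : 0 < R) (h : 2 * R ≤ |y|) : nu R y = 0 := by
  refine Real.smoothTransition.zero_of_nonpos ?_
  have : 2 ≤ |y / R| := by rwa [abs_div, abs_of_pos hR, le_div_iff₀ hR]
  nlinarith [sq_abs (y / R)]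

@[fun_prop] theorem contDiff_nu (R : ℝ) : ContDiff ℝ ∞ (nu R) :=
  Real.smoothTransition.contDiff.comp (by fun_prop)

@[fun_prop] theorem continuous_nu (R : ℝ) : Continuous (nu R) := (contDiff_nu R).continuous

theorem exists_grid {H : ℝ → ℝ} (hH : Continuous H) (M : ℕ) : ∃ θ, 0 ≤ θ ∧ θ ≤ 1 ∧
    ∑ n ∈ Finset.range (2 * M), H (n + θ - M) ≤ ∫ x in Set.Ioc (-(M : ℝ)) M, H x := by
  have hc : Continuous fun θ : ℝ => ∑ n ∈ Finset.range (2 * M), H (n + θ - M) := by fun_prop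
  obtain ⟨θ, hθ, h⟩ := exists_le_setAverage (μ := volume) (s := Set.Ioc (0 : ℝ) 1) (by simp) (by simp)
    (hc.integrableOn_Ioc)
  refine ⟨θ, hθ.1.le, hθ.2, h.trans (le_of_eq ?_)⟩
  rw [setAverage_eq, ← intervalIntegral.integral_of_le zero_le_one,
    ← intervalIntegral.integral_of_le (by linarith [(Nat.cast_nonneg M : (0 : ℝ) ≤ M)]),
    intervalIntegral.integral_finsetSum fun n _ => Continuous.intervalIntegrable (by fun_prop) _ _]
  have := intervalIntegral.sum_integral_adjacent_intervals (μ := volume) (f := H)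
    (a := fun n : ℕ => (n : ℝ) - M) (n := 2 * M) fun n _ => hH.intervalIntegrable _ _
  simp only [Nat.cast_zero, zero_sub, Nat.cast_mul, Nat.cast_ofNat, show 2 * (M : ℝ) - M = M by ring]
    at this
  rw [← this]
  simp only [Measure.real, Real.volume_Ioc, sub_zero, ENNReal.ofReal_one, ENNReal.toReal_one,
    inv_one, one_smul]
  refine Finset.sum_congr rfl fun n _ => ?_
  simp only [show ∀ θ : ℝ, n + θ - M = θ + (n - M) from fun θ => by ring,
    intervalIntegral.integral_comp_add_right, zero_add]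
  congr 1; push_cast; ring

theorem card_le_of_close {s : Finset ℕ} {r : ℕ} (h : ∀ n ∈ s, ∀ m ∈ s, n ≤ m + r) :
    s.card ≤ r + 1 := by
  rcases s.eq_empty_or_nonempty with rfl | hs
  · simp
  · refine (Finset.card_le_card (t := Finset.Icc (s.min' hs) (s.min' hs + r)) fun n hn =>
      Finset.mem_Icc.2 ⟨s.min'_le n hn, h n hn _ (s.min'_mem hs)⟩).trans (le_of_eq ?_)
    rw [Nat.card_Icc]; omega

theorem norm_sum_sq_le {α : Type*} (s : Finset α) {w : α → ℝ} (hw : ∀ n ∈ s, 0 ≤ w n)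
    (h1 : ∑ n ∈ s, w n = 1) (z : α → ℂ) :
    ‖∑ n ∈ s, (w n : ℂ) * z n‖ ^ 2 ≤ ∑ n ∈ s, w n * ‖z n‖ ^ 2 := by
  have h2 : ‖∑ n ∈ s, (w n : ℂ) * z n‖ ≤ ∑ n ∈ s, w n * ‖z n‖ :=
    (norm_sum_le _ _).trans (le_of_eq (Finset.sum_congr rfl fun n hn => by
      rw [norm_mul, Complex.norm_real, Real.norm_of_nonneg (hw n hn)]))
  have h3 := (convexOn_pow (𝕜 := ℝ) 2).map_sum_le hw h1 (p := fun n => ‖z n‖)
    fun n _ => Set.mem_Ici.2 (norm_nonneg _)
  exact (pow_le_pow_left₀ (norm_nonneg _) h2 2).trans h3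

theorem hasCompactSupport_nu {R : ℝ} (hR : 0 < R) : HasCompactSupport (nu R) :=
  HasCompactSupport.intro (isCompact_closedBall 0 (2 * R)) fun y hy =>
    nu_eq_zero hR (by simpa using (not_le.1 (mt Metric.mem_closedBall.2 hy)).le)

theorem hasCompactSupport_ch {h : ℝ} (hh : 0 < h) : HasCompactSupport fun y => ch (y / h) :=
  HasCompactSupport.intro (isCompact_closedBall 0 h) fun y hy => ch_eq_zero (by
    rw [abs_div, abs_of_pos hh, le_div_iff₀ hh, one_mul]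
    simpa using (not_le.1 (mt Metric.mem_closedBall.2 hy)).le)

theorem abs_log_sub_le {x y ρ : ℝ} (hx : 0 < x) (hρ : ρ ≤ 1 / 2) (h : |x - y| ≤ ρ * x) :
    |Real.log x - Real.log y| ≤ 2 * ρ := by
  have h1 := abs_le.1 h
  have hρ0 : 0 ≤ ρ := nonneg_of_mul_nonneg_left ((abs_nonneg _).trans h) hx
  have hy : 0 < y := by nlinarith
  have h2 := Real.log_le_sub_one_of_pos (div_pos hx hy)
  have h3 := Real.log_le_sub_one_of_pos (div_pos hy hx)
  rw [Real.log_div hx.ne' hy.ne'] at h2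
  rw [Real.log_div hy.ne' hx.ne'] at h3
  have h4 : x / y ≤ 1 + 2 * ρ := by rw [div_le_iff₀ hy]; nlinarith
  have h5 : y / x ≤ 1 + ρ := by rw [div_le_iff₀ hx]; nlinarith
  rw [abs_le]; constructor <;> linarith

/-! ### the chart -/

/-- the point of the line `b` with coordinate `x` -/
noncomputable def pl (α β : V) (x : ℝ) (b : V) : V := b ⨯₃ (β - x • α)

variable {α β a b c : V} {x θ : ℝ}

theorem measurable_pl (α β : V) (x : ℝ) : Measurable (pl α β x) := by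
  refine measurable_pi_lambda _ fun i => ?_
  fin_cases i <;> simp [pl, cross_apply] <;> fun_prop

theorem dot_pl (α β : V) (x : ℝ) (b : V) : α ⬝ᵥ pl α β x b = -((α ⨯₃ β) ⬝ᵥ b) := by
  simp [pl, cross_apply, dotProduct, Fin.sum_univ_three]; ring

theorem dot_pl' (α β : V) (x : ℝ) (b : V) : β ⬝ᵥ pl α β x b = x * -((α ⨯₃ β) ⬝ᵥ b) := by
  simp [pl, cross_apply, dotProduct, Fin.sum_univ_three]; ring

theorem tc_pl (h : (α ⨯₃ β) ⬝ᵥ b ≠ 0) (x : ℝ) : tc α β (pl α β x b) = x := by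
  rw [tc, dot_pl, dot_pl', mul_div_cancel_right₀ _ (neg_ne_zero.2 h)]

theorem pl_ne_zero (h : (α ⨯₃ β) ⬝ᵥ b ≠ 0) (x : ℝ) : pl α β x b ≠ 0 := fun e => by
  have := dot_pl α β x b
  rw [e, dotProduct_zero] at this
  exact h (neg_eq_zero.1 this.symm)

theorem le_norm_pl (h : θ * ‖b‖ ≤ |(α ⨯₃ β) ⬝ᵥ b|) (x : ℝ) :
    θ * ‖b‖ ≤ 3 * ‖α‖ * ‖pl α β x b‖ := by
  have := abs_dot_le α (pl α β x b)
  rw [dot_pl, abs_neg] at this
  exact h.trans this

theorem norm_pl_le {X : ℝ} (hx : |x| ≤ X) (b : V) :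
    ‖pl α β x b‖ ≤ 2 * ‖b‖ * (‖β‖ + X * ‖α‖) := by
  refine (norm_cross_le _ _).trans ?_
  gcongr
  refine (norm_sub_le _ _).trans ?_
  rw [norm_smul, Real.norm_eq_abs]
  gcongr

theorem norm_cross_pl (ha : α ⬝ᵥ a ≠ 0) (h : a ⬝ᵥ b = 0) (x : ℝ) :
    ‖a ⨯₃ pl α β x b‖ ≤ 3 * ‖α‖ * ‖a‖ * |tc α β a - x| * ‖b‖ := by
  have e : a ⨯₃ pl α β x b = ((α ⬝ᵥ a) * (tc α β a - x)) • b := by
    rw [pl, cross_cross_eq_smul_sub_smul', dotProduct_comm b a, h, zero_smul, sub_zero, dotProduct_sub, dotProduct_smul,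
      dotProduct_comm a β, dotProduct_comm a α, tc, smul_eq_mul]
    congr 1; field_simp
  rw [e, norm_smul, Real.norm_eq_abs, abs_mul]
  gcongr
  exact abs_dot_le _ _

theorem close (α β : V) (hθ : 0 < θ) (X : ℝ) {R : ℝ} (hR : 0 ≤ R) : ∃ R' > (0 : ℝ),
    ∀ᶠ l in atTop, ∀ (b c : V) (x : ℝ), b ≠ 0 → θ * ‖b‖ ≤ |(α ⨯₃ β) ⬝ᵥ b| → |x| ≤ X → c ≠ 0 →
      l * ‖c ⨯₃ pl α β x b‖ ≤ R * (‖c‖ * ‖pl α β x b‖) → |l * tc α β c - l * x| ≤ R' := by
  set W := ‖β‖ + |X| * ‖α‖ with hW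
  have hW0 : 0 ≤ W := by positivity
  refine ⟨24 * ‖α ⨯₃ β‖ * R * W ^ 2 / θ ^ 2 + 1, by positivity, ?_⟩
  filter_upwards [eventually_gt_atTop 0, eventually_ge_atTop (8 * ‖α‖ * R * W / θ)]
    with l hl0 hl b c x hb hbθ hx hc h
  have hb0 : 0 < ‖b‖ := norm_pos_iff.2 hb
  have hc0 : 0 < ‖c‖ := norm_pos_iff.2 hc
  have hp : ‖pl α β x b‖ ≤ 2 * ‖b‖ * W := norm_pl_le (hx.trans (le_abs_self X)) b
  have h0 : l * ‖c ⨯₃ pl α β x b‖ ≤ R * (‖c‖ * (2 * ‖b‖ * W)) := h.trans (by gcongr)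
  have e1 : (α ⨯₃ β) ⬝ᵥ (c ⨯₃ pl α β x b) = ((α ⨯₃ β) ⬝ᵥ b) * (β ⬝ᵥ c - x * (α ⬝ᵥ c)) := by
    simp [pl, cross_apply, dotProduct, Fin.sum_univ_three]; ring
  have e2 : ((α ⨯₃ β) ⬝ᵥ b) • c = -(α ⨯₃ (c ⨯₃ pl α β x b)) - (α ⬝ᵥ c) • pl α β x b := by
    rw [cross_cross_eq_smul_sub_smul', dot_pl, neg_smul, dotProduct_comm c α]; abel
  have h1 : θ * ‖b‖ * |β ⬝ᵥ c - x * (α ⬝ᵥ c)| ≤ 3 * ‖α ⨯₃ β‖ * ‖c ⨯₃ pl α β x b‖ := by
    refine le_trans ?_ (abs_dot_le _ _)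
    rw [e1, abs_mul]; gcongr
  have h2 : θ * ‖b‖ * ‖c‖ ≤ 2 * ‖α‖ * ‖c ⨯₃ pl α β x b‖ + |α ⬝ᵥ c| * (2 * ‖b‖ * W) := by
    have h3 := norm_sub_le (-(α ⨯₃ (c ⨯₃ pl α β x b))) ((α ⬝ᵥ c) • pl α β x b)
    rw [← e2, norm_neg, norm_smul, norm_smul, Real.norm_eq_abs, Real.norm_eq_abs] at h3
    have h4 := norm_cross_le α (c ⨯₃ pl α β x b)
    have h5 := mul_le_mul_of_nonneg_left hp (abs_nonneg (α ⬝ᵥ c))
    nlinarith
  rw [div_le_iff₀ hθ] at hl
  have h3 : θ * ‖c‖ ≤ 4 * W * |α ⬝ᵥ c| := by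
    have h4 : l * (2 * ‖α‖ * ‖c ⨯₃ pl α β x b‖) ≤ l * (θ * ‖b‖ * ‖c‖ / 2) := by
      have := mul_le_mul_of_nonneg_left h0 (show 0 ≤ 2 * ‖α‖ by positivity)
      have := mul_le_mul_of_nonneg_right hl (show 0 ≤ ‖b‖ * ‖c‖ / 2 by positivity)
      nlinarith
    have h5 := le_of_mul_le_mul_left h4 hl0
    refine le_of_mul_le_mul_left (a := ‖b‖) ?_ hb0
    nlinarith
  have h4 : 0 < |α ⬝ᵥ c| := by
    by_contra hn
    rw [le_antisymm (not_lt.1 hn) (abs_nonneg _)] at h3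
    nlinarith [mul_pos hθ hc0]
  have h5 : l * tc α β c - l * x = l * (β ⬝ᵥ c - x * (α ⬝ᵥ c)) / (α ⬝ᵥ c) := by
    have := abs_pos.1 h4
    rw [tc]; field_simp
  refine le_trans ?_ (le_add_of_nonneg_right zero_le_one)
  rw [h5, abs_div, abs_mul, abs_of_pos hl0, div_le_div_iff₀ h4 (by positivity)]
  have h6 : θ * (l * |β ⬝ᵥ c - x * (α ⬝ᵥ c)|) ≤ 6 * ‖α ⨯₃ β‖ * R * W * ‖c‖ := by
    refine le_of_mul_le_mul_left (a := ‖b‖) ?_ hb0
    have := mul_le_mul_of_nonneg_left h1 hl0.le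
    have := mul_le_mul_of_nonneg_left h0 (show 0 ≤ 3 * ‖α ⨯₃ β‖ by positivity)
    nlinarith
  have := mul_le_mul_of_nonneg_left h6 hθ.le
  have := mul_le_mul_of_nonneg_left h3 (show 0 ≤ 6 * ‖α ⨯₃ β‖ * R * W by positivity)
  nlinarith

end Crest.Agent.N111.St
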