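import Crest.Agent.N111.F.Star1

/-! # Row 111, (**): families of caps are dominated by a positive triple operator integral. -/

set_option autoImplicit false

namespace Crest.Agent.N111.St

open MeasureTheory Topology Filter Matrix
open scoped InnerProductSpace ContDiff

variable {K : Type} [NormedAddCommGroup K] [InnerProductSpace ℂ K] [CompleteSpace K]

/-- functions supported in caps of size `R / l` with bounded overlap -/
structure Fam (F : Finset Γ) (φ N : Γ → V → ℂ) (B R η ε l : ℝ) (n₀ : ℕ) : Prop where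
  bmφ : ∀ μ, BM (φ μ)
  bmN : ∀ μ, BM (N μ)
  bdφ : ∀ μ a, ‖φ μ a‖ ≤ B
  bdN : ∀ μ a, ‖N μ a‖ ≤ B
  zN : ∀ μ, N μ 0 = 0
  diam : ∀ μ ∈ F, ∀ a a', φ μ a ≠ 0 ∨ N μ a ≠ 0 → φ μ a' ≠ 0 →
    l * ‖a ⨯₃ a'‖ ≤ R * (‖a‖ * ‖a'‖)
  ov : ∀ a, a ≠ 0 → ∀ F' ⊆ F, (∀ μ ∈ F', φ μ a ≠ 0) → F'.card ≤ n₀
  md : ∀ μ ∈ F, ∀ a a', a ≠ 0 → a' ≠ 0 → l * ‖a ⨯₃ a'‖ ≤ η * (‖a‖ * ‖a'‖) →
    ‖φ μ a - φ μ a'‖ ≤ ε

theorem ae_mem {Y : Type} [MeasurableSpace Y] (P : POVM Y K) {O : Set Y} (hO : MeasurableSet O)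
    {ζ : K} (h : P.E (ic O) ζ = ζ) : ∀ᵐ y ∂P.ν ζ, y ∈ O :=
  P.ν_eq_zero hO.compl (by rw [P.E_ic_compl hO]; simp [h])

theorem sum_le_card {α : Type*} {s : Finset α} {u : α → ℝ} {D : ℝ} {n : ℕ} (hD : 0 ≤ D)
    (h : ∀ μ ∈ s, u μ ≤ D) (hc : ∀ s' ⊆ s, (∀ μ ∈ s', u μ ≠ 0) → s'.card ≤ n) :
    ∑ μ ∈ s, u μ ≤ n * D := by
  classical
  rw [← Finset.sum_filter_ne_zero]
  refine (Finset.sum_le_card_nsmul _ _ D fun μ hμ => h μ (Finset.mem_filter.1 hμ).1).trans ?_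
  rw [nsmul_eq_mul]
  gcongr
  exact hc _ (Finset.filter_subset _ _) fun μ hμ => (Finset.mem_filter.1 hμ).2

theorem Fam.sum_sub {F : Finset Γ} {φ N : Γ → V → ℂ} {B R η ε l : ℝ} {n₀ : ℕ}
    (h : Fam F φ N B R η ε l n₀) {a a' : V} (ha : a ≠ 0) (ha' : a' ≠ 0)
    (hc : l * ‖a ⨯₃ a'‖ ≤ η * (‖a‖ * ‖a'‖)) :
    ∑ μ ∈ F, ‖φ μ a - φ μ a'‖ ^ 2 ≤ (n₀ + n₀ : ℕ) * ε ^ 2 := by
  classical
  refine sum_le_card (sq_nonneg ε) (fun μ hμ => pow_le_pow_left₀ (norm_nonneg _)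
    (h.md μ hμ a a' ha ha' hc) 2) fun s hs h0 => ?_
  rw [← Finset.card_filter_add_card_filter_not (s := s) fun μ => φ μ a ≠ 0]
  refine add_le_add (h.ov a ha _ ((Finset.filter_subset _ _).trans hs) fun μ hμ =>
    (Finset.mem_filter.1 hμ).2) (h.ov a' ha' _ ((Finset.filter_subset _ _).trans hs)
      fun μ hμ e => h0 μ (Finset.mem_filter.1 hμ).1 ?_)
  rw [e, not_not.1 (Finset.mem_filter.1 hμ).2]; simp

theorem chart_est {P Cc Q : POVM V K} (hP : Flag P Q) (hC : Cc.IsPVM)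
    (hCQ : ∀ f h, BM f → BM h → Commute (Cc.E f) (Q.E h)) (α β : V) {S S' : Set V}
    (mS : MeasurableSet S) (mS' : MeasurableSet S') {T θ : ℝ} (hT : 0 ≤ T) (hθ : 0 < θ)
    (hS : ∀ a ∈ S, α ⬝ᵥ a ≠ 0 ∧ |tc α β a| ≤ T)
    (hS' : ∀ b ∈ S', b ≠ 0 ∧ θ * ‖b‖ ≤ |(α ⨯₃ β) ⬝ᵥ b|) {ζ : K} (hζ : P.E (ic S) ζ = ζ)
    (hζ' : Q.E (ic S') ζ = ζ) (B : ℝ) {R η : ℝ} (hR : 0 ≤ R) (hη : 0 < η) (n₀ : ℕ) :
    ∃ c, Integrable c ∧ Ev c ∧ (∀ l, 0 < l → 0 ≤ (⟪ζ, toi (Wc ![P, Cc, P] α β) c l ζ⟫_ℂ).re) ∧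
      ∃ C₁ > (0 : ℝ), ∀ᶠ l in atTop, ∀ F φ N ε, Fam F φ N B R η ε l n₀ →
        ∑ μ ∈ F, ‖Cc.E (N μ) (P.E (φ μ) ζ)‖ ^ 2 ≤ 4 * B ^ 2 * n₀ * ε ^ 2 * ‖ζ‖ ^ 2
          + C₁ * (⟪ζ, toi (Wc ![P, Cc, P] α β) c l ζ⟫_ℂ).re := by
  classical
  obtain ⟨J, hJ, hJE, hJ1⟩ := hP.exists_joint
  obtain ⟨J', hJ', hJE'⟩ := POVM.exists_joint hC hP.pvm' hCQ
  obtain ⟨R', hR', hcl⟩ := close α β hθ (T + 1) hR
  set h := η * θ / (9 * ‖α‖ ^ 2 + 1) with hh
  have h0 : 0 < h := by positivity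
  have hhη : 9 * ‖α‖ ^ 2 * h ≤ η * θ := by
    have : (9 * ‖α‖ ^ 2 + 1) * h = η * θ := by rw [hh]; field_simp
    linarith
  obtain ⟨c, c1, c2, hc⟩ := exists_ker (χ := fun y => ch (y / h)) (N := nu R') (by fun_prop)
    (hasCompactSupport_ch h0) (contDiff_nu R') (hasCompactSupport_nu hR')
  have aS := ae_mem P mS hζ
  have bm1 : ∀ l x : ℝ, BM fun a => ((ch ((l * tc α β a - x) / h) : ℝ) : ℂ) := fun l x =>
    BM.ofReal (C := 1) (by fun_prop) fun a => by rw [abs_of_nonneg (ch_nonneg _)]; exact ch_le_one _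
  have bm2 : ∀ l x : ℝ, BM fun a => ((nu R' (l * tc α β a - x) : ℝ) : ℂ) := fun l x =>
    BM.ofReal (C := 1) (by fun_prop) fun a => by
      rw [abs_of_nonneg (nu_nonneg _ _)]; exact nu_le_one _ _
  let H : ℝ → ℝ → ℝ := fun l x => ‖Cc.E (fun a => (nu R' (l * tc α β a - x) : ℂ))
    (P.E (fun a => (ch ((l * tc α β a - x) / h) : ℂ)) ζ)‖ ^ 2
  have hk : ∀ l, 0 < l → Integrable (H l) ∧
      ∫ x, H l x ≤ (⟪ζ, toi (Wc ![P, Cc, P] α β) c l ζ⟫_ℂ).re := fun l hl => by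
    have := hc K (P.map _ (measurable_tc α β)) (Cc.map _ (measurable_tc α β)) (hP.pvm.map _ _)
      (hC.map _ _) l hl T ζ ((P.E_apply_congr ((BM.ic measurableSet_Icc).comp (measurable_tc α β))
        (BM.ic mS) (aS.mono fun a ha => by
          simp only [ic_of_mem ha, ic_of_mem (show tc α β a ∈ Set.Icc (-T) T from
            abs_le.1 (hS a ha).2)])).trans hζ)
    rwa [toi_congr (W' := Wc ![P, Cc, P] α β) fun f _ => by
      rw [Wc, word_three, word_three]; rfl] at this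
  refine ⟨c, c1, c2, fun l hl => (integral_nonneg fun x => sq_nonneg _).trans (hk l hl).2,
    2 * ((⌈R' / h⌉₊ + 1 : ℕ) * (n₀ * B ^ 4)) / h + 1, by positivity, ?_⟩
  filter_upwards [hcl, eventually_gt_atTop 0, eventually_ge_atTop (2 * h)]
    with l hcl hl hlh F φ N ε hF
  set M : ℕ := ⌈l * T / h⌉₊ + 1 with hM
  have hHc : Continuous (H l) := by
    have s1 := (Cc.sCont_E (f := fun (x : ℝ) a => ((nu R' (l * tc α β a - x) : ℝ) : ℂ)) (C := 1)
      (fun x => (bm2 l x).1) (fun x a => by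
        rw [Complex.norm_real, Real.norm_of_nonneg (nu_nonneg _ _)]; exact nu_le_one _ _)
      fun a => by fun_prop).mul (P.sCont_E
        (f := fun (x : ℝ) a => ((ch ((l * tc α β a - x) / h) : ℝ) : ℂ)) (C := 1)
        (fun x => (bm1 l x).1) (fun x a => by
          rw [Complex.norm_real, Real.norm_of_nonneg (ch_nonneg _)]; exact ch_le_one _)
        fun a => by fun_prop)
    exact (s1.1 ζ).norm.pow 2
  obtain ⟨τ, τ0, τ1, hgrid⟩ := exists_grid (H := fun y => H l (h * y)) (by fun_prop) M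
  have hgrid' : ∑ n ∈ Finset.range (2 * M), H l (h * (n + τ - M))
      ≤ h⁻¹ * (⟪ζ, toi (Wc ![P, Cc, P] α β) c l ζ⟫_ℂ).re := by
    refine (hgrid.trans (setIntegral_le_integral ((hk l hl).1.comp_mul_left' h0.ne')
      (Eventually.of_forall fun x => sq_nonneg _))).trans ?_
    rw [Measure.integral_comp_mul_left (H l), abs_of_pos (inv_pos.2 h0), smul_eq_mul]
    gcongr; exact (hk l hl).2
  let x : ℕ → ℝ := fun n => h * (n + τ - M) / l
  have hlx : ∀ n, l * x n = h * (n + τ - M) := fun n => mul_div_cancel₀ _ hl.ne'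
  have hx : ∀ n ∈ Finset.range (2 * M), |x n| ≤ T + 1 := fun n hn => by
    have h1 : (n : ℝ) + 1 ≤ 2 * M := by exact_mod_cast Finset.mem_range.1 hn
    have h2 : (M : ℝ) ≤ l * T / h + 2 := by
      have := Nat.ceil_lt_add_one (show 0 ≤ l * T / h by positivity)
      rw [hM]; push_cast; linarith
    have h3 : |(n : ℝ) + τ - M| ≤ M := by
      rw [abs_le]; constructor <;> linarith [(Nat.cast_nonneg n : (0 : ℝ) ≤ n)]
    rw [abs_div, abs_mul, abs_of_pos h0, abs_of_pos hl, div_le_iff₀ hl]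
    have h4 : h * (l * T / h + 2) = l * T + 2 * h := by field_simp
    nlinarith [mul_le_mul_of_nonneg_left (h3.trans h2) h0.le]
  have hγ : ∀ b ∈ S', (α ⨯₃ β) ⬝ᵥ b ≠ 0 := fun b hb => abs_pos.1
    ((mul_pos hθ (norm_pos_iff.2 (hS' b hb).1)).trans_le (hS' b hb).2)
  let χ : ℕ → V → ℝ := fun n a => ch ((l * tc α β a - h * (n + τ - M)) / h)
  let co : ℕ → Γ → V → ℂ := fun n μ b => ic S' b * φ μ (pl α β (x n) b)
  have bco : ∀ n μ, BM (co n μ) := fun n μ =>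
    (BM.ic mS').mul ((hF.bmφ μ).comp (measurable_pl α β _))
  have hco : ∀ n μ b, co n μ b ≠ 0 → b ∈ S' ∧ φ μ (pl α β (x n) b) ≠ 0 := fun n μ b e =>
    ⟨by_contra fun hb => e (by simp [co, hb]), right_ne_zero_of_mul e⟩
  let G : Set (V × V) := (S ×ˢ S') ∩ {z | z.1 ⬝ᵥ z.2 = 0}
  have mF : MeasurableSet {z : V × V | z.1 ⬝ᵥ z.2 = 0} :=
    (isClosed_eq (by unfold dotProduct; fun_prop) continuous_const).measurableSet
  have mG : MeasurableSet G := (mS.prod mS').inter mF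
  have aG : ∀ᵐ z ∂J.ν ζ, z ∈ G := by
    have m1 : MeasurableSet {z : V × V | ‖z.1‖ = 1 ∧ ‖z.2‖ = 1 ∧ z.1 ⬝ᵥ z.2 = 0} :=
      (isClosed_eq (by fun_prop) continuous_const).measurableSet.inter
        ((isClosed_eq (by fun_prop) continuous_const).measurableSet.inter mF)
    have a1 := ae_mem J m1 (ζ := ζ) (by rw [hJ1]; rfl)
    have a2 := ae_mem J (mS.prod mS') (ζ := ζ) (by
      rw [show ic (S ×ˢ S') = fun z => ic S z.1 * ic S' z.2 from funext fun z => by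
        by_cases h1 : z.1 ∈ S <;> by_cases h2 : z.2 ∈ S' <;> simp [h1, h2],
        hJE _ _ (BM.ic mS) (BM.ic mS'), mul_apply_eq_comp, hζ', hζ])
    filter_upwards [a1, a2] with z h1 h2 using ⟨h2, h1.2.2⟩
  have bsum : ∀ μ, BM fun z : V × V => ∑ n ∈ Finset.range (2 * M), (χ n z.1 : ℂ) * co n μ z.2 :=
    fun μ => BM.sum _ fun n _ => ((bm1 l _).comp measurable_fst).mul ((bco n μ).comp measurable_snd)
  let er : Γ → V × V → ℂ := fun μ z =>
    ic G z * (φ μ z.1 - ∑ n ∈ Finset.range (2 * M), (χ n z.1 : ℂ) * co n μ z.2)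
  have ber : ∀ μ, BM (er μ) := fun μ =>
    (BM.ic mG).mul (((hF.bmφ μ).comp measurable_fst).sub (bsum μ))
  have hdec : ∀ μ, P.E (φ μ) ζ = J.E (er μ) ζ + ∑ n ∈ Finset.range (2 * M),
      Q.E (co n μ) (P.E (fun a => (χ n a : ℂ)) ζ) := fun μ => by
    have e1 := hJE _ _ (hF.bmφ μ) (BM.const 1)
    rw [Q.E_one, mul_one] at e1
    rw [← e1, J.E_apply_congr (((hF.bmφ μ).comp measurable_fst).mul (BM.const 1))
      ((ber μ).add (bsum μ)) (aG.mono fun z hz => by simp [er, ic_of_mem hz]),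
      J.E_add (ber μ) (bsum μ), J.E_sum _ fun n _ =>
        ((bm1 l _).comp measurable_fst).mul ((bco n μ).comp measurable_snd),
      _root_.add_apply, _root_.sum_apply]
    congr 1
    refine Finset.sum_congr rfl fun n _ => ?_
    rw [hJE _ _ (bm1 l _) (bco n μ), (hP.comm _ _ (bm1 l _) (bco n μ)).eq]; rfl
  have herr : ∑ μ ∈ F, ‖J.E (er μ) ζ‖ ^ 2 ≤ (n₀ + n₀ : ℕ) * ε ^ 2 * ‖ζ‖ ^ 2 := by
    refine J.sum_norm_E_sq_le F (fun μ _ => ber μ) (fun z => ?_) ζ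
    by_cases hz : z ∈ G
    swap
    · simp only [er, ic_of_notMem hz, zero_mul, norm_zero]; simp; positivity
    obtain ⟨⟨ha, hb⟩, hab⟩ := hz
    have h1 : ∑ n ∈ Finset.range (2 * M), χ n z.1 = 1 := by
      rw [← sum_ch (y := l * tc α β z.1 / h) τ0 τ1 (M := M) ?_]
      · refine Finset.sum_congr rfl fun n _ => ?_
        simp only [χ]; congr 1; field_simp
      · have := Nat.le_ceil (l * T / h)
        rw [hM, abs_div, abs_mul, abs_of_pos hl, abs_of_pos h0]; push_cast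
        have h2 : l * |tc α β z.1| / h ≤ l * T / h := by gcongr; exact (hS _ ha).2
        linarith
    have h2 : ∀ μ, ‖er μ z‖ ^ 2 ≤ ∑ n ∈ Finset.range (2 * M),
        χ n z.1 * ‖φ μ z.1 - φ μ (pl α β (x n) z.2)‖ ^ 2 := fun μ => by
      refine le_trans (le_of_eq ?_) (norm_sum_sq_le _ (w := fun n => χ n z.1)
        (fun n _ => ch_nonneg _) h1 _)
      simp only [er, co, ic_of_mem (show z ∈ G from ⟨⟨ha, hb⟩, hab⟩), ic_of_mem hb, one_mul, mul_sub,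
        Finset.sum_sub_distrib, ← Finset.sum_mul, ← Complex.ofReal_sum, h1, Complex.ofReal_one]
    refine (Finset.sum_le_sum fun μ _ => h2 μ).trans ?_
    rw [Finset.sum_comm, ← one_mul (((n₀ + n₀ : ℕ) : ℝ) * ε ^ 2), ← h1, Finset.sum_mul]
    refine Finset.sum_le_sum fun n _ => ?_
    rw [← Finset.mul_sum]
    rcases eq_or_ne (χ n z.1) 0 with e | e
    · simp [e]
    have ha0 : z.1 ≠ 0 := fun e => (hS _ ha).1 (by rw [e, dotProduct_zero])
    refine mul_le_mul_of_nonneg_left (hF.sum_sub ha0 (pl_ne_zero (hγ _ hb) _) ?_) (ch_nonneg _)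
    have h3 : l * |tc α β z.1 - x n| ≤ h := by
      have := not_le.1 (mt ch_eq_zero e)
      rw [abs_div, abs_of_pos h0, div_lt_one h0, ← hlx, ← mul_sub, abs_mul, abs_of_pos hl] at this
      exact this.le
    have h4 := mul_le_mul_of_nonneg_left (norm_cross_pl (β := β) (hS _ ha).1 hab (x n)) hl.le
    have h5 := le_norm_pl (hS' _ hb).2 (x n)
    refine le_of_mul_le_mul_left (a := θ) ?_ hθ
    have h6 := mul_le_mul_of_nonneg_left h3 (show 0 ≤ 3 * ‖α‖ * ‖z.1‖ * ‖z.2‖ by positivity)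
    have h7 := mul_le_mul_of_nonneg_left h5 (show 0 ≤ 3 * ‖α‖ * ‖z.1‖ * h by positivity)
    have h8 := mul_le_mul_of_nonneg_left hhη
      (show 0 ≤ ‖z.1‖ * ‖pl α β (x n) z.2‖ by positivity)
    nlinarith [mul_le_mul_of_nonneg_left (h4.trans (le_of_eq_of_le (by ring) h6)) hθ.le]
  have hmain : ∀ μ ∈ F, ‖Cc.E (N μ) (∑ n ∈ Finset.range (2 * M),
      Q.E (co n μ) (P.E (fun a => (χ n a : ℂ)) ζ))‖ ^ 2 ≤ (⌈R' / h⌉₊ + 1 : ℕ) *
        ∑ n ∈ Finset.range (2 * M), ‖J'.E (fun z => N μ z.1 * co n μ z.2)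
          (P.E (fun a => (χ n a : ℂ)) ζ)‖ ^ 2 := fun μ hμ => by
    have me : ∀ n, MeasurableSet {b | co n μ b ≠ 0} := fun n =>
      ((bco n μ).1 (measurableSet_singleton 0)).compl
    refine le_trans (le_of_eq ?_) (Q.norm_sum_E_sq_le _ (fun n _ => BM.ic (me n)) (by positivity)
      (fun b => ?_) _)
    · rw [map_sum]
      congr 2
      refine Finset.sum_congr rfl fun n _ => ?_
      have e1 : Cc.E (N μ) * Q.E (co n μ)
          = Q.E (ic {b | co n μ b ≠ 0}) * (Cc.E (N μ) * Q.E (co n μ)) := by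
        rw [← mul_assoc, ← (hCQ _ _ (hF.bmN μ) (BM.ic (me n))).eq, mul_assoc,
          ← hP.pvm' _ _ (BM.ic (me n)) (bco n μ)]
        congr 2; funext b
        by_cases e : co n μ b = 0 <;> simp [e]
      rw [hJE' _ _ (hF.bmN μ) (bco n μ)]
      exact congrArg (fun X : K →L[ℂ] K => X _) e1
    · rw [← mul_one ((⌈R' / h⌉₊ + 1 : ℕ) : ℝ)]
      refine sum_le_card zero_le_one (fun n _ => pow_le_one₀ (norm_nonneg _) (norm_ic_le _ _))
        fun s hs e => card_le_of_close fun n hn m hm => ?_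
      have e1 : ∀ n ∈ s, co n μ b ≠ 0 := fun n hn => by_contra fun e' => e n hn (by
        rw [ic_of_notMem (show b ∉ {b | co n μ b ≠ 0} from e')]; simp)
      obtain ⟨hb, p1⟩ := hco _ _ _ (e1 n hn)
      obtain ⟨-, p2⟩ := hco _ _ _ (e1 m hm)
      have := hcl b _ (x m) (hS' b hb).1 (hS' b hb).2 (hx m (hs hm)) (pl_ne_zero (hγ b hb) _)
        (hF.diam μ hμ _ _ (Or.inl p1) p2)
      rw [tc_pl (hγ b hb), hlx, hlx] at this
      have h1 : (n : ℝ) - m ≤ R' / h := by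
        rw [le_div_iff₀ h0]; linarith [(abs_le.1 this).2]
      have h2 := Nat.le_ceil (R' / h)
      exact_mod_cast (show (n : ℝ) ≤ m + ⌈R' / h⌉₊ by linarith)
  have hC' : ∀ n ∈ Finset.range (2 * M), ∀ v, ∑ μ ∈ F, ‖J'.E (fun z => N μ z.1 * co n μ z.2) v‖ ^ 2
      ≤ n₀ * B ^ 4 * ‖Cc.E (fun a => (nu R' (l * tc α β a - h * (n + τ - M)) : ℂ)) v‖ ^ 2 :=
    fun n hn v => by
      have b1 : ∀ μ, BM fun z : V × V => N μ z.1 * co n μ z.2 := fun μ =>
        ((hF.bmN μ).comp measurable_fst).mul ((bco n μ).comp measurable_snd)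
      have e1 := hJE' _ _ (bm2 l (h * (n + τ - M))) (BM.const 1)
      rw [Q.E_one, mul_one] at e1
      have b2 := ((bm2 l (h * (n + τ - M))).comp (measurable_fst (β := V))).mul (BM.const 1)
      have e2 : ∀ μ ∈ F, J'.E (fun z => N μ z.1 * co n μ z.2) v = J'.E (fun z => N μ z.1 * co n μ z.2)
          (Cc.E (fun a => (nu R' (l * tc α β a - h * (n + τ - M)) : ℂ)) v) := fun μ hμ => by
        rw [← e1, ← mul_apply_eq_comp, ← hJ' _ _ (b1 μ) b2]
        congr 2; funext z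
        by_cases e : N μ z.1 * co n μ z.2 = 0
        · rw [e, zero_mul]
        obtain ⟨hb, p⟩ := hco _ _ _ (right_ne_zero_of_mul e)
        have := hcl z.2 z.1 (x n) (hS' _ hb).1 (hS' _ hb).2 (hx n hn)
          (fun e' => left_ne_zero_of_mul e (by rw [e', hF.zN]))
          (hF.diam μ hμ _ _ (Or.inr (left_ne_zero_of_mul e)) p)
        rw [← hlx, nu_eq_one hR' this]; simp
      rw [Finset.sum_congr rfl fun μ hμ => by rw [e2 μ hμ]]
      refine J'.sum_norm_E_sq_le F (fun μ _ => b1 μ) (fun z => ?_) _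
      refine sum_le_card (by positivity) (fun μ _ => ?_) fun s hs e => ?_
      · have h1 := hF.bdN μ z.1
        have h2 : ‖co n μ z.2‖ ≤ B := by
          rw [norm_mul]
          exact (mul_le_of_le_one_left (norm_nonneg _) (norm_ic_le _ _)).trans (hF.bdφ μ _)
        rw [norm_mul, show B ^ 4 = (B * B) ^ 2 by ring]
        gcongr
        exact (norm_nonneg _).trans h1
      · rcases s.eq_empty_or_nonempty with rfl | ⟨μ, hμ⟩
        · simp
        have e3 : ∀ μ ∈ s, co n μ z.2 ≠ 0 := fun μ hμ e' => e μ hμ (by simp [e'])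
        exact hF.ov _ (pl_ne_zero (hγ _ (hco _ _ _ (e3 μ hμ)).1) _) s hs
          fun μ hμ => (hco _ _ _ (e3 μ hμ)).2
  have hsplit : ∀ μ ∈ F, ‖Cc.E (N μ) (P.E (φ μ) ζ)‖ ^ 2 ≤ 2 * B ^ 2 * ‖J.E (er μ) ζ‖ ^ 2 +
      2 * ((⌈R' / h⌉₊ + 1 : ℕ) * ∑ n ∈ Finset.range (2 * M), ‖J'.E (fun z => N μ z.1 * co n μ z.2)
          (P.E (fun a => (χ n a : ℂ)) ζ)‖ ^ 2) := fun μ hμ => by
    have hB : 0 ≤ B := (norm_nonneg _).trans (hF.bdN μ 0)
    have h1 := Cc.norm_E_apply_le (hF.bmN μ) hB (J.E (er μ) ζ) (Eventually.of_forall (hF.bdN μ))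
    have h2 := hmain μ hμ
    rw [hdec μ, map_add]
    generalize Cc.E (N μ) (J.E (er μ) ζ) = u at h1 ⊢
    generalize Cc.E (N μ) (∑ n ∈ Finset.range (2 * M), _) = w at h2 ⊢
    have h3 := pow_le_pow_left₀ (norm_nonneg _) h1 2
    have h4 := pow_le_pow_left₀ (norm_nonneg _) (norm_add_le u w) 2
    nlinarith [sq_nonneg (‖u‖ - ‖w‖)]
  refine (Finset.sum_le_sum hsplit).trans ?_
  rw [Finset.sum_add_distrib, ← Finset.mul_sum, ← Finset.mul_sum, ← Finset.mul_sum, Finset.sum_comm]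
  have h1 := (Finset.sum_le_sum fun n hn => hC' n hn (P.E (fun a => (χ n a : ℂ)) ζ))
  rw [← Finset.mul_sum] at h1
  have h2 := h1.trans (mul_le_mul_of_nonneg_left hgrid' (by positivity))
  have h3 := (integral_nonneg fun x => sq_nonneg _).trans (hk l hl).2
  refine add_le_add ((mul_le_mul_of_nonneg_left herr (by positivity)).trans_eq (by push_cast; ring))
    ((mul_le_mul_of_nonneg_left (mul_le_mul_of_nonneg_left h2 (by positivity)) zero_le_two).trans ?_)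
  rw [add_mul, one_mul]
  exact (le_of_eq (by rw [div_eq_mul_inv]; ring)).trans (le_add_of_nonneg_right h3)

end Crest.Agent.N111.St
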